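import Vale.Agent.P028.DS.Interfaces

/-!
P028, milestone A: counting the multiples of `x` near a class.
-/

namespace Vale.Agent.P028.DS

open Finset

/-- A set mapped injectively to integers of span `L` has at most `L + 1` elements. -/
lemma card_le_of_span {α : Type*} (s : Finset α) (f : α → ℤ) (hf : Set.InjOn f s) {L : ℝ}
    (hL : 0 ≤ L) (h : ∀ x ∈ s, ∀ x' ∈ s, (f x : ℝ) - f x' ≤ L) : (s.card : ℝ) ≤ L + 1 := by
  rcases s.eq_empty_or_nonempty with rfl | hne
  · simp; linarith
  have hne' : (s.image f).Nonempty := hne.image f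
  set lo := (s.image f).min' hne' with hlo
  set hi := (s.image f).max' hne' with hhi
  obtain ⟨x, hx, hxe⟩ := Finset.mem_image.mp ((s.image f).max'_mem hne')
  obtain ⟨x', hx', hxe'⟩ := Finset.mem_image.mp ((s.image f).min'_mem hne')
  have hsub : s.image f ⊆ Finset.Icc lo hi := fun j hj =>
    Finset.mem_Icc.mpr ⟨(s.image f).min'_le j hj, (s.image f).le_max' j hj⟩
  have hcard := Finset.card_le_card hsub
  rw [Finset.card_image_of_injOn hf, Int.card_Icc] at hcard
  have hle : lo ≤ hi := (s.image f).min'_le _ ((s.image f).max'_mem hne')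
  have h1 : ((s.card : ℕ) : ℤ) ≤ hi + 1 - lo := by omega
  have h2 : (s.card : ℝ) ≤ ((hi + 1 - lo : ℤ) : ℝ) := by exact_mod_cast h1
  have h3 := h x hx x' hx'
  rw [hxe, hxe'] at h3
  push_cast at h2
  linarith

/-- A finite set is at most (number of classes) times (size of a class). -/
lemma card_le_image_mul {α β : Type*} [DecidableEq β] (s : Finset α) (f : α → β) {n m : ℝ}
    (hm : 0 ≤ m) (hn : ((s.image f).card : ℝ) ≤ n)
    (h : ∀ b ∈ s.image f, ((s.filter fun a => f a = b).card : ℝ) ≤ m) : (s.card : ℝ) ≤ n * m := by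
  rw [Finset.card_eq_sum_card_image f s, Nat.cast_sum]
  refine (Finset.sum_le_sum h).trans ?_
  rw [Finset.sum_const, nsmul_eq_mul]
  exact mul_le_mul_of_nonneg_right hn hm

theorem count : CountStatement := by
  intro x t y δ M K S hy hy4 hδ hM hK hS hres
  obtain ⟨P, k, hk0, hkK, hk⟩ := Real.exists_int_int_abs_mul_sub_le x (n := K) (by omega)
  obtain ⟨Q, rfl⟩ := Int.eq_ofNat_of_zero_le hk0.le
  have hQ : 0 < Q := by exact_mod_cast hk0
  have hQK : Q ≤ K := by exact_mod_cast hkK
  set η' : ℝ := (Q : ℝ) * x - P with hη'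
  set η : ℝ := |η'| with hη
  have hηlo : δ / M < η := hres Q hQ hQK P
  have hη0 : 0 < η := lt_trans (by positivity) hηlo
  have hηK : η ≤ 1 / ((K : ℝ) + 1) := by
    rw [hη, hη']
    simpa using hk
  choose! l hl using fun m hm => (hS m hm).2
  set j : ℕ → ℤ := fun m => l m - ((m / Q : ℕ) : ℤ) * P with hj
  set r : ℕ → ℝ := fun m => ((m % Q : ℕ) : ℝ) * x - t with hr
  have hnear : ∀ m ∈ S, |r m + ((m / Q : ℕ) : ℝ) * η' - (j m : ℝ)| ≤ 2 * y := by
    intro m hm
    refine le_of_eq_of_le ?_ (hl m hm)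
    congr 1
    have e : ((m % Q : ℕ) : ℝ) + (Q : ℝ) * ((m / Q : ℕ) : ℝ) = m := by
      exact_mod_cast Nat.mod_add_div m Q
    simp only [hr, hj, hη', Int.cast_sub, Int.cast_mul, Int.cast_natCast]
    linear_combination x * e
  have hquot : ∀ m ∈ S, ((m / Q : ℕ) : ℝ) ≤ M / Q := fun m hm => by
    rw [le_div_iff₀ (by exact_mod_cast hQ)]
    refine le_trans ?_ (hS m hm).1
    exact_mod_cast Nat.div_mul_le_self m Q
  have hMQ : 0 ≤ M / Q := by positivity
  have hres' : ∀ c ∈ S.image (fun m => m % Q),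
      ((S.filter fun m => m % Q = c).card : ℝ) ≤ (M / Q * η + 2) * (4 * y / η + 1) := by
    intro c _
    refine card_le_image_mul _ j (by positivity) ?_ ?_
    · refine (card_le_of_span _ id Function.injective_id.injOn (L := M / Q * η + 4 * y)
        (by positivity) ?_).trans (by linarith)
      simp only [Finset.mem_image, Finset.mem_filter, id]
      rintro _ ⟨m, ⟨hm, hmc⟩, rfl⟩ _ ⟨m', ⟨hm', hmc'⟩, rfl⟩
      have e : r m = r m' := by simp only [hr]; rw [hmc, hmc']
      have h1 := abs_le.mp (hnear m hm)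
      have h2 := abs_le.mp (hnear m' hm')
      have h3 : (((m / Q : ℕ) : ℝ) - ((m' / Q : ℕ) : ℝ)) * η' ≤ M / Q * η := by
        refine le_trans (le_abs_self _) ?_
        rw [abs_mul, ← hη]
        refine mul_le_mul_of_nonneg_right ?_ hη0.le
        rw [abs_sub_le_iff]
        have := hquot m hm
        have := hquot m' hm'
        have : (0 : ℝ) ≤ ((m / Q : ℕ) : ℝ) := Nat.cast_nonneg _
        have : (0 : ℝ) ≤ ((m' / Q : ℕ) : ℝ) := Nat.cast_nonneg _
        constructor <;> linarith
      linarith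
    · intro b _
      refine card_le_of_span _ (fun m => ((m / Q : ℕ) : ℤ)) ?_ (by positivity) ?_
      · intro m hm m' hm' hd
        simp only [Finset.coe_filter, Set.mem_ofPred_eq, Finset.mem_filter] at hm hm'
        have hd' : m / Q = m' / Q := Int.ofNat_inj.mp hd
        calc m = m % Q + Q * (m / Q) := (Nat.mod_add_div m Q).symm
          _ = m' % Q + Q * (m' / Q) := by rw [hd', hm.1.2, hm'.1.2]
          _ = m' := Nat.mod_add_div m' Q
      · intro m hm m' hm'
        simp only [Finset.mem_filter] at hm hm'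
        have e : r m = r m' := by simp only [hr]; rw [hm.1.2, hm'.1.2]
        have ej : (j m : ℝ) = j m' := by rw [hm.2, hm'.2]
        have h1 := abs_le.mp (hnear m hm.1.1)
        have h2 := abs_le.mp (hnear m' hm'.1.1)
        have h3 : |(((m / Q : ℕ) : ℝ) - ((m' / Q : ℕ) : ℝ)) * η'| ≤ 4 * y := by
          rw [abs_le]; constructor <;> linarith
        rw [abs_mul, ← hη] at h3
        have h4 : |((m / Q : ℕ) : ℝ) - ((m' / Q : ℕ) : ℝ)| ≤ 4 * y / η := by
          rwa [le_div_iff₀ hη0]
        push_cast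
        exact (le_abs_self _).trans h4
  have himg : (((S.image fun m => m % Q).card : ℕ) : ℝ) ≤ Q := by
    have : (S.image fun m => m % Q) ⊆ Finset.range Q := by
      intro c hc
      obtain ⟨m, -, rfl⟩ := Finset.mem_image.mp hc
      exact Finset.mem_range.mpr (Nat.mod_lt _ hQ)
    exact_mod_cast (Finset.card_le_card this).trans_eq (Finset.card_range Q)
  refine (card_le_image_mul S (fun m => m % Q) (by positivity) himg hres').trans ?_
  have hQR : (Q : ℝ) ≤ K := by exact_mod_cast hQK
  have hQ0 : (0 : ℝ) < Q := by exact_mod_cast hQ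
  have hinv : y / η ≤ y * M / δ := by
    rw [div_le_div_iff₀ hη0 hδ]
    have : δ < η * M := by rwa [div_lt_iff₀ (by linarith)] at hηlo
    nlinarith
  have hMK : M * η ≤ M / K := by
    rw [le_div_iff₀ (by exact_mod_cast hK)]
    have : η * ((K : ℝ) + 1) ≤ 1 := by rwa [le_div_iff₀ (by positivity)] at hηK
    nlinarith
  have hK0 : (0 : ℝ) ≤ K := Nat.cast_nonneg _
  have h8 : (Q : ℝ) * (y / η) ≤ K * (y * M / δ) :=
    mul_le_mul hQR hinv (by positivity) hK0
  have hyM : 0 ≤ y * M := by positivity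
  calc (Q : ℝ) * ((M / Q * η + 2) * (4 * y / η + 1))
      = M * η + 4 * y * M + 2 * Q + 8 * ((Q : ℝ) * (y / η)) := by field_simp; ring
    _ ≤ M / K + 4 * y * M + 2 * K + 8 * ((K : ℝ) * (y * M / δ)) := by linarith
    _ ≤ _ := by
      have : 8 * (K : ℝ) * y * M / δ = 8 * ((K : ℝ) * (y * M / δ)) := by ring
      rw [this]; linarith

end Vale.Agent.P028.DS
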