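import Mathlib

/-!
P028, milestone A: definitions and frozen interfaces (see notes/P028/DS_A_helper3.md).
-/

namespace Vale.Agent.P028.DS

open Finset Real

/-- `P / Q` is a very good approximation of `γ` at radius `δ`. -/
def IsNear (γ δ : ℝ) (PQ : ℤ × ℕ) : Prop :=
  0 < PQ.2 ∧ IsCoprime PQ.1 (PQ.2 : ℤ) ∧ (PQ.2 : ℝ) ^ 50 * δ ^ 24 ≤ 1 ∧
    ((PQ.2 : ℝ) * γ - PQ.1) ^ 2 ≤ δ

open Classical in
/-- The approximation used to trim the numerators at radius `δ`. -/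
noncomputable def approx (γ δ : ℝ) : ℤ × ℕ :=
  if h : ∃ PQ, IsNear γ δ PQ then Classical.choose h else (1, 1)

lemma approx_cop {γ δ : ℝ} :
    IsCoprime (approx γ δ).1 ((approx γ δ).2 : ℤ) ∧ 0 < (approx γ δ).2 := by
  unfold approx
  split_ifs with h
  · exact ⟨(Classical.choose_spec h).2.1, (Classical.choose_spec h).1⟩
  · exact ⟨isCoprime_one_left, Nat.one_pos⟩

/-- At a small radius the good approximation is unique. -/
lemma approx_eq {γ δ : ℝ} (hδ0 : 0 < δ) (hδ : δ < (1 / 2) ^ 50) {P : ℤ} {Q : ℕ}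
    (h : IsNear γ δ (P, Q)) : approx γ δ = (P, Q) := by
  have hex : ∃ PQ, IsNear γ δ PQ := ⟨_, h⟩
  have hspec : IsNear γ δ (approx γ δ) := by
    rw [approx, dif_pos hex]; exact Classical.choose_spec hex
  obtain ⟨⟨P', Q'⟩, hPQ⟩ : ∃ PQ, approx γ δ = PQ := ⟨_, rfl⟩
  rw [hPQ] at hspec ⊢
  obtain ⟨hQ, hc, h8, h5⟩ := h
  obtain ⟨hQ', hc', h8', h5'⟩ := hspec
  simp only at hQ hc h8 h5 hQ' hc' h8' h5'
  have small : ∀ (u : ℕ) (z : ℝ), (u : ℝ) ^ 50 * δ ^ 24 ≤ 1 → z ^ 2 ≤ δ →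
      (u : ℝ) * |z| < 1 / 2 := by
    intro u z hu hz
    refine lt_of_pow_lt_pow_left₀ 50 ?_ ?_
    · positivity
    have hz' : (|z| ^ 2) ^ 25 ≤ δ ^ 25 :=
      pow_le_pow_left₀ (by positivity) (by rwa [sq_abs]) 25
    refine lt_of_le_of_lt ?_ hδ
    calc ((u : ℝ) * |z|) ^ 50 = (u : ℝ) ^ 50 * (|z| ^ 2) ^ 25 := by rw [← pow_mul |z| 2 25, mul_pow]
      _ ≤ (u : ℝ) ^ 50 * δ ^ 25 := mul_le_mul_of_nonneg_left hz' (pow_nonneg (Nat.cast_nonneg u) _)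
      _ = ((u : ℝ) ^ 50 * δ ^ 24) * δ := by ring
      _ ≤ 1 * δ := mul_le_mul_of_nonneg_right hu hδ0.le
      _ = δ := one_mul δ
  have k1 : P * (Q' : ℤ) = P' * Q := by
    have hb : |(((P * Q' - P' * Q : ℤ)) : ℝ)| < 1 := by
      have e : (((P * Q' - P' * Q : ℤ)) : ℝ) =
          (Q : ℝ) * ((Q' : ℝ) * γ - P') - (Q' : ℝ) * ((Q : ℝ) * γ - P) := by push_cast; ring
      rw [e]
      refine (abs_sub _ _).trans_lt ?_
      rw [abs_mul, abs_mul, Nat.abs_cast, Nat.abs_cast]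
      linarith [small Q _ h8 h5', small Q' _ h8' h5]
    have : |P * (Q' : ℤ) - P' * Q| < 1 := by exact_mod_cast hb
    rw [Int.abs_lt_one_iff] at this
    linarith
  have hQQ : Q' = Q := by
    refine Nat.dvd_antisymm ?_ ?_
    · exact Int.natCast_dvd_natCast.mp (hc'.symm.dvd_of_dvd_mul_left ⟨P, by linarith⟩)
    · exact Int.natCast_dvd_natCast.mp (hc.symm.dvd_of_dvd_mul_left ⟨P', by linarith⟩)
  subst hQQ
  have : P = P' := mul_right_cancel₀ (by exact_mod_cast hQ.ne') k1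
  rw [this]

/-- The numerators kept for `q`. -/
def Allowed (γ : ℝ) (ψ : ℕ → ℝ) (q : ℕ) (a : ℤ) : Prop :=
  ∀ p ∈ q.primeFactors, ¬ (p : ℤ) ∣ (approx γ (ψ q)).2 * a + (approx γ (ψ q)).1

/-- The trimmed set of denominator `q`. -/
def A (γ : ℝ) (ψ : ℕ → ℝ) (q : ℕ) : Set ℝ :=
  {x | ∃ a : ℤ, Allowed γ ψ q a ∧ |(q : ℝ) * x - a - γ| < ψ q}

/-- The cofactor `v / gcd (v, w)`. -/
def cof (v w : ℕ) : ℕ := v / Nat.gcd v w

/-- The distance scale `D` of a pair. -/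
noncomputable def rangeD (ψ : ℕ → ℝ) (v w : ℕ) : ℝ :=
  max ((cof w v : ℝ) * ψ v) ((cof v w : ℝ) * ψ w)

/-- `L` is an offset of a pair of kept numerators (their intervals may meet). -/
def LiveAt (γ : ℝ) (ψ : ℕ → ℝ) (v w : ℕ) (L : ℤ) : Prop :=
  |(L : ℝ) + γ * ((cof w v : ℝ) - cof v w)| < 2 * rangeD ψ v w ∧
    (2 ≤ cof v w →
      ((approx γ (ψ v)).2 : ℤ) * L + (approx γ (ψ v)).1 * ((cof w v : ℤ) - cof v w) ≠ 0) ∧
    (2 ≤ cof w v →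
      ((approx γ (ψ w)).2 : ℤ) * L + (approx γ (ψ w)).1 * ((cof w v : ℤ) - cof v w) ≠ 0)

/-- The trimmed sets of `v` and `w` may meet. -/
def Live (γ : ℝ) (ψ : ℕ → ℝ) (v w : ℕ) : Prop := ∃ L : ℤ, LiveAt γ ψ v w L

/-- The dyadic scale parameter `z`. -/
noncomputable def zpar (i : ℕ) : ℝ := 2 ^ i

/-- The exponent tying levels to `z`. -/
def expN : ℕ := 10000

/-- The level `y = z ^ (-expN)`. -/
noncomputable def lvl (i : ℕ) : ℝ := 1 / zpar i ^ expN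

/-- The two weighted radii of a pair lie in `[y / z², y]`. -/
def Bal (ψ : ℕ → ℝ) (i : ℕ) (v w : ℕ) : Prop :=
  lvl i / zpar i ^ 2 ≤ (cof w v : ℝ) * ψ v ∧ (cof w v : ℝ) * ψ v ≤ lvl i ∧
    lvl i / zpar i ^ 2 ≤ (cof v w : ℝ) * ψ w ∧ (cof v w : ℝ) * ψ w ≤ lvl i

open Classical in
/-- The sum of `f v * g w` over the edges. -/
noncomputable def edgeSum (E : ℕ → ℕ → Prop) (f g : ℕ → ℝ) (V W : Finset ℕ) : ℝ :=
  ∑ v ∈ V, ∑ w ∈ W, if E v w then f v * g w else 0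

/-- Nonnegative weights with `D ≤ 1` on every edge. -/
structure Admissible (E : ℕ → ℕ → Prop) (f g : ℕ → ℝ) : Prop where
  f_nonneg : ∀ v, 0 ≤ f v
  g_nonneg : ∀ w, 0 ≤ g w
  left_pos : ∀ v w, E v w → 0 < v
  right_pos : ∀ v w, E v w → 0 < w
  f_le : ∀ v w, E v w → (cof w v : ℝ) * f v ≤ 1
  g_le : ∀ v w, E v w → (cof v w : ℝ) * g w ≤ 1

/-- `∑_{d ∣ n} 1 / d`. -/
noncomputable def divSum (n : ℕ) : ℝ := ∑ d ∈ n.divisors, (1 : ℝ) / d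

end Vale.Agent.P028.DS
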