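import Vale.Agent.P028.DS.Interfaces

/-!
P028, milestone A: two more statements of parts (propositions only; each is proved in its own file).
-/

namespace Vale.Agent.P028.DS

open Finset Real

/-- Edges whose first cofactor is a multiple of `d` save a power of `d`. -/
def DivisStatement : Prop :=
  ∀ ε : ℝ, 0 < ε → ε ≤ 1 / 100 → ∀ ρ : ℝ, 1 ≤ ρ → ∃ C : ℝ, 0 < C ∧
    ∀ (E : ℕ → ℕ → Prop) (f g : ℕ → ℝ) (V W : Finset ℕ) (d : ℕ), 0 < d → Admissible E f g →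
      (∀ v ∈ V, divSum v ≤ ρ) → (∀ w ∈ W, divSum w ≤ ρ) → (∀ v w, E v w → d ∣ cof v w) →
      edgeSum E f g V W ≤
        C / (d : ℝ) ^ (1 / 3 : ℝ) * ((∑ v ∈ V, f v) * ∑ w ∈ W, g w) ^ (1 / 2 + ε)

open Classical in
/-- The anatomy of the typical denominators. -/
def TypicalStatement : Prop :=
  ∀ τ C : ℝ, 0 < τ → ∃ ρ c C' τ' : ℝ, 1 ≤ ρ ∧ 0 < c ∧ 0 ≤ C' ∧ 0 < τ' ∧ τ' ≤ 1 ∧
    ∀ q : ℕ, 0 < q → ∑ p ∈ q.primeFactors, Real.log p ^ τ / p ≤ C →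
      divSum q ≤ ρ ∧ c ≤ (q.totient : ℝ) / q ∧
        ∀ t : ℝ, 1 ≤ t →
          ∑ d ∈ q.divisors.filter (fun d : ℕ => (2 : ℝ) ^ t < d), (1 : ℝ) / d ≤ C' / t ^ τ'

end Vale.Agent.P028.DS
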