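import Vale.Agent.P028.DS.Leaf
import Vale.Agent.P028.DS.Interfaces2
import Vale.Agent.P028.EV.Anatomy

/-!
P028, milestone A: edges whose first cofactor is a multiple of `d` save a power of `d`.
-/

namespace Vale.Agent.P028.DS

open Finset Real

/-- The part of `n` at the primes of `d`. -/
def dpart (d n : ℕ) : ℕ := prodPow d.primeFactors fun p => n.factorization p

lemma dpart_pos (d n : ℕ) : 0 < dpart d n :=
  prodPow_pos (fun _ hp => Nat.prime_of_mem_primeFactors hp) _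

lemma factorization_dpart {d n p : ℕ} :
    (dpart d n).factorization p = if p ∈ d.primeFactors then n.factorization p else 0 := by
  classical
  have hS : ∀ p ∈ d.primeFactors, p.Prime := fun _ hp => Nat.prime_of_mem_primeFactors hp
  split_ifs with h
  · exact factorization_prodPow hS _ h
  · rw [dpart, prodPow, Nat.factorization_prod_apply fun l hl => (pow_pos (hS l hl).pos _).ne']
    refine Finset.sum_eq_zero fun l hl => ?_
    rw [(hS l hl).factorization_pow, Finsupp.single_eq_of_ne]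
    intro e
    exact h (e ▸ hl)

lemma dpart_dvd {d n : ℕ} (hn : 0 < n) : dpart d n ∣ n := by
  refine (Nat.factorization_le_iff_dvd (dpart_pos d n).ne' hn.ne').1 fun p => ?_
  rw [factorization_dpart]
  split_ifs <;> omega

lemma coprime_div_dpart {d n : ℕ} (hd : 0 < d) (hn : 0 < n) : (n / dpart d n).Coprime d := by
  refine Nat.coprime_of_dvd fun p hp h1 h2 => ?_
  have hpos : 0 < n / dpart d n :=
    Nat.div_pos (Nat.le_of_dvd hn (dpart_dvd hn)) (dpart_pos d n)
  have h3 := hp.factorization_pos_of_dvd hpos.ne' h1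
  rw [Nat.factorization_div (dpart_dvd hn), Finsupp.tsub_apply, factorization_dpart,
    if_pos (Nat.mem_primeFactors.2 ⟨hp, h2, hd.ne'⟩)] at h3
  omega

lemma mul_dpart_dvd {d v w : ℕ} (hd : 0 < d) (hv : 0 < v) (hw : 0 < w) (h : d ∣ cof v w) :
    d * dpart d w ∣ dpart d v := by
  refine (Nat.factorization_le_iff_dvd (Nat.mul_pos hd (dpart_pos d w)).ne' (dpart_pos d v).ne').1
    fun p => ?_
  rw [Nat.factorization_mul hd.ne' (dpart_pos d w).ne', Finsupp.add_apply, factorization_dpart,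
    factorization_dpart]
  by_cases hp : p ∈ d.primeFactors
  · rw [if_pos hp, if_pos hp]
    have hpp := Nat.prime_of_mem_primeFactors hp
    have h1 := hpp.factorization_pos_of_dvd hd.ne' (Nat.dvd_of_mem_primeFactors hp)
    have hg : Nat.gcd v w ∣ v := Nat.gcd_dvd_left v w
    have hc0 : 0 < cof v w := Nat.div_pos (Nat.le_of_dvd hv hg) (Nat.gcd_pos_of_pos_left _ hv)
    have h2 := (Nat.factorization_le_iff_dvd hd.ne' hc0.ne').2 h p
    rw [cof, Nat.factorization_div hg, Nat.factorization_gcd hv.ne' hw.ne', Finsupp.tsub_apply,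
      Finsupp.inf_apply] at h2
    replace h2 : d.factorization p ≤
        v.factorization p - min (v.factorization p) (w.factorization p) := h2
    omega
  · rw [if_neg hp, if_neg hp]
    rw [← Nat.support_factorization, Finsupp.notMem_support_iff] at hp
    omega

lemma primeFactors_dpart (d n : ℕ) : (dpart d n).primeFactors ⊆ d.primeFactors := by
  intro p hp
  rw [← Nat.support_factorization, Finsupp.mem_support_iff, factorization_dpart] at hp
  by_contra hne
  exact hp (if_neg hne)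

/-- Cofactors when the common part is taken out. -/
lemma cof_scaled {s t v w : ℕ} (hs : 0 < s) (ht : t.Coprime w) :
    cof (s * t * v) (s * w) = t * cof v w ∧ cof (s * w) (s * t * v) = cof w v := by
  have hg : Nat.gcd (s * t * v) (s * w) = s * Nat.gcd v w := by
    rw [mul_assoc, Nat.gcd_mul_left, Nat.Coprime.gcd_mul_left_cancel v ht]
  constructor
  · rw [cof, hg, mul_assoc, Nat.mul_div_mul_left _ _ hs, Nat.mul_div_assoc _ (Nat.gcd_dvd_left v w),
      cof]
  · rw [cof, Nat.gcd_comm, hg, Nat.mul_div_mul_left _ _ hs, cof, Nat.gcd_comm v w]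

lemma divSum_mono {m n : ℕ} (hn : n ≠ 0) (h : m ∣ n) : divSum m ≤ divSum n :=
  Finset.sum_le_sum_of_subset_of_nonneg (Nat.divisors_subset_of_dvd hn h) fun _ _ _ => by positivity

/-- One class. -/
lemma class_le {ε ρ C : ℝ} {E : ℕ → ℕ → Prop} {f g : ℕ → ℝ} {d s t : ℕ} (hε : 0 < ε)
    (hE : Admissible E f g) (hd : 0 < d) (hs : 0 < s) (ht : 0 < t)
    (htd : t.primeFactors ⊆ d.primeFactors)
    (hH : ∀ (E : ℕ → ℕ → Prop) (f g : ℕ → ℝ) (V W : Finset ℕ) (ρ : ℝ), 1 ≤ ρ → Admissible E f g →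
      (∀ v ∈ V, divSum v ≤ ρ) → (∀ w ∈ W, divSum w ≤ ρ) →
      edgeSum E f g V W ≤
        C * (ρ ^ 2) ^ (1 / 2 - ε) * ((∑ v ∈ V, f v) * ∑ w ∈ W, g w) ^ (1 / 2 + ε))
    (hρ : 1 ≤ ρ) {V W : Finset ℕ} (hV : ∀ v ∈ V, 0 < v ∧ dpart d v = s * t ∧ divSum v ≤ ρ)
    (hW : ∀ w ∈ W, 0 < w ∧ dpart d w = s ∧ divSum w ≤ ρ) :
    edgeSum E f g V W ≤ C * (ρ ^ 2) ^ (1 / 2 - ε) * (t : ℝ) ^ (-(1 / 2 - ε)) *
      ((∑ v ∈ V, f v) * ∑ w ∈ W, g w) ^ (1 / 2 + ε) := by
  classical
  set V' := V.image fun v => v / (s * t) with hV'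
  set W' := W.image fun w => w / s with hW'
  have eV : ∀ v ∈ V, s * t * (v / (s * t)) = v := fun v hv => by
    rw [← (hV v hv).2.1]; exact Nat.mul_div_cancel' (dpart_dvd (hV v hv).1)
  have eW : ∀ w ∈ W, s * (w / s) = w := fun w hw => by
    rw [← (hW w hw).2.1]; exact Nat.mul_div_cancel' (dpart_dvd (hW w hw).1)
  set E' : ℕ → ℕ → Prop := fun v w => E (s * t * v) (s * w) ∧ w.Coprime d
  set f' : ℕ → ℝ := fun v => f (s * t * v)
  set g' : ℕ → ℝ := fun w => (t : ℝ) * g (s * w)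
  have hcop : ∀ w : ℕ, w.Coprime d → t.Coprime w := fun w hw =>
    Nat.coprime_of_dvd fun p hp h1 h2 =>
      hp.not_dvd_one (hw ▸ Nat.dvd_gcd h2 (Nat.dvd_of_mem_primeFactors
        (htd (Nat.mem_primeFactors.2 ⟨hp, h1, ht.ne'⟩))))
  have hA : Admissible E' f' g' :=
    { f_nonneg := fun v => hE.f_nonneg _
      g_nonneg := fun w => mul_nonneg (Nat.cast_nonneg t) (hE.g_nonneg _)
      left_pos := fun v w h => Nat.pos_of_ne_zero fun e => (hE.left_pos _ _ h.1).ne' (by rw [e, mul_zero])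
      right_pos := fun v w h => Nat.pos_of_ne_zero fun e => (hE.right_pos _ _ h.1).ne' (by rw [e, mul_zero])
      f_le := fun v w h => by
        have := hE.f_le _ _ h.1
        rwa [(cof_scaled hs (hcop w h.2)).2] at this
      g_le := fun v w h => by
        have := hE.g_le _ _ h.1
        rw [(cof_scaled hs (hcop w h.2)).1, Nat.cast_mul] at this
        show (cof v w : ℝ) * ((t : ℝ) * g (s * w)) ≤ 1
        linarith }
  have injV : Set.InjOn (fun v => v / (s * t)) V := fun a ha b hb h => by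
    simp only at h; rw [← eV a ha, h, eV b hb]
  have injW : Set.InjOn (fun w => w / s) W := fun a ha b hb h => by
    simp only at h; rw [← eW a ha, h, eW b hb]
  have hcW : ∀ w ∈ W, (w / s).Coprime d := fun w hw => by
    rw [← (hW w hw).2.1]; exact coprime_div_dpart hd (hW w hw).1
  have hsum : edgeSum E' f' g' V' W' = (t : ℝ) * edgeSum E f g V W := by
    simp only [edgeSum, hV', hW', Finset.sum_image injV, Finset.sum_image injW, Finset.mul_sum]
    refine Finset.sum_congr rfl fun v hv => Finset.sum_congr rfl fun w hw => ?_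
    simp only [E', f', g', eV v hv, eW w hw, and_iff_left (hcW w hw)]
    split_ifs <;> ring
  have hX : ∑ v ∈ V', f' v = ∑ v ∈ V, f v := by
    rw [hV', Finset.sum_image injV]
    exact Finset.sum_congr rfl fun v hv => by simp only [f', eV v hv]
  have hY : ∑ w ∈ W', g' w = (t : ℝ) * ∑ w ∈ W, g w := by
    rw [hW', Finset.sum_image injW, Finset.mul_sum]
    exact Finset.sum_congr rfl fun w hw => by simp only [g', eW w hw]
  have h := hH E' f' g' V' W' ρ hρ hA
    (fun v hv => by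
      obtain ⟨u, hu, rfl⟩ := Finset.mem_image.1 hv
      exact (divSum_mono (hV u hu).1.ne' ⟨s * t, (eV u hu).symm.trans (mul_comm _ _)⟩).trans (hV u hu).2.2)
    (fun w hw => by
      obtain ⟨u, hu, rfl⟩ := Finset.mem_image.1 hw
      exact (divSum_mono (hW u hu).1.ne' ⟨s, (eW u hu).symm.trans (mul_comm _ _)⟩).trans (hW u hu).2.2)
  rw [hsum, hX, hY] at h
  have htR : (0 : ℝ) < t := by exact_mod_cast ht
  set X := ∑ v ∈ V, f v with hXd
  set Y := ∑ w ∈ W, g w with hYd
  have hX0 : 0 ≤ X := Finset.sum_nonneg fun v _ => hE.f_nonneg v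
  have hY0 : 0 ≤ Y := Finset.sum_nonneg fun w _ => hE.g_nonneg w
  rw [← mul_le_mul_iff_of_pos_left htR]
  refine h.trans (le_of_eq ?_)
  rw [show X * ((t : ℝ) * Y) = (t : ℝ) * (X * Y) by ring, Real.mul_rpow htR.le (mul_nonneg hX0 hY0),
    show (1 / 2 + ε : ℝ) = 1 + -(1 / 2 - ε) by ring, Real.rpow_add htR, Real.rpow_one]
  ring

/-- Powers with exponent at least one are superadditive. -/
lemma sum_rpow_le {ι : Type*} (T : Finset ι) (a : ι → ℝ) (ha : ∀ i ∈ T, 0 ≤ a i) {M e : ℝ}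
    (he : 1 ≤ e) (hM : ∑ i ∈ T, a i ≤ M) : ∑ i ∈ T, a i ^ e ≤ M ^ e := by
  have hM0 : 0 ≤ M := (Finset.sum_nonneg ha).trans hM
  have hsplit : ∀ x : ℝ, 0 ≤ x → x ^ e = x * x ^ (e - 1) := fun x hx => by
    conv_lhs => rw [show e = 1 + (e - 1) by ring,
      Real.rpow_add_of_nonneg hx zero_le_one (by linarith), Real.rpow_one]
  calc ∑ i ∈ T, a i ^ e ≤ ∑ i ∈ T, a i * M ^ (e - 1) := by
        refine Finset.sum_le_sum fun i hi => ?_
        rw [hsplit _ (ha i hi)]
        exact mul_le_mul_of_nonneg_left (Real.rpow_le_rpow (ha i hi)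
          ((Finset.single_le_sum ha hi).trans hM) (by linarith)) (ha i hi)
    _ = (∑ i ∈ T, a i) * M ^ (e - 1) := (Finset.sum_mul _ _ _).symm
    _ ≤ M * M ^ (e - 1) := mul_le_mul_of_nonneg_right hM (Real.rpow_nonneg hM0 _)
    _ = M ^ e := (hsplit M hM0).symm

/-- The smooth numbers of a modulus, weighted. -/
lemma exists_euler_bound : ∃ K : ℝ, 0 < K ∧ ∀ (d : ℕ) (U : Finset ℕ) (κ : ℝ), 0 < d →
    49 / 100 ≤ κ → (∀ u ∈ U, 0 < u ∧ u.primeFactors ⊆ d.primeFactors) →
    ∑ u ∈ U, (u : ℝ) ^ (-κ) ≤ K * (d : ℝ) ^ (1 / 10 : ℝ) := by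
  obtain ⟨C, hC, hdiv⟩ := EV.exists_card_divisors_le 20
  refine ⟨C ^ (1 / 10 : ℝ), Real.rpow_pos_of_pos hC _, fun d U κ hd hκ hU => ?_⟩
  refine (EV.sum_rpow_le_euler (σ := -κ) (by linarith) U d.primeFactors fun u hu =>
    Nat.mem_factoredNumbers_of_primeFactors_subset (hU u hu).1.ne' (hU u hu).2).trans ?_
  rw [Finset.filter_true_of_mem fun p hp => Nat.prime_of_mem_primeFactors hp]
  have h2 : (2 : ℝ) ^ (-(3 / 7) : ℝ) ≤ 3 / 4 := by
    refine le_of_pow_le_pow_left₀ (n := 7) (by norm_num) (by norm_num) ?_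
    rw [← Real.rpow_natCast, ← Real.rpow_mul two_pos.le]
    norm_num
  have hf : ∀ p ∈ d.primeFactors, 0 ≤ (1 - (p : ℝ) ^ (-κ))⁻¹ ∧ (1 - (p : ℝ) ^ (-κ))⁻¹ ≤ 4 := by
    intro p hp
    have hp2 : (2 : ℝ) ≤ p := by exact_mod_cast (Nat.prime_of_mem_primeFactors hp).two_le
    have h3 : (p : ℝ) ^ (-κ) ≤ 3 / 4 :=
      ((Real.rpow_le_rpow_of_nonpos two_pos hp2 (by linarith)).trans
        (Real.rpow_le_rpow_of_exponent_le one_le_two (by linarith))).trans h2
    exact ⟨inv_nonneg.2 (by linarith), by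
      rw [inv_le_iff_one_le_mul₀ (by linarith)]; linarith⟩
  refine (Finset.prod_le_prod (fun p hp => (hf p hp).1) fun p hp => (hf p hp).2).trans ?_
  rw [Finset.prod_const]
  have hτ' : ((2 : ℝ) ^ d.primeFactors.card) ≤ (d.divisors.card : ℝ) := by
    exact_mod_cast EV.two_pow_card_le_divisors hd.ne'
  set τ : ℝ := (d.divisors.card : ℝ)
  have hτ : ((2 : ℝ) ^ d.primeFactors.card) ≤ τ := hτ'
  have hτ0 : 0 ≤ τ := Nat.cast_nonneg _
  calc (4 : ℝ) ^ d.primeFactors.card = ((2 : ℝ) ^ d.primeFactors.card) ^ 2 := by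
        rw [← pow_mul, mul_comm, pow_mul]; norm_num
    _ ≤ τ ^ 2 := pow_le_pow_left₀ (by positivity) hτ 2
    _ = (τ ^ 20) ^ (1 / 10 : ℝ) := by
        rw [← Real.rpow_natCast, ← Real.rpow_natCast, ← Real.rpow_mul hτ0]; norm_num
    _ ≤ (C * d) ^ (1 / 10 : ℝ) := Real.rpow_le_rpow (by positivity) (hdiv d hd.ne') (by norm_num)
    _ = _ := Real.mul_rpow hC.le (Nat.cast_nonneg d)

/-- Edges whose first cofactor is a multiple of `d` save a power of `d`. -/
theorem divis : DivisStatement := by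
  classical
  intro ε hε hε' ρ hρ
  obtain ⟨C, hC, hH⟩ := homog ε hε hε'
  obtain ⟨K, hK, hEuler⟩ := exists_euler_bound
  set R : ℝ := C * (ρ ^ 2) ^ (1 / 2 - ε) with hR
  have hR0 : 0 < R := mul_pos hC (Real.rpow_pos_of_pos (by positivity) _)
  refine ⟨R * K, mul_pos hR0 hK, fun E f g V W d hd hA hdV hdW hdvd => ?_⟩
  set e : ℝ := 1 / 2 + ε with he
  set κ : ℝ := 1 / 2 - ε with hκ
  set rV := V.filter fun v => 0 < v with hrV
  set rW := W.filter fun w => 0 < w with hrW
  set Rs := rV.image (dpart d) with hRs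
  set Ss := rW.image (dpart d) with hSs
  set X : ℕ → ℝ := fun n => ∑ v ∈ rV.filter (fun v => dpart d v = n), f v with hX
  set Y : ℕ → ℝ := fun n => ∑ w ∈ rW.filter (fun w => dpart d w = n), g w with hY
  have hX0 : ∀ n, 0 ≤ X n := fun n => Finset.sum_nonneg fun v _ => hA.f_nonneg v
  have hY0 : ∀ n, 0 ≤ Y n := fun n => Finset.sum_nonneg fun v _ => hA.g_nonneg v
  set U := ((Rs ×ˢ Ss).filter fun rs => d * rs.2 ∣ rs.1).image fun rs => rs.1 / (d * rs.2) with hU
  have hd0 : (0 : ℝ) < d := by exact_mod_cast hd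
  have hUmem : ∀ u ∈ U, 0 < u ∧ u.primeFactors ⊆ d.primeFactors := by
    intro u hu
    obtain ⟨⟨r, s⟩, hrs, rfl⟩ := Finset.mem_image.1 hu
    obtain ⟨hrs, hdv⟩ := Finset.mem_filter.1 hrs
    obtain ⟨v, -, rfl⟩ := Finset.mem_image.1 (Finset.mem_product.1 hrs).1
    obtain ⟨w, -, rfl⟩ := Finset.mem_image.1 (Finset.mem_product.1 hrs).2
    exact ⟨Nat.div_pos (Nat.le_of_dvd (dpart_pos d v) hdv) (Nat.mul_pos hd (dpart_pos d w)),
      (Nat.primeFactors_mono (Nat.div_dvd_of_dvd hdv) (dpart_pos d v).ne').trans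
        (primeFactors_dpart d v)⟩
  -- the classes
  have hsplit : edgeSum E f g V W =
      ∑ s ∈ Ss, ∑ r ∈ Rs, edgeSum E f g (rV.filter fun v => dpart d v = r)
        (rW.filter fun w => dpart d w = s) := by
    have hz : edgeSum E f g V W = edgeSum E f g rV rW := by
      simp only [edgeSum, hrV, hrW, Finset.sum_filter]
      refine Finset.sum_congr rfl fun v _ => ?_
      split_ifs with hv
      · refine Finset.sum_congr rfl fun w _ => ?_
        split_ifs with h1 h2 <;> first | rfl | exact absurd (hA.right_pos v w h1) h2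
      · exact Finset.sum_eq_zero fun w _ => if_neg fun h => hv (hA.left_pos v w h)
    rw [hz, Finset.sum_comm]
    simp only [edgeSum]
    rw [← Finset.sum_fiberwise_of_maps_to (g := dpart d) (s := rV) (t := Rs)
      (fun v hv => Finset.mem_image_of_mem _ hv)]
    refine Finset.sum_congr rfl fun r _ => ?_
    rw [Finset.sum_comm (s := Ss)]
    refine Finset.sum_congr rfl fun v _ => ?_
    exact (Finset.sum_fiberwise_of_maps_to (fun w hw => Finset.mem_image_of_mem _ hw) _).symm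
  set T : ℕ → ℕ → ℝ := fun u s => R * (((d * u : ℕ) : ℝ) ^ (-κ)) * (X (s * (d * u)) * Y s) ^ e
  have hT0 : ∀ u s, 0 ≤ T u s := fun u s =>
    mul_nonneg (mul_nonneg hR0.le (Real.rpow_nonneg (Nat.cast_nonneg _) _))
      (Real.rpow_nonneg (mul_nonneg (hX0 _) (hY0 _)) _)
  have hclass : ∀ s ∈ Ss, ∑ r ∈ Rs, edgeSum E f g (rV.filter fun v => dpart d v = r)
      (rW.filter fun w => dpart d w = s) ≤ ∑ u ∈ U, T u s := by
    intro s hs
    obtain ⟨w₀, -, rfl⟩ := Finset.mem_image.1 hs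
    set s := dpart d w₀ with hsd
    have hs0 : 0 < s := dpart_pos d w₀
    have hz : ∀ r ∈ Rs, ¬ d * s ∣ r → edgeSum E f g (rV.filter fun v => dpart d v = r)
        (rW.filter fun w => dpart d w = s) = 0 := by
      intro r _ hr
      refine Finset.sum_eq_zero fun v hv => Finset.sum_eq_zero fun w hw => if_neg fun h => hr ?_
      rw [← (Finset.mem_filter.1 hv).2, ← (Finset.mem_filter.1 hw).2]
      exact mul_dpart_dvd hd (hA.left_pos v w h) (hA.right_pos v w h) (hdvd v w h)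
    rw [← Finset.sum_filter_of_ne (p := fun r => d * s ∣ r) fun r hr hne => by
      by_contra hc; exact hne (hz r hr hc)]
    calc ∑ r ∈ Rs.filter (fun r => d * s ∣ r), edgeSum E f g (rV.filter fun v => dpart d v = r)
          (rW.filter fun w => dpart d w = s)
        ≤ ∑ r ∈ Rs.filter (fun r => d * s ∣ r), T (r / (d * s)) s := by
          refine Finset.sum_le_sum fun r hr => ?_
          obtain ⟨hr, hdv⟩ := Finset.mem_filter.1 hr
          obtain ⟨v₀, -, rfl⟩ := Finset.mem_image.1 hr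
          set u := dpart d v₀ / (d * s) with hu
          have er : s * (d * u) = dpart d v₀ := by
            rw [hu, ← mul_assoc, mul_comm s d]; exact Nat.mul_div_cancel' hdv
          have hu0 : 0 < u :=
            Nat.div_pos (Nat.le_of_dvd (dpart_pos d v₀) hdv) (Nat.mul_pos hd hs0)
          have h := class_le (t := d * u) hε hA hd hs0 (Nat.mul_pos hd hu0)
            ((Nat.primeFactors_mono ⟨s, (er.symm.trans (mul_comm _ _))⟩ (dpart_pos d v₀).ne').trans
              (primeFactors_dpart d v₀)) hH hρ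
            (V := rV.filter fun v => dpart d v = dpart d v₀) (W := rW.filter fun w => dpart d w = s)
            (fun v hv => by
              obtain ⟨hv, hv'⟩ := Finset.mem_filter.1 hv
              exact ⟨(Finset.mem_filter.1 hv).2, hv'.trans er.symm, hdV v (Finset.mem_filter.1 hv).1⟩)
            (fun w hw => by
              obtain ⟨hw, hw'⟩ := Finset.mem_filter.1 hw
              exact ⟨(Finset.mem_filter.1 hw).2, hw', hdW w (Finset.mem_filter.1 hw).1⟩)
          show _ ≤ T u s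
          simp only [T, er]
          exact h
      _ = ∑ u ∈ (Rs.filter (fun r => d * s ∣ r)).image (fun r => r / (d * s)), T u s := by
          rw [Finset.sum_image fun a ha b hb hab => ?_]
          replace hab : a / (d * s) = b / (d * s) := hab
          rw [← Nat.mul_div_cancel' (Finset.mem_filter.1 ha).2, hab,
            Nat.mul_div_cancel' (Finset.mem_filter.1 hb).2]
      _ ≤ ∑ u ∈ U, T u s := by
          refine Finset.sum_le_sum_of_subset_of_nonneg (fun u hu => ?_) fun u _ _ => hT0 u s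
          obtain ⟨r, hr, rfl⟩ := Finset.mem_image.1 hu
          obtain ⟨hr, hdv⟩ := Finset.mem_filter.1 hr
          exact Finset.mem_image.2
            ⟨(r, s), Finset.mem_filter.2 ⟨Finset.mem_product.2 ⟨hr, hs⟩, hdv⟩, rfl⟩
  set X₀ := ∑ v ∈ V, f v with hX₀
  set Y₀ := ∑ w ∈ W, g w with hY₀
  have hX₀0 : 0 ≤ X₀ := Finset.sum_nonneg fun v _ => hA.f_nonneg v
  have hY₀0 : 0 ≤ Y₀ := Finset.sum_nonneg fun v _ => hA.g_nonneg v
  have hmass : ∀ (F : Finset ℕ) (h : ℕ → ℝ), (∀ v, 0 ≤ h v) → ∀ (A I : Finset ℕ), F ⊆ A →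
      ∑ n ∈ I, ∑ v ∈ F.filter (fun v => dpart d v = n), h v ≤ ∑ v ∈ A, h v := by
    intro F h hh A I hFA
    rw [← Finset.sum_biUnion]
    · refine Finset.sum_le_sum_of_subset_of_nonneg (fun v hv => ?_) fun v _ _ => hh v
      obtain ⟨n, -, hn⟩ := Finset.mem_biUnion.1 hv
      exact hFA (Finset.mem_filter.1 hn).1
    · intro a _ b _ hab
      refine Finset.disjoint_left.2 fun v ha hb => hab ?_
      rw [← (Finset.mem_filter.1 ha).2, (Finset.mem_filter.1 hb).2]
  have hcs : ∀ u ∈ U, ∑ s ∈ Ss, (X (s * (d * u)) * Y s) ^ e ≤ (X₀ * Y₀) ^ e := by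
    intro u hu
    have hu0 := (hUmem u hu).1
    have hrt : ∀ x : ℝ, 0 ≤ x → x ^ e = √(x ^ (2 * e)) := fun x hx => by
      rw [Real.sqrt_eq_rpow, ← Real.rpow_mul hx]; ring_nf
    calc ∑ s ∈ Ss, (X (s * (d * u)) * Y s) ^ e
        = ∑ s ∈ Ss, √(X (s * (d * u)) ^ (2 * e)) * √(Y s ^ (2 * e)) :=
          Finset.sum_congr rfl fun s _ => by
            rw [Real.mul_rpow (hX0 _) (hY0 _), hrt _ (hX0 _), hrt _ (hY0 _)]
      _ ≤ √(∑ s ∈ Ss, X (s * (d * u)) ^ (2 * e)) * √(∑ s ∈ Ss, Y s ^ (2 * e)) :=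
          Real.sum_sqrt_mul_sqrt_le _ (fun s => Real.rpow_nonneg (hX0 _) _)
            (fun s => Real.rpow_nonneg (hY0 _) _)
      _ ≤ √(X₀ ^ (2 * e)) * √(Y₀ ^ (2 * e)) := by
          refine mul_le_mul (Real.sqrt_le_sqrt ?_) (Real.sqrt_le_sqrt ?_) (Real.sqrt_nonneg _)
            (Real.sqrt_nonneg _)
          · refine sum_rpow_le _ _ (fun s _ => hX0 _) (by linarith) ?_
            rw [← Finset.sum_image (f := X) fun a _ b _ hab =>
              Nat.eq_of_mul_eq_mul_right (Nat.mul_pos hd hu0) hab]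
            exact hmass rV f hA.f_nonneg V _ (Finset.filter_subset _ _)
          · exact sum_rpow_le _ _ (fun s _ => hY0 _) (by linarith)
              (hmass rW g hA.g_nonneg W _ (Finset.filter_subset _ _))
      _ = (X₀ * Y₀) ^ e := by rw [← hrt _ hX₀0, ← hrt _ hY₀0, Real.mul_rpow hX₀0 hY₀0]
  rw [hsplit]
  refine (Finset.sum_le_sum hclass).trans ?_
  rw [Finset.sum_comm]
  have hP0 : 0 ≤ (X₀ * Y₀) ^ e := Real.rpow_nonneg (mul_nonneg hX₀0 hY₀0) _
  calc ∑ u ∈ U, ∑ s ∈ Ss, T u s ≤ ∑ u ∈ U, R * ((d : ℝ) ^ (-κ) * (u : ℝ) ^ (-κ)) * (X₀ * Y₀) ^ e := by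
        refine Finset.sum_le_sum fun u hu => ?_
        simp only [T, ← Finset.mul_sum]
        rw [Nat.cast_mul, Real.mul_rpow hd0.le (Nat.cast_nonneg u)]
        exact mul_le_mul_of_nonneg_left (hcs u hu) (mul_nonneg hR0.le (mul_nonneg
          (Real.rpow_nonneg hd0.le _) (Real.rpow_nonneg (Nat.cast_nonneg u) _)))
    _ = R * (d : ℝ) ^ (-κ) * (∑ u ∈ U, (u : ℝ) ^ (-κ)) * (X₀ * Y₀) ^ e := by
        generalize (X₀ * Y₀) ^ e = P
        rw [Finset.mul_sum, Finset.sum_mul]
        exact Finset.sum_congr rfl fun u _ => by ring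
    _ ≤ R * (d : ℝ) ^ (-κ) * (K * (d : ℝ) ^ (1 / 10 : ℝ)) * (X₀ * Y₀) ^ e := by
        refine mul_le_mul_of_nonneg_right (mul_le_mul_of_nonneg_left
          (hEuler d U κ hd (by linarith) hUmem) ?_) hP0
        exact mul_nonneg hR0.le (Real.rpow_nonneg hd0.le _)
    _ = R * K * ((d : ℝ) ^ (-κ) * (d : ℝ) ^ (1 / 10 : ℝ)) * (X₀ * Y₀) ^ e := by ring
    _ ≤ R * K / (d : ℝ) ^ (1 / 3 : ℝ) * (X₀ * Y₀) ^ e := by
        refine mul_le_mul_of_nonneg_right ?_ hP0
        rw [← Real.rpow_add hd0, div_eq_mul_inv (R * K), ← Real.rpow_neg hd0.le]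
        exact mul_le_mul_of_nonneg_left (Real.rpow_le_rpow_of_exponent_le
          (by exact_mod_cast hd) (by linarith)) (mul_pos hR0 hK).le

end Vale.Agent.P028.DS
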