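import Vale.Agent.P028.DS.EngineDefs

/-!
P028: the bilinear engine.
-/

namespace Vale.Agent.P028.DS

open Finset Real

/-- Crude local bound at small primes. -/
lemma sum_wt_crude {I J : Finset ℕ} {x y : ℕ → ℝ} {e : ℝ} (he : 1 / 2 ≤ e) {q : ℝ} (hq0 : 0 ≤ q)
    (hq : q ≤ 9 / 10) (hx : ∀ i ∈ I, 0 ≤ x i) (hy : ∀ j ∈ J, 0 ≤ y j)
    (hxs : ∑ i ∈ I, x i ≤ 1) (hys : ∑ j ∈ J, y j ≤ 1) :
    ∑ i ∈ I, ∑ j ∈ J, q ^ Nat.dist i j * (x i * y j) ^ e ≤ 20 := by
  have hgeo : ∀ (T : Finset ℕ) (k : ℕ), ∑ i ∈ T, q ^ Nat.dist i k ≤ 20 := by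
    intro T k
    have hside : ∀ (U : Finset ℕ), Set.InjOn (fun i => Nat.dist i k) U →
        ∑ i ∈ U, q ^ Nat.dist i k ≤ 10 := by
      intro U hinj
      rw [← Finset.sum_image (f := fun n => q ^ n) hinj]
      refine (Finset.sum_le_sum_of_subset_of_nonneg
        (t := Finset.range ((U.image fun i => Nat.dist i k).sup id + 1)) (fun n hn => ?_)
        fun _ _ _ => pow_nonneg hq0 _).trans ?_
      · have := Finset.le_sup (f := id) hn
        simp only [id_eq] at this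
        simp only [Finset.mem_range]; omega
      · set N := (U.image fun i => Nat.dist i k).sup id + 1
        refine le_of_mul_le_mul_right ?_ (show (0 : ℝ) < 1 - q by linarith)
        rw [geom_sum_mul_neg]
        linarith [pow_nonneg hq0 N]
    rw [← Finset.sum_filter_add_sum_filter_not T (k ≤ ·)]
    have h1 := hside (T.filter (k ≤ ·)) (fun a ha b hb hab => by
      simp only [Finset.coe_filter, Set.mem_ofPred_eq] at ha hb
      simp only [Nat.dist] at hab; omega)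
    have h2 := hside (T.filter (fun i => ¬ k ≤ i)) (fun a ha b hb hab => by
      simp only [Finset.coe_filter, Set.mem_ofPred_eq] at ha hb
      simp only [Nat.dist] at hab; omega)
    linarith
  have hx1 : ∀ i ∈ I, x i ≤ 1 := fun i hi => (Finset.single_le_sum hx hi).trans hxs
  have hy1 : ∀ j ∈ J, y j ≤ 1 := fun j hj => (Finset.single_le_sum hy hj).trans hys
  have key : ∀ i ∈ I, ∀ j ∈ J, q ^ Nat.dist i j * (x i * y j) ^ e ≤
      q ^ Nat.dist i j * x i / 2 + q ^ Nat.dist i j * y j / 2 := by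
    intro i hi j hj
    have h1 := rpow_two_le he (hx i hi) (hx1 i hi)
    have h2 := rpow_two_le he (hy j hj) (hy1 j hj)
    rw [Real.one_rpow, one_mul] at h1 h2
    have h3 := mul_le_mul_of_nonneg_left
      ((mul_rpow_le (e := e) (by linarith) (hx i hi) (hy j hj)).trans
        (div_le_div_of_nonneg_right (add_le_add h1 h2) (by norm_num)))
      (pow_nonneg hq0 (Nat.dist i j))
    linarith
  refine (Finset.sum_le_sum fun i hi => Finset.sum_le_sum (key i hi)).trans ?_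
  simp only [Finset.sum_add_distrib]
  have hA : ∑ i ∈ I, ∑ j ∈ J, q ^ Nat.dist i j * x i / 2 ≤ 10 := by
    calc _ ≤ ∑ i ∈ I, 10 * x i := Finset.sum_le_sum fun i hi => by
          rw [← Finset.sum_div, ← Finset.sum_mul]
          have h := hgeo J i
          simp only [Nat.dist_comm _ i] at h
          have := mul_le_mul_of_nonneg_right h (hx i hi)
          linarith
      _ ≤ _ := by rw [← Finset.mul_sum]; linarith
  have hB : ∑ i ∈ I, ∑ j ∈ J, q ^ Nat.dist i j * y j / 2 ≤ 10 := by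
    rw [Finset.sum_comm]
    calc _ ≤ ∑ j ∈ J, 10 * y j := Finset.sum_le_sum fun j hj => by
          rw [← Finset.sum_div, ← Finset.sum_mul]
          have := mul_le_mul_of_nonneg_right (hgeo I j) (hy j hj)
          linarith
      _ ≤ _ := by rw [← Finset.mul_sum]; linarith
  linarith

section Split

variable {P : Par} {S : Finset ℕ} {E : ℕ → ℕ → Prop} {f g : ℕ → ℝ}

/-- The mass of a fibre. -/
noncomputable def fib (f : ℕ → ℝ) (V : Finset ℕ) (p i : ℕ) : ℝ :=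
  ∑ v ∈ V.filter (fun v => v.factorization p = i), f v

lemma edgeSum_fibers (V W : Finset ℕ) (p : ℕ) :
    edgeSum E f g V W = ∑ i ∈ V.image (fun v => v.factorization p),
      ∑ j ∈ W.image (fun w => w.factorization p),
        edgeSum E f g (V.filter fun v => v.factorization p = i)
          (W.filter fun w => w.factorization p = j) := by
  classical
  unfold edgeSum
  rw [← Finset.sum_fiberwise_of_maps_to (g := fun v => v.factorization p)
    (t := V.image fun v => v.factorization p) (fun v hv => Finset.mem_image_of_mem _ hv)]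
  refine Finset.sum_congr rfl fun i _ => ?_
  rw [Finset.sum_comm (s := W.image _)]
  refine Finset.sum_congr rfl fun v _ => ?_
  rw [Finset.sum_fiberwise_of_maps_to (fun w hw => Finset.mem_image_of_mem _ hw)]

lemma fib_sum (V : Finset ℕ) (p : ℕ) :
    ∑ i ∈ V.image (fun v => v.factorization p), fib f V p i = ∑ v ∈ V, f v :=
  Finset.sum_fiberwise_of_maps_to (fun v hv => Finset.mem_image_of_mem _ hv) _

lemma fib_nonneg {V : Finset ℕ} (hf : ∀ v ∈ V, 0 < f v) (p i : ℕ) : 0 ≤ fib f V p i :=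
  Finset.sum_nonneg fun v hv => (hf v (Finset.mem_of_mem_filter v hv)).le

/-- Splitting at an open prime. -/
lemma split_le (hS : ∀ p ∈ S, p.Prime) {p : ℕ} (hp : p ∈ S) {V W V' W' : Finset ℕ}
    (hV : V' ⊆ V) (hW : W' ⊆ W) (hres : ¬ Res V W p) (hf : ∀ v ∈ V, 0 < f v) (hg : ∀ w ∈ W, 0 < g w)
    {B : ℝ} (hB : 0 ≤ B)
    (IH : ∀ V₁ W₁, V₁ ⊆ V → W₁ ⊆ W → V₁.Nonempty → W₁.Nonempty → Res V₁ W₁ p →
      edgeSum E f g V₁ W₁ ≤ B * P.H S V₁ W₁ * ((∑ v ∈ V₁, f v) * ∑ w ∈ W₁, g w) ^ P.e) :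
    edgeSum E f g V' W' ≤ B * P.H S V W *
      ∑ i ∈ V'.image (fun v => v.factorization p), ∑ j ∈ W'.image (fun w => w.factorization p),
        P.wt p i j * (fib f V' p i * fib g W' p j) ^ P.e := by
  classical
  rw [edgeSum_fibers V' W' p, Finset.mul_sum]
  refine Finset.sum_le_sum fun i hi => ?_
  rw [Finset.mul_sum]
  refine Finset.sum_le_sum fun j hj => ?_
  set V₁ := V'.filter fun v => v.factorization p = i
  set W₁ := W'.filter fun w => w.factorization p = j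
  obtain ⟨v, hv, hvi⟩ := Finset.mem_image.1 hi
  obtain ⟨w, hw, hwj⟩ := Finset.mem_image.1 hj
  have hV₁ : V₁.Nonempty := ⟨v, Finset.mem_filter.2 ⟨hv, hvi⟩⟩
  have hW₁ : W₁.Nonempty := ⟨w, Finset.mem_filter.2 ⟨hw, hwj⟩⟩
  have hsV : V₁ ⊆ V := (Finset.filter_subset _ _).trans hV
  have hsW : W₁ ⊆ W := (Finset.filter_subset _ _).trans hW
  have hi' : ∀ u ∈ V₁, u.factorization p = i := fun u hu => (Finset.mem_filter.1 hu).2
  have hj' : ∀ u ∈ W₁, u.factorization p = j := fun u hu => (Finset.mem_filter.1 hu).2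
  have hc : Res V₁ W₁ p := ⟨fun a ha b hb => (hi' a ha).trans (hi' b hb).symm,
    fun a ha b hb => (hj' a ha).trans (hj' b hb).symm⟩
  refine (IH V₁ W₁ hsV hsW hV₁ hW₁ hc).trans ?_
  have hpow : 0 ≤ (fib f V' p i * fib g W' p j) ^ P.e :=
    Real.rpow_nonneg (mul_nonneg (fib_nonneg (fun u hu => hf u (hV hu)) p i)
      (fib_nonneg (fun u hu => hg u (hW hu)) p j)) _
  calc B * P.H S V₁ W₁ * (fib f V' p i * fib g W' p j) ^ P.e
      ≤ B * (P.H S V W * P.wt p i j) * (fib f V' p i * fib g W' p j) ^ P.e :=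
        mul_le_mul_of_nonneg_right (mul_le_mul_of_nonneg_left
          (Par.H_child hS hp hres hsV hsW hV₁ hW₁ hi' hj') hB) hpow
    _ = _ := by ring

end Split

section Real

variable {P : Par} {p : ℕ} {I J : Finset ℕ} {x y : ℕ → ℝ}

lemma Par.q₂_le_half (hp : 1 ≤ p) (hq : P.q₁ p ≤ 1 / 2) : P.q₂ p ≤ 1 / 2 := (P.q₂_le_q₁ hp).trans hq

/-- The partial split of the part of the second side above `k`. -/
lemma wt_sum_up_le (hp : 1 ≤ p) (hq : P.q₁ p ≤ 1 / 4) (k : ℕ) (hx : ∀ i ∈ I, 0 ≤ x i)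
    (hy : ∀ j ∈ J, 0 ≤ y j) (hxs : ∑ i ∈ I, x i ≤ 1) {a b : ℝ} (ha : 0 ≤ a) (hb : 0 ≤ b)
    (hxa : ∑ i ∈ I.filter (k < ·), x i ≤ a) (hyb : ∑ j ∈ J, y j ≤ b) (hJ : ∀ j ∈ J, k < j) :
    ∑ i ∈ I, ∑ j ∈ J, P.wt p i j * (x i * y j) ^ P.e ≤ (12 * P.q₂ p + 2 * a ^ P.e) * b ^ P.e := by
  have hq1 := (P.q₁_pos (p := p) hp).le
  have hq2 := (P.q₂_pos (p := p) hp).le
  have hq2h : P.q₂ p ≤ 1 / 2 := P.q₂_le_half hp (by linarith)
  have hbe := Real.rpow_nonneg hb P.e
  rw [← Finset.sum_filter_add_sum_filter_not I (k < ·)]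
  have h1 : ∑ i ∈ I.filter (k < ·), ∑ j ∈ J, P.wt p i j * (x i * y j) ^ P.e ≤ 2 * a ^ P.e * b ^ P.e := by
    refine (Finset.sum_le_sum fun i hi => Finset.sum_le_sum fun j hj => mul_le_mul_of_nonneg_right
      (P.wt_le_pow hp i j) (Real.rpow_nonneg (mul_nonneg (hx i (Finset.mem_of_mem_filter i hi))
        (hy j hj)) _)).trans ?_
    refine (sum_wt_le P.he.le hq1 (by linarith) (fun i hi => hx i (Finset.mem_of_mem_filter i hi)) hy
      ha hb hxa hyb).trans ?_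
    rw [Real.mul_rpow ha hb, ← mul_assoc]
    exact mul_le_mul_of_nonneg_right
      (mul_le_mul_of_nonneg_right (by linarith) (Real.rpow_nonneg ha _)) hbe
  have h2 : ∑ i ∈ I.filter (fun i => ¬ k < i), ∑ j ∈ J, P.wt p i j * (x i * y j) ^ P.e ≤
      12 * P.q₂ p * b ^ P.e := by
    have hx1 : ∀ i ∈ I, x i ≤ 1 := fun i hi => (Finset.single_le_sum hx hi).trans hxs
    have hy1 : ∀ j ∈ J, y j ≤ b := fun j hj => (Finset.single_le_sum hy hj).trans hyb
    calc ∑ i ∈ I.filter (fun i => ¬ k < i), ∑ j ∈ J, P.wt p i j * (x i * y j) ^ P.e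
        = ∑ i ∈ I.filter (fun i => ¬ k < i), ∑ j ∈ J,
            P.q₂ p ^ Nat.dist i k * P.q₂ p ^ Nat.dist j k * (x i * y j) ^ P.e := by
          refine Finset.sum_congr rfl fun i hi => Finset.sum_congr rfl fun j hj => ?_
          rw [P.wt_opp (k := k) (not_lt.1 (Finset.mem_filter.1 hi).2) (hJ j hj).le]
      _ ≤ (∑ i ∈ I.filter (fun i => ¬ k < i), P.q₂ p ^ Nat.dist i k) * (4 * P.q₂ p) * (1 * b) ^ P.e :=
          sum_opp_le hq2 hq2h P.e_pos.le k (fun h => lt_irrefl k (hJ k h))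
            (fun i hi => hx i (Finset.mem_of_mem_filter i hi)) hy zero_le_one hb
            (fun i hi => hx1 i (Finset.mem_of_mem_filter i hi)) hy1
      _ ≤ 3 * (4 * P.q₂ p) * (1 * b) ^ P.e := mul_le_mul_of_nonneg_right
          (mul_le_mul_of_nonneg_right (sum_pow_dist_le' _ k hq2 hq2h) (by linarith))
          (by rw [one_mul]; exact hbe)
      _ = _ := by rw [one_mul]; ring
  linarith

/-- The partial split of the part of the first side below `k`. -/
lemma wt_sum_down_le (hp : 1 ≤ p) (hq : P.q₁ p ≤ 1 / 4) (k : ℕ) (hx : ∀ i ∈ I, 0 ≤ x i)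
    (hy : ∀ j ∈ J, 0 ≤ y j) (hys : ∑ j ∈ J, y j ≤ 1) {a b : ℝ} (ha : 0 ≤ a) (hb : 0 ≤ b)
    (hxa : ∑ i ∈ I, x i ≤ a) (hyb : ∑ j ∈ J.filter (· < k), y j ≤ b) (hI : ∀ i ∈ I, i < k) :
    ∑ i ∈ I, ∑ j ∈ J, P.wt p i j * (x i * y j) ^ P.e ≤ (12 * P.q₂ p + 2 * b ^ P.e) * a ^ P.e := by
  have hq1 := (P.q₁_pos (p := p) hp).le
  have hq2 := (P.q₂_pos (p := p) hp).le
  have hq2h : P.q₂ p ≤ 1 / 2 := P.q₂_le_half hp (by linarith)
  have hae := Real.rpow_nonneg ha P.e
  rw [Finset.sum_comm, ← Finset.sum_filter_add_sum_filter_not J (· < k)]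
  have h1 : ∑ j ∈ J.filter (· < k), ∑ i ∈ I, P.wt p i j * (x i * y j) ^ P.e ≤ 2 * b ^ P.e * a ^ P.e := by
    rw [Finset.sum_comm]
    refine (Finset.sum_le_sum fun i hi => Finset.sum_le_sum fun j hj => mul_le_mul_of_nonneg_right
      (P.wt_le_pow hp i j) (Real.rpow_nonneg (mul_nonneg (hx i hi)
        (hy j (Finset.mem_of_mem_filter j hj))) _)).trans ?_
    refine (sum_wt_le P.he.le hq1 (by linarith) hx (fun i hi => hy i (Finset.mem_of_mem_filter i hi))
      ha hb hxa hyb).trans ?_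
    rw [mul_comm a b, Real.mul_rpow hb ha, ← mul_assoc]
    exact mul_le_mul_of_nonneg_right
      (mul_le_mul_of_nonneg_right (by linarith) (Real.rpow_nonneg hb _)) hae
  have h2 : ∑ j ∈ J.filter (fun j => ¬ j < k), ∑ i ∈ I, P.wt p i j * (x i * y j) ^ P.e ≤
      12 * P.q₂ p * a ^ P.e := by
    have hy1 : ∀ j ∈ J, y j ≤ 1 := fun j hj => (Finset.single_le_sum hy hj).trans hys
    have hx1 : ∀ i ∈ I, x i ≤ a := fun i hi => (Finset.single_le_sum hx hi).trans hxa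
    calc ∑ j ∈ J.filter (fun j => ¬ j < k), ∑ i ∈ I, P.wt p i j * (x i * y j) ^ P.e
        = ∑ j ∈ J.filter (fun j => ¬ j < k), ∑ i ∈ I,
            P.q₂ p ^ Nat.dist j k * P.q₂ p ^ Nat.dist i k * (y j * x i) ^ P.e := by
          refine Finset.sum_congr rfl fun j hj => Finset.sum_congr rfl fun i hi => ?_
          rw [P.wt_opp (k := k) (hI i hi).le (not_lt.1 (Finset.mem_filter.1 hj).2), mul_comm (x i)]
          ring
      _ ≤ (∑ j ∈ J.filter (fun j => ¬ j < k), P.q₂ p ^ Nat.dist j k) * (4 * P.q₂ p) * (1 * a) ^ P.e :=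
          sum_opp_le hq2 hq2h P.e_pos.le k (fun h => lt_irrefl k (hI k h))
            (fun i hi => hy i (Finset.mem_of_mem_filter i hi)) hx zero_le_one ha
            (fun i hi => hy1 i (Finset.mem_of_mem_filter i hi)) hx1
      _ ≤ 3 * (4 * P.q₂ p) * (1 * a) ^ P.e := mul_le_mul_of_nonneg_right
          (mul_le_mul_of_nonneg_right (sum_pow_dist_le' _ k hq2 hq2h) (by linarith))
          (by rw [one_mul]; exact hae)
      _ = _ := by rw [one_mul]; ring
  linarith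

/-- Both sides off the center, on opposite sides of it. -/
lemma wt_sum_opp_le (hp : 1 ≤ p) (hq : P.q₁ p ≤ 1 / 4) (k : ℕ) (hx : ∀ i ∈ I, 0 ≤ x i)
    (hy : ∀ j ∈ J, 0 ≤ y j) {a b : ℝ} (ha : 0 ≤ a) (hb : 0 ≤ b) (hxa : ∑ i ∈ I, x i ≤ a)
    (hyb : ∑ j ∈ J, y j ≤ b)
    (hIJ : ((∀ i ∈ I, k < i) ∧ ∀ j ∈ J, j < k) ∨ ((∀ i ∈ I, i < k) ∧ ∀ j ∈ J, k < j)) :
    ∑ i ∈ I, ∑ j ∈ J, P.wt p i j * (x i * y j) ^ P.e ≤ 16 * P.q₁ p ^ 2 * (a * b) ^ P.e := by
  have hq1 := (P.q₁_pos (p := p) hp).le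
  have hkI : k ∉ I := fun h => by rcases hIJ with ⟨h1, -⟩ | ⟨h1, -⟩ <;> exact lt_irrefl k (h1 k h)
  have hkJ : k ∉ J := fun h => by rcases hIJ with ⟨-, h1⟩ | ⟨-, h1⟩ <;> exact lt_irrefl k (h1 k h)
  calc ∑ i ∈ I, ∑ j ∈ J, P.wt p i j * (x i * y j) ^ P.e
      ≤ ∑ i ∈ I, ∑ j ∈ J, P.q₁ p ^ Nat.dist i k * P.q₁ p ^ Nat.dist j k * (x i * y j) ^ P.e := by
        refine Finset.sum_le_sum fun i hi => Finset.sum_le_sum fun j hj => mul_le_mul_of_nonneg_right
          ((P.wt_le_pow hp i j).trans (le_of_eq ?_)) (Real.rpow_nonneg (mul_nonneg (hx i hi) (hy j hj)) _)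
        rw [← pow_add]
        congr 1
        rcases hIJ with ⟨h1, h2⟩ | ⟨h1, h2⟩ <;>
          (have := h1 i hi; have := h2 j hj; simp only [Nat.dist]; omega)
    _ ≤ (∑ i ∈ I, P.q₁ p ^ Nat.dist i k) * (4 * P.q₁ p) * (a * b) ^ P.e :=
        sum_opp_le hq1 (by linarith) P.e_pos.le k hkJ hx hy ha hb
          (fun i hi => (Finset.single_le_sum hx hi).trans hxa)
          (fun j hj => (Finset.single_le_sum hy hj).trans hyb)
    _ ≤ (4 * P.q₁ p) * (4 * P.q₁ p) * (a * b) ^ P.e := mul_le_mul_of_nonneg_right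
        (mul_le_mul_of_nonneg_right (sum_pow_dist_le I k hkI hq1 (by linarith)) (by linarith))
        (Real.rpow_nonneg (mul_nonneg ha hb) _)
    _ = _ := by ring

end Real

end Vale.Agent.P028.DS
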