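import Mathlib

/-!
P028: the local inequalities behind the bilinear engine.
-/

namespace Vale.Agent.P028.DS

open Finset Real

variable {e : ℝ}

/-- A finite set of distinct positive exponents has a geometric sum. -/
lemma sum_pow_le_of_injOn {ι : Type*} (I : Finset ι) (φ : ι → ℕ) (hφ : Set.InjOn φ I)
    (h1 : ∀ i ∈ I, 1 ≤ φ i) {q : ℝ} (hq0 : 0 ≤ q) (hq : q ≤ 1 / 2) :
    ∑ i ∈ I, q ^ φ i ≤ 2 * q := by
  classical
  have hsub : (I.image φ).image (· - 1) ⊆ Finset.range (I.sup φ) := by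
    intro n hn
    obtain ⟨m, hm, rfl⟩ := Finset.mem_image.1 hn
    obtain ⟨i, hi, rfl⟩ := Finset.mem_image.1 hm
    have := Finset.le_sup (f := φ) hi
    have := h1 i hi
    simp only [Finset.mem_range]; omega
  calc ∑ i ∈ I, q ^ φ i = q * ∑ n ∈ (I.image φ).image (· - 1), q ^ n := by
        rw [Finset.sum_image, Finset.sum_image hφ, Finset.mul_sum]
        · refine Finset.sum_congr rfl fun i hi => ?_
          rw [← pow_succ', Nat.sub_add_cancel (h1 i hi)]
        · intro a ha b hb hab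
          obtain ⟨i, hi, rfl⟩ := Finset.mem_image.1 ha
          obtain ⟨j, hj, rfl⟩ := Finset.mem_image.1 hb
          have := h1 i hi; have := h1 j hj
          simp only at hab; omega
    _ ≤ q * ∑ n ∈ Finset.range (I.sup φ), q ^ n :=
        mul_le_mul_of_nonneg_left
          (Finset.sum_le_sum_of_subset_of_nonneg hsub fun _ _ _ => pow_nonneg hq0 _) hq0
    _ ≤ q * (1 - q)⁻¹ := by
        refine mul_le_mul_of_nonneg_left ?_ hq0
        rw [← one_mul ((1 - q)⁻¹), ← div_eq_mul_inv, le_div_iff₀ (by linarith),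
          geom_sum_mul_neg]
        linarith [pow_nonneg hq0 (I.sup φ)]
    _ ≤ q * 2 := by
        refine mul_le_mul_of_nonneg_left ?_ hq0
        rw [inv_le_comm₀ (by linarith) (by norm_num)]; linarith
    _ = 2 * q := mul_comm _ _

/-- Distinct indices around `k`. -/
lemma sum_pow_dist_le (I : Finset ℕ) (k : ℕ) (hk : k ∉ I) {q : ℝ} (hq0 : 0 ≤ q) (hq : q ≤ 1 / 2) :
    ∑ i ∈ I, q ^ Nat.dist i k ≤ 4 * q := by
  have h1 := sum_pow_le_of_injOn (I.filter (k < ·)) (fun i => Nat.dist i k)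
    (fun a ha b hb hab => by
      simp only [Finset.coe_filter, Set.mem_ofPred_eq] at ha hb
      simp only [Nat.dist] at hab; omega)
    (fun i hi => by simp only [Finset.mem_filter] at hi; simp only [Nat.dist]; omega) hq0 hq
  have h2 := sum_pow_le_of_injOn (I.filter (fun i => ¬ k < i)) (fun i => Nat.dist i k)
    (fun a ha b hb hab => by
      simp only [Finset.coe_filter, Set.mem_ofPred_eq] at ha hb
      simp only [Nat.dist] at hab; omega)
    (fun i hi => by
      simp only [Finset.mem_filter] at hi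
      have : i ≠ k := fun h => hk (h ▸ hi.1)
      simp only [Nat.dist]; omega) hq0 hq
  rw [← Finset.sum_filter_add_sum_filter_not I (k < ·)]
  linarith

/-- All indices around `k`. -/
lemma sum_pow_dist_le' (I : Finset ℕ) (k : ℕ) {q : ℝ} (hq0 : 0 ≤ q) (hq : q ≤ 1 / 2) :
    ∑ i ∈ I, q ^ Nat.dist i k ≤ 3 := by
  classical
  have h := sum_pow_dist_le (I.erase k) k (Finset.notMem_erase k I) hq0 hq
  have hsub : I ⊆ insert k (I.erase k) := fun i hi => by
    by_cases hik : i = k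
    · simp [hik]
    · exact Finset.mem_insert_of_mem (Finset.mem_erase.2 ⟨hik, hi⟩)
  refine (Finset.sum_le_sum_of_subset_of_nonneg hsub fun _ _ _ => pow_nonneg hq0 _).trans ?_
  rw [Finset.sum_insert (Finset.notMem_erase k I), Nat.dist_self, pow_zero]
  linarith

/-- Weighted mean inequality for the diagonal and the off-diagonal part. -/
lemma mul_rpow_le (he : 0 ≤ e) {x y : ℝ} (hx : 0 ≤ x) (hy : 0 ≤ y) :
    (x * y) ^ e ≤ (x ^ (2 * e) + y ^ (2 * e)) / 2 := by
  have h : (x * y) ^ e = x ^ e * y ^ e := Real.mul_rpow hx hy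
  have hx2 : x ^ (2 * e) = x ^ e * x ^ e := by
    rw [← Real.rpow_add_of_nonneg hx he he, two_mul]
  have hy2 : y ^ (2 * e) = y ^ e * y ^ e := by
    rw [← Real.rpow_add_of_nonneg hy he he, two_mul]
  nlinarith [sq_nonneg (x ^ e - y ^ e)]

/-- A power above one of numbers below `M`. -/
lemma rpow_two_le (he : 1 / 2 ≤ e) {x M : ℝ} (hx : 0 ≤ x) (hxM : x ≤ M) :
    x ^ (2 * e) ≤ M ^ (2 * e - 1) * x := by
  have : x ^ (2 * e) = x ^ (2 * e - 1) * x := by
    conv_rhs => rhs; rw [← Real.rpow_one x]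
    rw [← Real.rpow_add_of_nonneg hx (by linarith) zero_le_one]; ring_nf
  rw [this]
  exact mul_le_mul_of_nonneg_right (Real.rpow_le_rpow hx hxM (by linarith)) hx

variable {I J : Finset ℕ} {x y : ℕ → ℝ}

/-- The diagonal. -/
lemma diag_le (he : 1 / 2 ≤ e) (hx : ∀ i ∈ I, 0 ≤ x i) (hy : ∀ j ∈ J, 0 ≤ y j) {Mx My : ℝ}
    (hMx0 : 0 ≤ Mx) (hMy0 : 0 ≤ My)
    (hMx : ∀ i ∈ I, x i ≤ Mx) (hMy : ∀ j ∈ J, y j ≤ My) :
    ∑ i ∈ I.filter (· ∈ J), (x i * y i) ^ e ≤
      (Mx ^ (2 * e - 1) * (∑ i ∈ I, x i) + My ^ (2 * e - 1) * ∑ j ∈ J, y j) / 2 := by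
  classical
  calc ∑ i ∈ I.filter (· ∈ J), (x i * y i) ^ e
      ≤ ∑ i ∈ I.filter (· ∈ J), (Mx ^ (2 * e - 1) * x i + My ^ (2 * e - 1) * y i) / 2 := by
        refine Finset.sum_le_sum fun i hi => ?_
        obtain ⟨hiI, hiJ⟩ := Finset.mem_filter.1 hi
        refine (mul_rpow_le (by linarith) (hx i hiI) (hy i hiJ)).trans ?_
        linarith [rpow_two_le he (hx i hiI) (hMx i hiI), rpow_two_le he (hy i hiJ) (hMy i hiJ)]
    _ ≤ _ := by
        rw [← Finset.sum_div, Finset.sum_add_distrib, ← Finset.mul_sum, ← Finset.mul_sum]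
        refine div_le_div_of_nonneg_right (add_le_add ?_ ?_) (by norm_num)
        · exact mul_le_mul_of_nonneg_left (Finset.sum_le_sum_of_subset_of_nonneg
            (Finset.filter_subset _ _) fun i hi _ => hx i hi) (Real.rpow_nonneg hMx0 _)
        · refine mul_le_mul_of_nonneg_left (Finset.sum_le_sum_of_subset_of_nonneg ?_
            fun i hi _ => hy i hi) (Real.rpow_nonneg hMy0 _)
          exact fun i hi => (Finset.mem_filter.1 hi).2

/-- The off-diagonal part. -/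
lemma off_le (he : 1 / 2 ≤ e) {q : ℝ} (hq0 : 0 ≤ q) (hq : q ≤ 1 / 2)
    (hx : ∀ i ∈ I, 0 ≤ x i) (hy : ∀ j ∈ J, 0 ≤ y j) (hx1 : ∀ i ∈ I, x i ≤ 1) (hy1 : ∀ j ∈ J, y j ≤ 1) :
    ∑ i ∈ I, ∑ j ∈ J.filter (· ≠ i), q ^ Nat.dist i j * (x i * y j) ^ e ≤
      2 * q * ((∑ i ∈ I, x i) + ∑ j ∈ J, y j) := by
  classical
  have key : ∀ i ∈ I, ∀ j ∈ J.filter (· ≠ i), q ^ Nat.dist i j * (x i * y j) ^ e ≤
      q ^ Nat.dist i j * x i / 2 + q ^ Nat.dist i j * y j / 2 := by
    intro i hi j hj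
    have hj' := (Finset.mem_filter.1 hj).1
    have h1 := rpow_two_le he (hx i hi) (hx1 i hi)
    have h2 := rpow_two_le he (hy j hj') (hy1 j hj')
    rw [Real.one_rpow, one_mul] at h1 h2
    have h3 := mul_le_mul_of_nonneg_left
      ((mul_rpow_le (e := e) (by linarith) (hx i hi) (hy j hj')).trans
        (div_le_div_of_nonneg_right (add_le_add h1 h2) (by norm_num)))
      (pow_nonneg hq0 (Nat.dist i j))
    linarith
  refine (Finset.sum_le_sum fun i hi => Finset.sum_le_sum (key i hi)).trans ?_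
  simp only [Finset.sum_add_distrib]
  have hA : ∑ i ∈ I, ∑ j ∈ J.filter (· ≠ i), q ^ Nat.dist i j * x i / 2 ≤ 2 * q * ∑ i ∈ I, x i := by
    rw [Finset.mul_sum]
    refine Finset.sum_le_sum fun i hi => ?_
    have h := sum_pow_dist_le (J.filter (· ≠ i)) i (by simp) hq0 hq
    simp only [Nat.dist_comm _ i] at h
    rw [← Finset.sum_div, ← Finset.sum_mul]
    have := mul_le_mul_of_nonneg_right h (hx i hi)
    linarith
  have hB : ∑ i ∈ I, ∑ j ∈ J.filter (· ≠ i), q ^ Nat.dist i j * y j / 2 ≤ 2 * q * ∑ j ∈ J, y j := by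
    rw [Finset.sum_comm' (t' := J) (s' := fun j => I.filter (· ≠ j))
      (h := fun i j => by simp only [Finset.mem_filter]; tauto)]
    rw [Finset.mul_sum]
    refine Finset.sum_le_sum fun j hj => ?_
    have h := sum_pow_dist_le (I.filter (· ≠ j)) j (by simp) hq0 hq
    rw [← Finset.sum_div, ← Finset.sum_mul]
    have := mul_le_mul_of_nonneg_right h (hy j hj)
    linarith
  linarith

/-- Every index against every index. -/
lemma sum_wt_le (he : 1 / 2 ≤ e) {q : ℝ} (hq0 : 0 ≤ q) (hq : q ≤ 1 / 2)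
    (hx : ∀ i ∈ I, 0 ≤ x i) (hy : ∀ j ∈ J, 0 ≤ y j) {a b : ℝ} (ha : 0 ≤ a) (hb : 0 ≤ b)
    (hxa : ∑ i ∈ I, x i ≤ a) (hyb : ∑ j ∈ J, y j ≤ b) :
    ∑ i ∈ I, ∑ j ∈ J, q ^ Nat.dist i j * (x i * y j) ^ e ≤ (1 + 4 * q) * (a * b) ^ e := by
  classical
  rcases eq_or_lt_of_le ha with h0 | hapos
  · have hz : ∀ i ∈ I, x i = 0 := fun i hi =>
      le_antisymm ((Finset.single_le_sum hx hi).trans (hxa.trans h0.ge)) (hx i hi)
    rw [Finset.sum_eq_zero]
    · exact mul_nonneg (by linarith) (Real.rpow_nonneg (mul_nonneg ha hb) _)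
    · intro i hi
      refine Finset.sum_eq_zero fun j _ => ?_
      rw [hz i hi, zero_mul, Real.zero_rpow (by linarith), mul_zero]
  rcases eq_or_lt_of_le hb with h0 | hbpos
  · have hz : ∀ j ∈ J, y j = 0 := fun j hj =>
      le_antisymm ((Finset.single_le_sum hy hj).trans (hyb.trans h0.ge)) (hy j hj)
    rw [Finset.sum_eq_zero]
    · exact mul_nonneg (by linarith) (Real.rpow_nonneg (mul_nonneg ha hb) _)
    · intro i hi
      refine Finset.sum_eq_zero fun j hj => ?_
      rw [hz j hj, mul_zero, Real.zero_rpow (by linarith), mul_zero]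
  set x' := fun i => x i / a with hx'
  set y' := fun j => y j / b with hy'
  have hx0 : ∀ i ∈ I, 0 ≤ x' i := fun i hi => div_nonneg (hx i hi) ha
  have hy0 : ∀ j ∈ J, 0 ≤ y' j := fun j hj => div_nonneg (hy j hj) hb
  have hxs : ∑ i ∈ I, x' i ≤ 1 := by
    simp only [hx', ← Finset.sum_div]; exact (div_le_one hapos).2 hxa
  have hys : ∑ j ∈ J, y' j ≤ 1 := by
    simp only [hy', ← Finset.sum_div]; exact (div_le_one hbpos).2 hyb
  have hx1 : ∀ i ∈ I, x' i ≤ 1 := fun i hi => (Finset.single_le_sum hx0 hi).trans hxs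
  have hy1 : ∀ j ∈ J, y' j ≤ 1 := fun j hj => (Finset.single_le_sum hy0 hj).trans hys
  have hd := diag_le he hx0 hy0 zero_le_one zero_le_one hx1 hy1
  rw [Real.one_rpow, one_mul, one_mul] at hd
  have ho := off_le he hq0 hq hx0 hy0 hx1 hy1
  have hscale : ∀ i ∈ I, ∀ j ∈ J, (x i * y j) ^ e = (a * b) ^ e * (x' i * y' j) ^ e := by
    intro i hi j hj
    rw [← Real.mul_rpow (mul_nonneg ha hb) (mul_nonneg (hx0 i hi) (hy0 j hj))]
    congr 1
    simp only [hx', hy']
    field_simp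
  have hsplit : ∀ i ∈ I, ∑ j ∈ J, q ^ Nat.dist i j * (x' i * y' j) ^ e =
      (if i ∈ J then (x' i * y' i) ^ e else 0) +
        ∑ j ∈ J.filter (· ≠ i), q ^ Nat.dist i j * (x' i * y' j) ^ e := by
    intro i _
    rw [← Finset.sum_filter_add_sum_filter_not J (· = i)]
    congr 1
    rw [Finset.filter_eq']
    split_ifs with h <;> simp [Nat.dist_self]
  calc ∑ i ∈ I, ∑ j ∈ J, q ^ Nat.dist i j * (x i * y j) ^ e
      = (a * b) ^ e * ∑ i ∈ I, ∑ j ∈ J, q ^ Nat.dist i j * (x' i * y' j) ^ e := by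
        rw [Finset.mul_sum]
        refine Finset.sum_congr rfl fun i hi => ?_
        rw [Finset.mul_sum]
        refine Finset.sum_congr rfl fun j hj => ?_
        rw [hscale i hi j hj]; ring
    _ ≤ (a * b) ^ e * (1 + 4 * q) := by
        refine mul_le_mul_of_nonneg_left ?_ (Real.rpow_nonneg (mul_nonneg ha hb) _)
        rw [Finset.sum_congr rfl hsplit, Finset.sum_add_distrib, ← Finset.sum_filter]
        have h5 := mul_le_mul_of_nonneg_left (add_le_add hxs hys) (by linarith : 0 ≤ 2 * q)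
        linarith
    _ = _ := mul_comm _ _

/-- Indices on opposite sides of `k`. -/
lemma sum_opp_le {q : ℝ} (hq0 : 0 ≤ q) (hq : q ≤ 1 / 2) (he : 0 ≤ e) (k : ℕ) (hkJ : k ∉ J)
    (hx : ∀ i ∈ I, 0 ≤ x i) (hy : ∀ j ∈ J, 0 ≤ y j) {a b : ℝ} (ha : 0 ≤ a) (hb : 0 ≤ b)
    (hxa : ∀ i ∈ I, x i ≤ a) (hyb : ∀ j ∈ J, y j ≤ b) :
    ∑ i ∈ I, ∑ j ∈ J, q ^ Nat.dist i k * q ^ Nat.dist j k * (x i * y j) ^ e ≤
      (∑ i ∈ I, q ^ Nat.dist i k) * (4 * q) * (a * b) ^ e := by
  calc ∑ i ∈ I, ∑ j ∈ J, q ^ Nat.dist i k * q ^ Nat.dist j k * (x i * y j) ^ e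
      ≤ ∑ i ∈ I, ∑ j ∈ J, q ^ Nat.dist i k * q ^ Nat.dist j k * (a * b) ^ e :=
        Finset.sum_le_sum fun i hi => Finset.sum_le_sum fun j hj =>
          mul_le_mul_of_nonneg_left (Real.rpow_le_rpow (mul_nonneg (hx i hi) (hy j hj))
            (mul_le_mul (hxa i hi) (hyb j hj) (hy j hj) ha) he) (by positivity)
    _ = (∑ i ∈ I, q ^ Nat.dist i k) * (∑ j ∈ J, q ^ Nat.dist j k) * (a * b) ^ e := by
        rw [Finset.sum_mul_sum, Finset.sum_mul]
        exact Finset.sum_congr rfl fun i _ => by rw [Finset.sum_mul]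
    _ ≤ _ :=
        mul_le_mul_of_nonneg_right (mul_le_mul_of_nonneg_left (sum_pow_dist_le J k hkJ hq0 hq)
          (Finset.sum_nonneg fun _ _ => pow_nonneg hq0 _)) (Real.rpow_nonneg (mul_nonneg ha hb) _)

/-- `r ^ e` against `r` above a threshold. -/
lemma rpow_le_mul_of_threshold (he1 : e < 1) {r c : ℝ} (hr : 0 < r) (hc : 0 ≤ c)
    (h : c ^ (1 / (1 - e)) ≤ r) : c * r ^ e ≤ r := by
  have h1 : c ≤ r ^ (1 - e) := by
    have h2 := Real.rpow_le_rpow (Real.rpow_nonneg hc _) h (by linarith : (0:ℝ) ≤ 1 - e)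
    rwa [← Real.rpow_mul hc, one_div_mul_cancel (by linarith), Real.rpow_one] at h2
  calc c * r ^ e ≤ r ^ (1 - e) * r ^ e := mul_le_mul_of_nonneg_right h1 (Real.rpow_nonneg hr.le _)
    _ = r := by rw [← Real.rpow_add hr]; simp

/-- Near-full mass at the maximum. -/
lemma one_sub_le_of_rpow (he : 1 / 2 < e) (he1 : e < 1) {x c : ℝ} (hx0 : 0 ≤ x) (hx1 : x ≤ 1)
    (h : 1 - c ≤ x ^ (2 * e - 1)) : 1 - x ≤ c / (2 * e - 1) := by
  have h1 := rpow_one_add_le_one_add_mul_self (s := x - 1) (by linarith) (p := 2 * e - 1)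
    (by linarith) (by linarith)
  rw [add_sub_cancel] at h1
  rw [le_div_iff₀ (by linarith)]
  linarith

/-- Both sides nearly concentrated at `k`, with defects above the threshold. -/
lemma same_center_le (he : 1 / 2 < e) (he1 : e < 1) {q t : ℝ} (hq : 0 < q) (hq8 : q ≤ 1 / 8) (k : ℕ)
    (hkI : k ∈ I) (hlJ : k ∈ J) (hx : ∀ i ∈ I, 0 ≤ x i) (hy : ∀ j ∈ J, 0 ≤ y j)
    (hx1 : ∀ i ∈ I, x i ≤ 1) (hy1 : ∀ j ∈ J, y j ≤ 1) {a b : ℝ}
    (ha : a = ∑ i ∈ I.erase k, x i) (hb : b = ∑ j ∈ J.erase k, y j)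
    (hxk : x k = 1 - a) (hyk : y k = 1 - b) (hat : a ≤ t) (hbt : b ≤ t) (ht2 : t ≤ 1 / 2)
    (hsmall : 2 * (2 * t) ^ (2 * e - 1) ≤ e / 16)
    (hs : (32 * q / e) ^ (1 / (1 - e)) < a + b) :
    ∑ i ∈ I, ∑ j ∈ J, q ^ Nat.dist i j * (x i * y j) ^ e ≤ 1 := by
  set ε := 2 * e - 1 with hε
  have hε0 : 0 < ε := by linarith
  have he0 : 0 < e := by linarith
  have ha0 : 0 ≤ a := ha ▸ Finset.sum_nonneg fun i hi => hx i (Finset.mem_of_mem_erase hi)
  have hb0 : 0 ≤ b := hb ▸ Finset.sum_nonneg fun i hi => hy i (Finset.mem_of_mem_erase hi)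
  have hs0 : 0 < a + b := (Real.rpow_nonneg (by positivity) _).trans_lt hs
  have hs2 : a + b ≤ 2 * t := by linarith
  subst ha hb
  set a := ∑ i ∈ I.erase k, x i with ha
  set b := ∑ j ∈ J.erase k, y j with hb
  have hrest : ∑ i ∈ I.erase k, ∑ j ∈ J.erase k, q ^ Nat.dist i j * (x i * y j) ^ e ≤
      2 * (a * b) ^ e := by
    refine (sum_wt_le he.le hq.le (by linarith) (fun i hi => hx i (Finset.mem_of_mem_erase hi))
      (fun j hj => hy j (Finset.mem_of_mem_erase hj)) ha0 hb0 le_rfl le_rfl).trans ?_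
    exact mul_le_mul_of_nonneg_right (by linarith) (Real.rpow_nonneg (mul_nonneg ha0 hb0) _)
  have hrow : ∑ j ∈ J.erase k, q ^ Nat.dist k j * (x k * y j) ^ e ≤ 4 * q * b ^ e := by
    calc _ ≤ ∑ j ∈ J.erase k, q ^ Nat.dist j k * b ^ e := by
          refine Finset.sum_le_sum fun j hj => ?_
          rw [Nat.dist_comm]
          refine mul_le_mul_of_nonneg_left ?_ (pow_nonneg hq.le _)
          refine Real.rpow_le_rpow (mul_nonneg (hx k hkI) (hy j (Finset.mem_of_mem_erase hj))) ?_ he0.le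
          calc x k * y j ≤ 1 * y j := mul_le_mul_of_nonneg_right (hx1 k hkI)
                (hy j (Finset.mem_of_mem_erase hj))
            _ ≤ b := by
                rw [one_mul]
                exact Finset.single_le_sum (fun i hi => hy i (Finset.mem_of_mem_erase hi)) hj
      _ ≤ _ := by
          rw [← Finset.sum_mul]
          exact mul_le_mul_of_nonneg_right
            (sum_pow_dist_le _ k (Finset.notMem_erase k J) hq.le (by linarith)) (Real.rpow_nonneg hb0 _)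
  have hcol : ∑ i ∈ I.erase k, q ^ Nat.dist i k * (x i * y k) ^ e ≤ 4 * q * a ^ e := by
    calc _ ≤ ∑ i ∈ I.erase k, q ^ Nat.dist i k * a ^ e := by
          refine Finset.sum_le_sum fun i hi => ?_
          refine mul_le_mul_of_nonneg_left ?_ (pow_nonneg hq.le _)
          refine Real.rpow_le_rpow (mul_nonneg (hx i (Finset.mem_of_mem_erase hi)) (hy k hlJ)) ?_ he0.le
          calc x i * y k ≤ x i * 1 := mul_le_mul_of_nonneg_left (hy1 k hlJ)
                (hx i (Finset.mem_of_mem_erase hi))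
            _ ≤ a := by
                rw [mul_one]
                exact Finset.single_le_sum (fun i hi => hx i (Finset.mem_of_mem_erase hi)) hi
      _ ≤ _ := by
          rw [← Finset.sum_mul]
          exact mul_le_mul_of_nonneg_right
            (sum_pow_dist_le _ k (Finset.notMem_erase k I) hq.le (by linarith)) (Real.rpow_nonneg ha0 _)
  have hcorner : (x k * y k) ^ e ≤ 1 - e / 2 * (a + b) := by
    rw [Real.mul_rpow (hx k hkI) (hy k hlJ)]
    have h1 := rpow_one_add_le_one_add_mul_self (s := -a) (by linarith) he0.le he1.le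
    have h2 := rpow_one_add_le_one_add_mul_self (s := -b) (by linarith) he0.le he1.le
    rw [show 1 + -a = x k by linarith] at h1
    rw [show 1 + -b = y k by linarith] at h2
    refine (mul_le_mul h1 h2 (Real.rpow_nonneg (hy k hlJ) _)
      (by nlinarith [mul_le_mul he1.le (show a ≤ 1 / 2 by linarith) ha0 zero_le_one])).trans ?_
    nlinarith [mul_le_mul_of_nonneg_left (show b ≤ 1 / 2 by linarith) ha0,
      mul_le_mul_of_nonneg_left (show a ≤ 1 / 2 by linarith) hb0, mul_pos he0 he0,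
      mul_nonneg (mul_nonneg he0.le (sub_nonneg.2 he1.le)) hs0.le]
  have hab : a ^ e + b ^ e ≤ 2 * (a + b) ^ e := by
    linarith [Real.rpow_le_rpow ha0 (show a ≤ a + b by linarith) he0.le,
      Real.rpow_le_rpow hb0 (show b ≤ a + b by linarith) he0.le]
  have hgain : 32 * q / e * (a + b) ^ e ≤ a + b :=
    rpow_le_mul_of_threshold he1 hs0 (by positivity) hs.le
  rw [div_mul_eq_mul_div, div_le_iff₀ he0] at hgain
  have hprod : (a * b) ^ e ≤ (a + b) * (2 * t) ^ ε := by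
    calc (a * b) ^ e ≤ ((a + b) * (a + b)) ^ e := Real.rpow_le_rpow (mul_nonneg ha0 hb0)
          (mul_le_mul (by linarith) (by linarith) hb0 hs0.le) he0.le
      _ = (a + b) * (a + b) ^ ε := by
          rw [Real.mul_rpow hs0.le hs0.le, ← Real.rpow_add hs0, mul_comm (a + b),
            ← Real.rpow_add_one hs0.ne']
          rw [hε]; ring_nf
      _ ≤ _ := mul_le_mul_of_nonneg_left (Real.rpow_le_rpow hs0.le hs2 hε0.le) hs0.le
  have hts : (a + b) * (2 * t) ^ ε ≤ (a + b) * (e / 32) := by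
    refine mul_le_mul_of_nonneg_left ?_ hs0.le
    linarith
  rw [← Finset.add_sum_erase I _ hkI, ← Finset.add_sum_erase J _ hlJ, Nat.dist_self, pow_zero, one_mul]
  have hinner : ∑ i ∈ I.erase k, ∑ j ∈ J, q ^ Nat.dist i j * (x i * y j) ^ e =
      (∑ i ∈ I.erase k, q ^ Nat.dist i k * (x i * y k) ^ e) +
        ∑ i ∈ I.erase k, ∑ j ∈ J.erase k, q ^ Nat.dist i j * (x i * y j) ^ e := by
    rw [← Finset.sum_add_distrib]
    exact Finset.sum_congr rfl fun i _ => (Finset.add_sum_erase J _ hlJ).symm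
  rw [hinner]
  have hqab := mul_le_mul_of_nonneg_left hab hq.le
  have hes := mul_pos he0 hs0
  linarith

/-- The diagonal when the two centers differ. -/
lemma diff_center_diag (he : 1 / 2 < e) {t : ℝ} (ht0 : 0 < t) {k l : ℕ} (hkl : k ≠ l)
    (hx : ∀ i ∈ I, 0 ≤ x i) (hy : ∀ j ∈ J, 0 ≤ y j) (hx1 : ∀ i ∈ I, x i ≤ 1) (hy1 : ∀ j ∈ J, y j ≤ 1)
    (hxs : ∑ i ∈ I, x i = 1) (hys : ∑ j ∈ J, y j = 1)
    (hxi : ∀ i ∈ I, i ≠ k → x i ≤ t) (hyj : ∀ j ∈ J, j ≠ l → y j ≤ t) :
    ∑ i ∈ I.filter (· ∈ J), (x i * y i) ^ e ≤ 2 * t ^ e + t ^ (2 * e - 1) := by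
  classical
  set ε := 2 * e - 1 with hε
  have he0 : 0 < e := by linarith
  set D := I.filter (· ∈ J)
  have h2 : ∑ i ∈ D.filter (fun i => i = k ∨ i = l), (x i * y i) ^ e ≤ 2 * t ^ e := by
    calc _ ≤ ∑ i ∈ D.filter (fun i => i = k ∨ i = l), t ^ e := by
          refine Finset.sum_le_sum fun i hi => ?_
          obtain ⟨hiD, hi⟩ := Finset.mem_filter.1 hi
          obtain ⟨hiI, hiJ⟩ := Finset.mem_filter.1 hiD
          refine Real.rpow_le_rpow (mul_nonneg (hx i hiI) (hy i hiJ)) ?_ he0.le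
          rcases hi with rfl | rfl
          · calc x i * y i ≤ 1 * y i := mul_le_mul_of_nonneg_right (hx1 i hiI) (hy i hiJ)
              _ ≤ t := by rw [one_mul]; exact hyj i hiJ hkl
          · calc x i * y i ≤ x i * 1 := mul_le_mul_of_nonneg_left (hy1 i hiJ) (hx i hiI)
              _ ≤ t := by rw [mul_one]; exact hxi i hiI (Ne.symm hkl)
      _ ≤ _ := by
          rw [Finset.sum_const, nsmul_eq_mul]
          refine mul_le_mul_of_nonneg_right ?_ (Real.rpow_nonneg ht0.le _)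
          have : (D.filter (fun i => i = k ∨ i = l)).card ≤ ({k, l} : Finset ℕ).card :=
            Finset.card_le_card fun i hi => by
              simp only [Finset.mem_filter] at hi
              simp only [Finset.mem_insert, Finset.mem_singleton]
              exact hi.2
          have := this.trans Finset.card_le_two
          exact_mod_cast this
  have hmem : ∀ i ∈ D.filter (fun i => ¬ (i = k ∨ i = l)), i ∈ I ∧ i ∈ J ∧ i ≠ k ∧ i ≠ l := by
    intro i hi
    obtain ⟨hiD, hn⟩ := Finset.mem_filter.1 hi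
    obtain ⟨hiI, hiJ⟩ := Finset.mem_filter.1 hiD
    exact ⟨hiI, hiJ, fun h => hn (Or.inl h), fun h => hn (Or.inr h)⟩
  set D' := D.filter (fun i => ¬ (i = k ∨ i = l))
  have h3 := diag_le (I := D') (J := D') he.le (fun i hi => hx i (hmem i hi).1)
    (fun i hi => hy i (hmem i hi).2.1) ht0.le ht0.le
    (fun i hi => hxi i (hmem i hi).1 (hmem i hi).2.2.1)
    (fun i hi => hyj i (hmem i hi).2.1 (hmem i hi).2.2.2)
  rw [Finset.filter_true_of_mem (fun i hi => hi), ← hε] at h3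
  have hx' : ∑ i ∈ D', x i ≤ 1 := hxs ▸ Finset.sum_le_sum_of_subset_of_nonneg
    (fun i hi => (hmem i hi).1) (fun i hi _ => hx i hi)
  have hy' : ∑ i ∈ D', y i ≤ 1 := hys ▸ Finset.sum_le_sum_of_subset_of_nonneg
    (fun i hi => (hmem i hi).2.1) (fun i hi _ => hy i hi)
  rw [← Finset.sum_filter_add_sum_filter_not D (fun i => i = k ∨ i = l)]
  have := Real.rpow_nonneg ht0.le ε
  nlinarith [mul_le_mul_of_nonneg_left hx' this, mul_le_mul_of_nonneg_left hy' this]

/-- Either the local sum is at most one or both sides concentrate at one index. -/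
theorem concentrated_or_le (he : 1 / 2 < e) (he1 : e < 1) : ∃ q₀ : ℝ, 0 < q₀ ∧
    ∀ q : ℝ, 0 < q → q ≤ q₀ → ∀ (I J : Finset ℕ) (x y : ℕ → ℝ), (∀ i ∈ I, 0 ≤ x i) →
      (∀ j ∈ J, 0 ≤ y j) → ∑ i ∈ I, x i = 1 → ∑ j ∈ J, y j = 1 →
      (∑ i ∈ I, ∑ j ∈ J, q ^ Nat.dist i j * (x i * y j) ^ e ≤ 1) ∨
      ∃ k, (∑ i ∈ I.erase k, x i) + ∑ j ∈ J.erase k, y j ≤ (32 * q / e) ^ (1 / (1 - e)) := by
  set ε := 2 * e - 1 with hε
  have hε0 : 0 < ε := by linarith
  have he0 : 0 < e := by linarith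
  set K := 8 / ε with hK
  have hK0 : 0 < K := by positivity
  have ht : Filter.Tendsto (fun q : ℝ => 2 * (K * q) ^ e + 2 * (2 * (K * q)) ^ ε + 4 * q)
      (nhds 0) (nhds 0) := by
    have hc1 : Continuous fun q : ℝ => (K * q) ^ e :=
      (Real.continuous_rpow_const he0.le).comp (continuous_const.mul continuous_id)
    have hc2 : Continuous fun q : ℝ => (2 * (K * q)) ^ ε :=
      (Real.continuous_rpow_const hε0.le).comp (continuous_const.mul (continuous_const.mul continuous_id))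
    have := (((continuous_const.mul hc1).add (continuous_const.mul hc2)).add
      (continuous_const.mul continuous_id)).tendsto (0 : ℝ) (f := fun q : ℝ =>
        2 * (K * q) ^ e + 2 * (2 * (K * q)) ^ ε + 4 * q)
    simpa [Real.zero_rpow he0.ne', Real.zero_rpow hε0.ne'] using this
  obtain ⟨r, hr, hr'⟩ := Metric.tendsto_nhds_nhds.1 ht (e / 16) (by positivity)
  refine ⟨min (min (r / 2) (1 / (2 * K))) (1 / 8), lt_min (lt_min (by linarith) (by positivity))
    (by norm_num), ?_⟩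
  intro q hq hq₀ I J x y hx hy hxs hys
  simp only [le_min_iff] at hq₀
  obtain ⟨⟨hqr, hqK⟩, hq8⟩ := hq₀
  set t := K * q with htdef
  have ht0 : 0 < t := mul_pos hK0 hq
  have ht2 : t ≤ 1 / 2 := by
    rw [le_div_iff₀ (by positivity)] at hqK; rw [htdef]; linarith
  have hsmall : 2 * t ^ e + 2 * (2 * t) ^ ε + 4 * q ≤ e / 16 := by
    have h := hr' (x := q) (by rw [dist_zero_right, Real.norm_eq_abs, abs_of_pos hq]; linarith)
    rw [dist_zero_right, Real.norm_eq_abs] at h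
    exact ((le_abs_self _).trans h.le)
  have hIne : I.Nonempty := Finset.nonempty_of_ne_empty fun h => by simp [h] at hxs
  have hJne : J.Nonempty := Finset.nonempty_of_ne_empty fun h => by simp [h] at hys
  obtain ⟨k, hkI, hk⟩ := Finset.exists_max_image I x hIne
  obtain ⟨l, hlJ, hl⟩ := Finset.exists_max_image J y hJne
  have hx1 : ∀ i ∈ I, x i ≤ 1 := fun i hi => hxs ▸ Finset.single_le_sum hx hi
  have hy1 : ∀ j ∈ J, y j ≤ 1 := fun j hj => hys ▸ Finset.single_le_sum hy hj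
  have hsplit : ∀ (I' J' : Finset ℕ), ∑ i ∈ I', ∑ j ∈ J', q ^ Nat.dist i j * (x i * y j) ^ e =
      (∑ i ∈ I'.filter (· ∈ J'), (x i * y i) ^ e) +
        ∑ i ∈ I', ∑ j ∈ J'.filter (· ≠ i), q ^ Nat.dist i j * (x i * y j) ^ e := by
    intro I' J'
    rw [Finset.sum_filter, ← Finset.sum_add_distrib]
    refine Finset.sum_congr rfl fun i _ => ?_
    rw [← Finset.sum_filter_add_sum_filter_not J' (· = i)]
    congr 1
    rw [Finset.filter_eq']
    split_ifs with h <;> simp [Nat.dist_self]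
  have hoff := off_le he.le hq.le (by linarith) hx hy hx1 hy1
  rw [hxs, hys] at hoff
  by_cases hmax : x k ^ ε + y l ^ ε ≤ 2 - 8 * q
  · left
    rw [hsplit]
    have hd := diag_le he.le hx hy (hx k hkI) (hy l hlJ) hk hl
    rw [hxs, hys, mul_one, mul_one, ← hε] at hd
    linarith
  push Not at hmax
  have hyl : y l ^ ε ≤ 1 := Real.rpow_le_one (hy l hlJ) (hy1 l hlJ) hε0.le
  have hxk : x k ^ ε ≤ 1 := Real.rpow_le_one (hx k hkI) (hx1 k hkI) hε0.le
  have hxt : 1 - x k ≤ t := by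
    have := one_sub_le_of_rpow he he1 (hx k hkI) (hx1 k hkI) (c := 8 * q) (by rw [← hε]; linarith)
    rw [← hε] at this
    rw [htdef, hK]; calc _ ≤ 8 * q / ε := this
      _ = _ := by ring
  have hyt : 1 - y l ≤ t := by
    have := one_sub_le_of_rpow he he1 (hy l hlJ) (hy1 l hlJ) (c := 8 * q) (by rw [← hε]; linarith)
    rw [← hε] at this
    rw [htdef, hK]; calc _ ≤ 8 * q / ε := this
      _ = _ := by ring
  have hxa : ∑ i ∈ I.erase k, x i = 1 - x k := by
    rw [← hxs, ← Finset.add_sum_erase I x hkI]; ring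
  have hyb : ∑ j ∈ J.erase l, y j = 1 - y l := by
    rw [← hys, ← Finset.add_sum_erase J y hlJ]; ring
  have hxi : ∀ i ∈ I, i ≠ k → x i ≤ t := fun i hi hik =>
    (Finset.single_le_sum (fun j hj => hx j (Finset.mem_of_mem_erase hj))
      (Finset.mem_erase.2 ⟨hik, hi⟩)).trans (hxa.le.trans hxt)
  have hyj : ∀ j ∈ J, j ≠ l → y j ≤ t := fun j hj hjl =>
    (Finset.single_le_sum (fun i hi => hy i (Finset.mem_of_mem_erase hi))
      (Finset.mem_erase.2 ⟨hjl, hj⟩)).trans (hyb.le.trans hyt)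
  by_cases hkl : k = l
  · subst hkl
    by_cases hs : (∑ i ∈ I.erase k, x i) + ∑ j ∈ J.erase k, y j ≤ (32 * q / e) ^ (1 / (1 - e))
    · exact Or.inr ⟨k, hs⟩
    left
    push Not at hs
    set a := ∑ i ∈ I.erase k, x i with ha
    set b := ∑ j ∈ J.erase k, y j with hb
    have ha0 : 0 ≤ a := Finset.sum_nonneg fun i hi => hx i (Finset.mem_of_mem_erase hi)
    have hb0 : 0 ≤ b := Finset.sum_nonneg fun i hi => hy i (Finset.mem_of_mem_erase hi)
    have hs0 : 0 < a + b := (Real.rpow_nonneg (by positivity) _).trans_lt hs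
    have hs2 : a + b ≤ 2 * t := by linarith
    exact same_center_le he he1 hq hq8 k hkI hlJ hx hy hx1 hy1 rfl rfl (by linarith) (by linarith)
      (by linarith) (by linarith) ht2 (by rw [← hε]; linarith [Real.rpow_nonneg ht0.le e]) hs
  · left
    rw [hsplit]
    classical
    have hdiag := diff_center_diag he ht0 hkl hx hy hx1 hy1 hxs hys hxi hyj
    rw [← hε] at hdiag
    have : t ^ ε ≤ (2 * t) ^ ε := Real.rpow_le_rpow ht0.le (by linarith) hε0.le
    have := Real.rpow_nonneg ht0.le ε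
    linarith

end Vale.Agent.P028.DS
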