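import Vale.Agent.P028.DS.Defs
import Vale.Agent.P028.DS.Local

/-!
P028: definitions for the bilinear engine.
-/

namespace Vale.Agent.P028.DS

open Finset Real

/-- The exponents of the engine. -/
structure Par where
  e : ℝ
  η : ℝ
  he : 1 / 2 < e
  he1 : e ≤ 3 / 5
  hη0 : 0 ≤ η
  hη : η * e < 2 * e - 1

namespace Par

variable (P : Par)

lemma e_pos : 0 < P.e := by linarith [P.he]
lemma e_lt : P.e < 1 := by linarith [P.he1]
lemma η_lt : P.η < 1 / 2 := by nlinarith [P.he, P.he1, P.hη, P.hη0]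

/-- Exponent of the first cofactor. -/
noncomputable def α₁ : ℝ := (1 - P.e) * (1 - P.η)

/-- Exponent of the second cofactor. -/
noncomputable def α₂ : ℝ := 1 - P.e

/-- Gain for the first cofactor. -/
noncomputable def q₁ (p : ℕ) : ℝ := (p : ℝ) ^ (-P.α₁)

/-- Gain for the second cofactor. -/
noncomputable def q₂ (p : ℕ) : ℝ := (p : ℝ) ^ (-P.α₂)

/-- The local weight of exponents `i` and `j`. -/
noncomputable def wt (p i j : ℕ) : ℝ := P.q₁ p ^ (i - j) * P.q₂ p ^ (j - i)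

lemma one_fifth_le_α₁ : 1 / 5 ≤ P.α₁ := by
  unfold α₁; nlinarith [P.he1, P.η_lt, P.hη0, P.e_lt]

lemma α₁_le_α₂ : P.α₁ ≤ P.α₂ := by
  unfold α₁ α₂; nlinarith [P.hη0, P.e_lt]

lemma q₁_pos {p : ℕ} (hp : 0 < p) : 0 < P.q₁ p := Real.rpow_pos_of_pos (by exact_mod_cast hp) _
lemma q₂_pos {p : ℕ} (hp : 0 < p) : 0 < P.q₂ p := Real.rpow_pos_of_pos (by exact_mod_cast hp) _

lemma q₂_le_q₁ {p : ℕ} (hp : 1 ≤ p) : P.q₂ p ≤ P.q₁ p :=
  Real.rpow_le_rpow_of_exponent_le (by exact_mod_cast hp) (by linarith [P.α₁_le_α₂])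

lemma q₁_le_one {p : ℕ} (hp : 1 ≤ p) : P.q₁ p ≤ 1 :=
  Real.rpow_le_one_of_one_le_of_nonpos (by exact_mod_cast hp) (by linarith [P.one_fifth_le_α₁])

lemma q₁_le_nine {p : ℕ} (hp : 2 ≤ p) : P.q₁ p ≤ 9 / 10 := by
  have h1 : P.q₁ p ≤ (2 : ℝ) ^ (-(1 / 5) : ℝ) := by
    refine (Real.rpow_le_rpow_of_exponent_le (x := (p : ℝ)) (by exact_mod_cast (by omega : 1 ≤ p))
      (by linarith [P.one_fifth_le_α₁] : -P.α₁ ≤ -(1 / 5))).trans ?_
    exact Real.rpow_le_rpow_of_nonpos (by norm_num) (by exact_mod_cast hp) (by norm_num)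
  refine h1.trans ?_
  rw [Real.rpow_neg (by norm_num), inv_le_comm₀ (by positivity) (by norm_num),
    show ((9 : ℝ) / 10)⁻¹ = (((10 : ℝ) / 9) ^ 5) ^ ((1 : ℝ) / 5) by
      rw [← Real.rpow_natCast, ← Real.rpow_mul (by norm_num)]; norm_num]
  exact Real.rpow_le_rpow (by norm_num) (by norm_num) (by norm_num)

lemma wt_nonneg (p i j : ℕ) : 0 ≤ P.wt p i j :=
  mul_nonneg (pow_nonneg (Real.rpow_nonneg (Nat.cast_nonneg p) _) _)
    (pow_nonneg (Real.rpow_nonneg (Nat.cast_nonneg p) _) _)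

lemma wt_le_pow {p : ℕ} (hp : 1 ≤ p) (i j : ℕ) : P.wt p i j ≤ P.q₁ p ^ Nat.dist i j := by
  have h1 := P.q₁_pos (p := p) hp
  have h2 := P.q₂_pos (p := p) hp
  calc P.wt p i j ≤ P.q₁ p ^ (i - j) * P.q₁ p ^ (j - i) :=
        mul_le_mul_of_nonneg_left (pow_le_pow_left₀ h2.le (P.q₂_le_q₁ hp) _) (pow_nonneg h1.le _)
    _ = _ := by rw [← pow_add, Nat.dist]

lemma wt_le_one {p : ℕ} (hp : 1 ≤ p) (i j : ℕ) : P.wt p i j ≤ 1 :=
  (P.wt_le_pow hp i j).trans (pow_le_one₀ (P.q₁_pos hp).le (P.q₁_le_one hp))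

/-- Exponents on opposite sides of `k`, gain of the second cofactor. -/
lemma wt_opp {p : ℕ} {i j k : ℕ} (hi : i ≤ k) (hj : k ≤ j) :
    P.wt p i j = P.q₂ p ^ Nat.dist i k * P.q₂ p ^ Nat.dist j k := by
  rw [wt, ← pow_add, Nat.sub_eq_zero_of_le (hi.trans hj), pow_zero, one_mul]
  congr 1
  simp only [Nat.dist]; omega

end Par

/-- The `p`-exponent is constant on `V`. -/
def ConstAt (V : Finset ℕ) (p : ℕ) : Prop :=
  ∀ v₁ ∈ V, ∀ v₂ ∈ V, v₁.factorization p = v₂.factorization p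

/-- Both sides are constant at `p`. -/
def Res (V W : Finset ℕ) (p : ℕ) : Prop := ConstAt V p ∧ ConstAt W p

/-- The common exponent. -/
def expo (V : Finset ℕ) (p : ℕ) : ℕ := V.sup (fun v => v.factorization p)

lemma expo_eq {V : Finset ℕ} {p v : ℕ} (hV : ConstAt V p) (hv : v ∈ V) :
    expo V p = v.factorization p :=
  le_antisymm (Finset.sup_le fun u hu => (hV u hu v hv).le)
    (Finset.le_sup (f := fun v => v.factorization p) hv)

lemma ConstAt.mono {V V' : Finset ℕ} {p : ℕ} (h : ConstAt V p) (hs : V' ⊆ V) : ConstAt V' p :=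
  fun a ha b hb => h a (hs ha) b (hs hb)

lemma Res.mono {V W V' W' : Finset ℕ} {p : ℕ} (h : Res V W p) (hV : V' ⊆ V) (hW : W' ⊆ W) :
    Res V' W' p := ⟨h.1.mono hV, h.2.mono hW⟩

open Classical in
/-- The factor of `p` in the claimed bound. -/
noncomputable def Par.hfac (P : Par) (V W : Finset ℕ) (p : ℕ) : ℝ :=
  if Res V W p then P.wt p (expo V p) (expo W p) else 1

/-- The factor of the resolved primes. -/
noncomputable def Par.H (P : Par) (S V W : Finset ℕ) : ℝ := ∏ p ∈ S, P.hfac V W p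

/-- On a clean pair one of the two exponents is central at every open prime. -/
def Clean (S V W : Finset ℕ) (k : ℕ → ℕ) (v w : ℕ) : Prop :=
  ∀ p ∈ S, ¬ Res V W p → v.factorization p = k p ∨ w.factorization p = k p

/-- The bound required at the leaves. -/
def LeafBound (P : Par) (S : Finset ℕ) (E : ℕ → ℕ → Prop) (f g : ℕ → ℝ) (V₀ W₀ : Finset ℕ)
    (Kl : ℝ) : Prop :=
  ∀ V ⊆ V₀, ∀ W ⊆ W₀, ∀ k : ℕ → ℕ,
    edgeSum (fun v w => E v w ∧ Clean S V W k v w) f g V W ≤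
      Kl * P.H S V W * ((∑ v ∈ V, f v) * ∑ w ∈ W, g w) ^ P.e

section Monotone

variable {P : Par} {S : Finset ℕ}

lemma Par.hfac_nonneg (V W : Finset ℕ) (p : ℕ) : 0 ≤ P.hfac V W p := by
  unfold Par.hfac; split_ifs
  · exact P.wt_nonneg _ _ _
  · exact zero_le_one

lemma Par.hfac_le_one {p : ℕ} (hp : 1 ≤ p) (V W : Finset ℕ) : P.hfac V W p ≤ 1 := by
  unfold Par.hfac; split_ifs
  · exact P.wt_le_one hp _ _
  · exact le_rfl

lemma Par.H_nonneg (V W : Finset ℕ) : 0 ≤ P.H S V W :=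
  Finset.prod_nonneg fun _ _ => P.hfac_nonneg _ _ _

lemma Par.H_le_one (hS : ∀ p ∈ S, p.Prime) (V W : Finset ℕ) : P.H S V W ≤ 1 :=
  Finset.prod_le_one (fun _ _ => P.hfac_nonneg _ _ _) fun p hp => P.hfac_le_one (hS p hp).one_le _ _

lemma Par.hfac_mono {p : ℕ} (hp : 1 ≤ p) {V W V' W' : Finset ℕ} (hV : V' ⊆ V) (hW : W' ⊆ W)
    (hV' : V'.Nonempty) (hW' : W'.Nonempty) : P.hfac V' W' p ≤ P.hfac V W p := by
  by_cases h : Res V W p
  · obtain ⟨v, hv⟩ := hV'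
    obtain ⟨w, hw⟩ := hW'
    have h' := h.mono hV hW
    rw [Par.hfac, Par.hfac, if_pos h', if_pos h, expo_eq h'.1 hv, expo_eq h'.2 hw,
      expo_eq h.1 (hV hv), expo_eq h.2 (hW hw)]
  · exact (P.hfac_le_one hp _ _).trans_eq (by rw [Par.hfac, if_neg h])

lemma Par.H_mono (hS : ∀ p ∈ S, p.Prime) {V W V' W' : Finset ℕ} (hV : V' ⊆ V) (hW : W' ⊆ W)
    (hV' : V'.Nonempty) (hW' : W'.Nonempty) : P.H S V' W' ≤ P.H S V W :=
  Finset.prod_le_prod (fun _ _ => P.hfac_nonneg _ _ _) fun p hp =>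
    P.hfac_mono (hS p hp).one_le hV hW hV' hW'

lemma Par.H_child (hS : ∀ p ∈ S, p.Prime) {p : ℕ} (hp : p ∈ S) {V W V' W' : Finset ℕ}
    (hres : ¬ Res V W p) (hV : V' ⊆ V) (hW : W' ⊆ W) {i j : ℕ} (hV' : V'.Nonempty)
    (hW' : W'.Nonempty) (hi : ∀ v ∈ V', v.factorization p = i)
    (hj : ∀ w ∈ W', w.factorization p = j) : P.H S V' W' ≤ P.H S V W * P.wt p i j := by
  classical
  obtain ⟨v, hv⟩ := hV'
  obtain ⟨w, hw⟩ := hW'
  have hc : Res V' W' p :=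
    ⟨fun a ha b hb => (hi a ha).trans (hi b hb).symm, fun a ha b hb => (hj a ha).trans (hj b hb).symm⟩
  have e1 : P.hfac V' W' p = P.wt p i j := by
    rw [Par.hfac, if_pos hc, expo_eq hc.1 hv, expo_eq hc.2 hw, hi v hv, hj w hw]
  have e2 : P.hfac V W p = 1 := by rw [Par.hfac, if_neg hres]
  rw [Par.H, Par.H, ← Finset.mul_prod_erase S _ hp, ← Finset.mul_prod_erase S _ hp, e1, e2, one_mul,
    mul_comm]
  refine mul_le_mul_of_nonneg_right (Finset.prod_le_prod (fun _ _ => P.hfac_nonneg _ _ _) fun l hl => ?_)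
    (P.wt_nonneg _ _ _)
  exact P.hfac_mono (hS l (Finset.mem_of_mem_erase hl)).one_le hV hW ⟨v, hv⟩ ⟨w, hw⟩

end Monotone

end Vale.Agent.P028.DS
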