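import Vale.Agent.P028.DS.Engine

/-!
P028: the engine theorem.
-/

namespace Vale.Agent.P028.DS

open Finset Real Filter

/-- The allowed defect for the first cofactor. -/
noncomputable def Par.A₁ (P : Par) (p : ℕ) : ℝ := (32 * P.q₁ p / P.e) ^ (1 / (1 - P.e))

/-- The allowed defect for the second cofactor. -/
noncomputable def Par.A₂ (P : Par) (p : ℕ) : ℝ :=
  ((12 * P.q₂ p + 2 * P.A₁ p ^ P.e) / P.e) ^ (1 / (1 - P.e))

/-- The cost of the pairs that are both off center at `p`. -/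
noncomputable def Par.dirt (P : Par) (p : ℕ) : ℝ :=
  2 * (P.A₁ p * P.A₂ p) ^ P.e +
    16 * P.q₁ p ^ 2 * ((P.A₁ p * P.A₁ p) ^ P.e + (P.A₂ p * P.A₂ p) ^ P.e)

lemma Par.A₁_nonneg (P : Par) (p : ℕ) : 0 ≤ P.A₁ p :=
  Real.rpow_nonneg (div_nonneg (mul_nonneg (by norm_num) (Real.rpow_nonneg (Nat.cast_nonneg p) _))
    P.e_pos.le) _

lemma Par.A₂_nonneg (P : Par) (p : ℕ) : 0 ≤ P.A₂ p := by
  have := P.A₁_nonneg p
  have := P.e_pos
  have : 0 ≤ P.q₂ p := Real.rpow_nonneg (Nat.cast_nonneg p) _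
  unfold Par.A₂
  positivity

lemma Par.dirt_nonneg (P : Par) (p : ℕ) : 0 ≤ P.dirt p := by
  have := P.A₁_nonneg p
  have := P.A₂_nonneg p
  unfold Par.dirt
  positivity

lemma Par.exists_bounds (P : Par) : ∃ K : ℝ, 0 < K ∧ ∀ p : ℕ, 1 ≤ p →
    P.A₁ p ≤ K * (p : ℝ) ^ (-(1 - P.η)) ∧ P.A₂ p ≤ K * (p : ℝ) ^ (-(1 : ℝ)) := by
  have he := P.e_pos
  have he1 := P.e_lt
  set K1 := (32 / P.e) ^ (1 / (1 - P.e)) with hK1
  set K2 := ((12 + 2 * K1 ^ P.e) / P.e) ^ (1 / (1 - P.e)) with hK2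
  have hK1p : 0 < K1 := by positivity
  have hK2p : 0 < K2 := by positivity
  refine ⟨max K1 K2, lt_max_of_lt_left hK1p, fun p hp => ?_⟩
  have hp0 : (0 : ℝ) < p := by exact_mod_cast hp
  have h1 : P.A₁ p = K1 * (p : ℝ) ^ (-(1 - P.η)) := by
    rw [Par.A₁, mul_div_right_comm, Real.mul_rpow (by positivity) (P.q₁_pos hp).le, hK1, Par.q₁,
      ← Real.rpow_mul hp0.le]
    congr 2
    rw [Par.α₁]
    field_simp [sub_ne_zero.2 he1.ne']
  refine ⟨h1 ▸ mul_le_mul_of_nonneg_right (le_max_left _ _) (by positivity), ?_⟩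
  have h2 : P.A₁ p ^ P.e ≤ K1 ^ P.e * P.q₂ p := by
    rw [h1, Real.mul_rpow hK1p.le (by positivity), ← Real.rpow_mul hp0.le, Par.q₂, Par.α₂]
    refine mul_le_mul_of_nonneg_left (Real.rpow_le_rpow_of_exponent_le (by exact_mod_cast hp) ?_)
      (by positivity)
    nlinarith [P.hη]
  have h3 : P.A₂ p ≤ ((12 + 2 * K1 ^ P.e) / P.e * P.q₂ p) ^ (1 / (1 - P.e)) := by
    have := P.A₁_nonneg p
    have := P.q₂_pos (p := p) hp
    refine Real.rpow_le_rpow (by positivity) ?_ (div_nonneg zero_le_one (by linarith))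
    rw [div_mul_eq_mul_div]
    exact div_le_div_of_nonneg_right (by linarith) he.le
  refine h3.trans ?_
  rw [Real.mul_rpow (by positivity) (P.q₂_pos hp).le, Par.q₂, ← Real.rpow_mul hp0.le, ← hK2,
    show -P.α₂ * (1 / (1 - P.e)) = -1 by rw [Par.α₂]; field_simp [sub_ne_zero.2 he1.ne']]
  exact mul_le_mul_of_nonneg_right (le_max_right _ _) (by positivity)

/-- The dirt decays like a power of `p` above one. -/
lemma Par.dirt_le (P : Par) {K : ℝ} (hK : 0 < K) {p : ℕ} (hp : 1 ≤ p)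
    (hKb : P.A₁ p ≤ K * (p : ℝ) ^ (-(1 - P.η)) ∧ P.A₂ p ≤ K * (p : ℝ) ^ (-(1 : ℝ))) :
    P.dirt p ≤ 2 * (K * K) ^ P.e * (p : ℝ) ^ (-((2 - P.η) * P.e)) +
      (16 * (K * K) ^ P.e * (p : ℝ) ^ (-(2 * (1 - P.η))) +
        16 * (K * K) ^ P.e * (p : ℝ) ^ (-(2 * P.α₁ + 2 * P.e))) := by
  have he := P.e_pos
  have hp0 : (0 : ℝ) < p := by exact_mod_cast hp
  obtain ⟨b1, b2⟩ := hKb
  have a1 := P.A₁_nonneg p
  have a2 := P.A₂_nonneg p
  have e12 : (P.A₁ p * P.A₂ p) ^ P.e ≤ (K * K) ^ P.e * (p : ℝ) ^ (-((2 - P.η) * P.e)) := by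
    refine (Real.rpow_le_rpow (mul_nonneg a1 a2) (mul_le_mul b1 b2 a2 (a1.trans b1)) he.le).trans_eq ?_
    rw [mul_mul_mul_comm, ← Real.rpow_add hp0, Real.mul_rpow (by positivity) (by positivity),
      ← Real.rpow_mul hp0.le]
    congr 2; ring
  have e11 : (P.A₁ p * P.A₁ p) ^ P.e * P.q₁ p ^ 2 ≤
      (K * K) ^ P.e * (p : ℝ) ^ (-(2 * (1 - P.η))) := by
    refine (mul_le_mul_of_nonneg_right
      (Real.rpow_le_rpow (mul_nonneg a1 a1) (mul_le_mul b1 b1 a1 (a1.trans b1)) he.le)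
      (sq_nonneg _)).trans_eq ?_
    rw [mul_mul_mul_comm, ← Real.rpow_add hp0, Real.mul_rpow (by positivity) (by positivity),
      ← Real.rpow_mul hp0.le, Par.q₁, sq, ← Real.rpow_add hp0, mul_assoc, ← Real.rpow_add hp0]
    congr 2; rw [Par.α₁]; ring
  have e22 : (P.A₂ p * P.A₂ p) ^ P.e * P.q₁ p ^ 2 ≤
      (K * K) ^ P.e * (p : ℝ) ^ (-(2 * P.α₁ + 2 * P.e)) := by
    refine (mul_le_mul_of_nonneg_right
      (Real.rpow_le_rpow (mul_nonneg a2 a2) (mul_le_mul b2 b2 a2 (a2.trans b2)) he.le)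
      (sq_nonneg _)).trans_eq ?_
    rw [mul_mul_mul_comm, ← Real.rpow_add hp0, Real.mul_rpow (by positivity) (by positivity),
      ← Real.rpow_mul hp0.le, Par.q₁, sq, ← Real.rpow_add hp0, mul_assoc, ← Real.rpow_add hp0]
    congr 2; ring
  unfold Par.dirt
  linarith

lemma Par.exists_threshold (P : Par) {q₀ : ℝ} (hq₀ : 0 < q₀) : ∃ p₀ : ℕ,
    (∀ p : ℕ, p₀ ≤ p → 1 ≤ p ∧ P.q₁ p ≤ 1 / 4 ∧ P.q₁ p ≤ q₀ ∧ P.A₁ p ≤ 1 / 4) ∧
    ∀ T : Finset ℕ, (∀ p ∈ T, p₀ ≤ p) → ∑ p ∈ T, P.dirt p ≤ 1 / 2 := by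
  obtain ⟨K, hK, hKb⟩ := P.exists_bounds
  have he := P.e_pos
  have hη := P.η_lt
  have hα := P.one_fifth_le_α₁
  set G : ℕ → ℝ := fun p => 2 * (K * K) ^ P.e * (p : ℝ) ^ (-((2 - P.η) * P.e)) +
    (16 * (K * K) ^ P.e * (p : ℝ) ^ (-(2 * (1 - P.η))) +
      16 * (K * K) ^ P.e * (p : ℝ) ^ (-(2 * P.α₁ + 2 * P.e))) with hG
  have hsum : Summable G := by
    refine (((Real.summable_nat_rpow.2 ?_).mul_left _).add
      (((Real.summable_nat_rpow.2 ?_).mul_left _).add ((Real.summable_nat_rpow.2 ?_).mul_left _)))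
    · nlinarith [P.hη]
    · linarith
    · linarith [P.he]
  have hle : ∀ p : ℕ, 1 ≤ p → P.dirt p ≤ G p := fun p hp => P.dirt_le hK hp (hKb p hp)
  obtain ⟨s, hs⟩ := hsum.vanishing (Iio_mem_nhds (show (0 : ℝ) < 1 / 2 by norm_num))
  have hqt : Tendsto (fun p : ℕ => P.q₁ p) atTop (nhds 0) :=
    (tendsto_rpow_neg_atTop (by linarith)).comp tendsto_natCast_atTop_atTop
  have hAt : Tendsto (fun p : ℕ => K * (p : ℝ) ^ (-(1 - P.η))) atTop (nhds 0) := by
    have h := (tendsto_rpow_neg_atTop (show (0 : ℝ) < 1 - P.η by linarith)).const_mul K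
    rw [mul_zero] at h
    exact h.comp (tendsto_natCast_atTop_atTop (R := ℝ))
  obtain ⟨p₀, hp₀⟩ := eventually_atTop.1 (((eventually_ge_atTop (s.sup id + 1)).and
    (hqt.eventually_lt_const (lt_min (show (0 : ℝ) < 1 / 4 by norm_num) hq₀))).and
    (hAt.eventually_lt_const (show (0 : ℝ) < 1 / 4 by norm_num)))
  refine ⟨p₀, fun p hp => ?_, fun T hT => ?_⟩
  · obtain ⟨⟨h1, h2⟩, h3⟩ := hp₀ p hp
    have hp1 : 1 ≤ p := by omega
    rw [lt_min_iff] at h2
    exact ⟨hp1, h2.1.le, h2.2.le, (hKb p hp1).1.trans h3.le⟩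
  · refine (Finset.sum_le_sum fun p hp => hle p (by have := (hp₀ p (hT p hp)).1.1; omega)).trans ?_
    refine le_of_lt (hs T (Finset.disjoint_left.2 fun p hpT hps => ?_))
    have := (hp₀ p (hT p hpT)).1.1
    have := Finset.le_sup (f := id) hps
    simp only [id_eq] at this
    omega

section Step

variable {P : Par} {S : Finset ℕ} {E : ℕ → ℕ → Prop} {f g : ℕ → ℝ}

lemma norm_rpow {e X Y a b : ℝ} (hX : 0 < X) (hY : 0 < Y) (ha : 0 ≤ a) (hb : 0 ≤ b) :
    (a * b) ^ e = (X * Y) ^ e * (a / X * (b / Y)) ^ e := by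
  rw [← Real.mul_rpow (by positivity) (by positivity)]
  congr 1
  field_simp

lemma fib_filter_sum (f : ℕ → ℝ) (V : Finset ℕ) (p : ℕ) (c : ℕ → Prop) [DecidablePred c] :
    ∑ i ∈ (V.image fun v => v.factorization p).filter c, fib f V p i =
      ∑ v ∈ V.filter (fun v => c (v.factorization p)), f v := by
  rw [← Finset.sum_fiberwise_of_maps_to (s := V.filter fun v => c (v.factorization p))
    (t := (V.image fun v => v.factorization p).filter c) (g := fun v => v.factorization p)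
    (fun v hv => by
      obtain ⟨h1, h2⟩ := Finset.mem_filter.1 hv
      exact Finset.mem_filter.2 ⟨Finset.mem_image_of_mem _ h1, h2⟩)]
  refine Finset.sum_congr rfl fun i hi => ?_
  obtain ⟨-, hci⟩ := Finset.mem_filter.1 hi
  unfold fib
  rw [Finset.filter_filter]
  refine Finset.sum_congr (Finset.filter_congr fun v _ => ⟨fun h => ⟨h ▸ hci, h⟩, fun h => h.2⟩)
    fun _ _ => rfl

lemma split_norm_le (hS : ∀ p ∈ S, p.Prime) {p : ℕ} (hp : p ∈ S) {V W V' W' : Finset ℕ}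
    (hV : V' ⊆ V) (hW : W' ⊆ W) (hres : ¬ Res V W p) (hf : ∀ v ∈ V, 0 < f v) (hg : ∀ w ∈ W, 0 < g w)
    {B : ℝ} (hB : 0 ≤ B) {X Y M : ℝ} (hX : 0 < X) (hY : 0 < Y)
    (IH : ∀ V₁ W₁, V₁ ⊆ V → W₁ ⊆ W → V₁.Nonempty → W₁.Nonempty → Res V₁ W₁ p →
      edgeSum E f g V₁ W₁ ≤ B * P.H S V₁ W₁ * ((∑ v ∈ V₁, f v) * ∑ w ∈ W₁, g w) ^ P.e)
    (hM : ∑ i ∈ V'.image (fun v => v.factorization p), ∑ j ∈ W'.image (fun w => w.factorization p),
      P.wt p i j * (fib f V' p i / X * (fib g W' p j / Y)) ^ P.e ≤ M) :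
    edgeSum E f g V' W' ≤ B * P.H S V W * (X * Y) ^ P.e * M := by
  refine (split_le hS hp hV hW hres hf hg hB IH).trans ?_
  have h0 : 0 ≤ B * P.H S V W * (X * Y) ^ P.e :=
    mul_nonneg (mul_nonneg hB (Par.H_nonneg _ _)) (Real.rpow_nonneg (by positivity) _)
  refine le_trans (le_of_eq ?_) (mul_le_mul_of_nonneg_left hM h0)
  simp only [Finset.mul_sum]
  refine Finset.sum_congr rfl fun i _ => Finset.sum_congr rfl fun j _ => ?_
  rw [norm_rpow hX hY (fib_nonneg (fun u hu => hf u (hV hu)) p i)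
    (fib_nonneg (fun u hu => hg u (hW hu)) p j)]
  ring

open Classical in
/-- The number of small open primes. -/
noncomputable def nsm (S : Finset ℕ) (p₀ : ℕ) (V W : Finset ℕ) : ℕ :=
  (S.filter fun p => p < p₀ ∧ ¬ Res V W p).card

lemma nsm_mono {p₀ : ℕ} {V W V' W' : Finset ℕ} (hV : V' ⊆ V) (hW : W' ⊆ W) :
    nsm S p₀ V' W' ≤ nsm S p₀ V W := by
  classical
  refine Finset.card_le_card fun p hp => ?_
  obtain ⟨h1, h2, h3⟩ := Finset.mem_filter.1 hp
  exact Finset.mem_filter.2 ⟨h1, h2, fun h => h3 (h.mono hV hW)⟩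

lemma nsm_lt {p₀ p : ℕ} (hp : p ∈ S) (hp₀ : p < p₀) {V W V' W' : Finset ℕ} (hV : V' ⊆ V)
    (hW : W' ⊆ W) (h : ¬ Res V W p) (h' : Res V' W' p) : nsm S p₀ V' W' < nsm S p₀ V W := by
  classical
  refine Finset.card_lt_card (Finset.ssubset_iff_subset_ne.2 ⟨fun l hl => ?_, fun he => ?_⟩)
  · obtain ⟨h1, h2, h3⟩ := Finset.mem_filter.1 hl
    exact Finset.mem_filter.2 ⟨h1, h2, fun h => h3 (h.mono hV hW)⟩
  · have : p ∈ S.filter fun p => p < p₀ ∧ ¬ Res V W p := Finset.mem_filter.2 ⟨hp, hp₀, h⟩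
    rw [← he] at this
    exact (Finset.mem_filter.1 this).2.2 h'

lemma card_lt_of_res {p : ℕ} {V W V' W' : Finset ℕ} (hV : V' ⊆ V) (hW : W' ⊆ W) (h : ¬ Res V W p)
    (h' : Res V' W' p) : V'.card + W'.card < V.card + W.card := by
  have hne : V' ≠ V ∨ W' ≠ W := by
    by_contra hc
    push Not at hc
    exact h (hc.1 ▸ hc.2 ▸ h')
  have h1 := Finset.card_le_card hV
  have h2 := Finset.card_le_card hW
  rcases hne with h3 | h3
  · have := Finset.card_lt_card (Finset.ssubset_iff_subset_ne.2 ⟨hV, h3⟩); omega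
  · have := Finset.card_lt_card (Finset.ssubset_iff_subset_ne.2 ⟨hW, h3⟩); omega

lemma edgeSum_filter_right (V W : Finset ℕ) (c : ℕ → Prop) [DecidablePred c] :
    edgeSum E f g V W =
      edgeSum E f g V (W.filter c) + edgeSum E f g V (W.filter fun w => ¬ c w) := by
  unfold edgeSum
  rw [← Finset.sum_add_distrib]
  exact Finset.sum_congr rfl fun v _ => (Finset.sum_filter_add_sum_filter_not W c _).symm

lemma edgeSum_filter_left (V W : Finset ℕ) (c : ℕ → Prop) [DecidablePred c] :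
    edgeSum E f g V W =
      edgeSum E f g (V.filter c) W + edgeSum E f g (V.filter fun v => ¬ c v) W := by
  unfold edgeSum
  exact (Finset.sum_filter_add_sum_filter_not V c _).symm

lemma sub_rpow_le {e X Z : ℝ} (he0 : 0 ≤ e) (he1 : e ≤ 1) (hX : 0 < X) (hZ0 : 0 ≤ Z) (hZ : Z ≤ X) :
    (X - Z) ^ e ≤ X ^ e * (1 - e * (Z / X)) := by
  have h1 : Z / X ≤ 1 := (div_le_one hX).2 hZ
  rw [show X - Z = X * (1 - Z / X) by field_simp, Real.mul_rpow hX.le (by linarith)]
  refine mul_le_mul_of_nonneg_left ?_ (Real.rpow_nonneg hX.le _)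
  have h := rpow_one_add_le_one_add_mul_self (s := -(Z / X)) (by linarith) he0 he1
  rw [show (1 : ℝ) + -(Z / X) = 1 - Z / X by ring] at h
  linarith

/-- The induction claim. -/
def Claim (P : Par) (S : Finset ℕ) (E : ℕ → ℕ → Prop) (f g : ℕ → ℝ) (p₀ : ℕ) (Kl : ℝ)
    (V W : Finset ℕ) : Prop :=
  edgeSum E f g V W ≤
    2 * Kl * 64 ^ nsm S p₀ V W * P.H S V W * ((∑ v ∈ V, f v) * ∑ w ∈ W, g w) ^ P.e

/-- The induction hypothesis at `(V, W)`. -/
def Below (P : Par) (S : Finset ℕ) (E : ℕ → ℕ → Prop) (f g : ℕ → ℝ) (p₀ : ℕ) (Kl : ℝ)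
    (V W : Finset ℕ) : Prop :=
  ∀ V₁ W₁, V₁ ⊆ V → W₁ ⊆ W → V₁.card + W₁.card < V.card + W.card → Claim P S E f g p₀ Kl V₁ W₁

variable {p₀ : ℕ} {Kl : ℝ} {V W : Finset ℕ}

lemma below_res (hKl : 0 ≤ Kl) (hf : ∀ v ∈ V, 0 < f v) (hg : ∀ w ∈ W, 0 < g w)
    (IH : Below P S E f g p₀ Kl V W) {p : ℕ} (hres : ¬ Res V W p) (V₁ W₁ : Finset ℕ)
    (h1 : V₁ ⊆ V) (h2 : W₁ ⊆ W) (hr : Res V₁ W₁ p) :
    edgeSum E f g V₁ W₁ ≤
      2 * Kl * 64 ^ nsm S p₀ V W * P.H S V₁ W₁ * ((∑ v ∈ V₁, f v) * ∑ w ∈ W₁, g w) ^ P.e := by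
  refine (IH V₁ W₁ h1 h2 (card_lt_of_res h1 h2 hres hr)).trans ?_
  have hpos : 0 ≤ ((∑ v ∈ V₁, f v) * ∑ w ∈ W₁, g w) ^ P.e :=
    Real.rpow_nonneg (mul_nonneg (Finset.sum_nonneg fun v hv => (hf v (h1 hv)).le)
      (Finset.sum_nonneg fun w hw => (hg w (h2 hw)).le)) _
  exact mul_le_mul_of_nonneg_right (mul_le_mul_of_nonneg_right
    (mul_le_mul_of_nonneg_left (pow_le_pow_right₀ (by norm_num) (nsm_mono h1 h2)) (by positivity))
    (Par.H_nonneg _ _)) hpos

lemma fib_norm (hX : 0 < ∑ v ∈ V, f v) (p : ℕ) :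
    ∑ i ∈ V.image (fun v => v.factorization p), fib f V p i / (∑ v ∈ V, f v) = 1 := by
  rw [← Finset.sum_div, fib_sum, div_self hX.ne']

lemma step_small (hS : ∀ p ∈ S, p.Prime) (hKl : 0 ≤ Kl) (hf : ∀ v ∈ V, 0 < f v)
    (hg : ∀ w ∈ W, 0 < g w) (hX : 0 < ∑ v ∈ V, f v) (hY : 0 < ∑ w ∈ W, g w)
    (IH : Below P S E f g p₀ Kl V W) {p : ℕ} (hp : p ∈ S) (hp₀ : p < p₀) (hres : ¬ Res V W p) :
    Claim P S E f g p₀ Kl V W := by
  classical
  set m := nsm S p₀ V W
  have hm : 1 ≤ m := Finset.card_pos.2 ⟨p, Finset.mem_filter.2 ⟨hp, hp₀, hres⟩⟩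
  have h2 := (hS p hp).two_le
  have hq0 := (P.q₁_pos (p := p) (by omega)).le
  refine le_trans (split_norm_le (P := P) hS hp (Finset.Subset.refl V) (Finset.Subset.refl W) hres hf hg
    (B := 2 * Kl * 64 ^ (m - 1)) (M := 20) (by positivity) hX hY ?_ ?_) ?_
  · intro V₁ W₁ h1 h2' hV₁ hW₁ hr
    refine (IH V₁ W₁ h1 h2' (card_lt_of_res h1 h2' hres hr)).trans ?_
    refine mul_le_mul_of_nonneg_right (mul_le_mul_of_nonneg_right
      (mul_le_mul_of_nonneg_left (pow_le_pow_right₀ (by norm_num) ?_) (by positivity))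
      (Par.H_nonneg _ _)) (Real.rpow_nonneg (mul_nonneg (Finset.sum_nonneg fun v hv => (hf v (h1 hv)).le)
      (Finset.sum_nonneg fun w hw => (hg w (h2' hw)).le)) _)
    have := nsm_lt hp hp₀ h1 h2' hres hr
    omega
  · refine le_trans ?_ (sum_wt_crude P.he.le hq0 (P.q₁_le_nine h2)
      (x := fun i => fib f V p i / ∑ v ∈ V, f v) (y := fun j => fib g W p j / ∑ w ∈ W, g w)
      (fun i _ => div_nonneg (fib_nonneg hf p i) hX.le) (fun j _ => div_nonneg (fib_nonneg hg p j) hY.le)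
      (fib_norm hX p).le (fib_norm hY p).le)
    exact Finset.sum_le_sum fun i _ => Finset.sum_le_sum fun j _ => mul_le_mul_of_nonneg_right
      (P.wt_le_pow (by omega) i j) (Real.rpow_nonneg (mul_nonneg (div_nonneg (fib_nonneg hf p i) hX.le)
        (div_nonneg (fib_nonneg hg p j) hY.le)) _)
  · have e64 : (64 : ℝ) ^ m = 64 ^ (m - 1) * 64 := by rw [← pow_succ, Nat.sub_add_cancel hm]
    have hnn : 0 ≤ 2 * Kl * 64 ^ (m - 1) * P.H S V W * ((∑ v ∈ V, f v) * ∑ w ∈ W, g w) ^ P.e :=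
      mul_nonneg (mul_nonneg (by positivity) (Par.H_nonneg _ _)) (Real.rpow_nonneg (by positivity) _)
    rw [e64]
    linarith

/-- The four defects at a central exponent. -/
def Centered (P : Par) (f g : ℕ → ℝ) (V W : Finset ℕ) (p k : ℕ) : Prop :=
  ∑ v ∈ V.filter (fun v => k < v.factorization p), f v ≤ P.A₁ p * ∑ v ∈ V, f v ∧
  ∑ v ∈ V.filter (fun v => v.factorization p < k), f v ≤ P.A₁ p * ∑ v ∈ V, f v ∧
  ∑ v ∈ V.filter (fun v => v.factorization p < k), f v ≤ P.A₂ p * ∑ v ∈ V, f v ∧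
  ∑ w ∈ W.filter (fun w => w.factorization p < k), g w ≤ P.A₁ p * ∑ w ∈ W, g w ∧
  ∑ w ∈ W.filter (fun w => k < w.factorization p), g w ≤ P.A₁ p * ∑ w ∈ W, g w ∧
  ∑ w ∈ W.filter (fun w => k < w.factorization p), g w ≤ P.A₂ p * ∑ w ∈ W, g w

lemma image_fib_div (f : ℕ → ℝ) (V : Finset ℕ) {p : ℕ} (c : ℕ → Prop) [DecidablePred c] :
    ∑ i ∈ (V.image fun v => v.factorization p).filter c, fib f V p i / (∑ v ∈ V, f v) =
      (∑ v ∈ V.filter (fun v => c (v.factorization p)), f v) / ∑ v ∈ V, f v := by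
  rw [← Finset.sum_div, fib_filter_sum]

lemma step_up (hS : ∀ p ∈ S, p.Prime) (hKl : 0 ≤ Kl) (hf : ∀ v ∈ V, 0 < f v) (hg : ∀ w ∈ W, 0 < g w)
    (hX : 0 < ∑ v ∈ V, f v) (hY : 0 < ∑ w ∈ W, g w) (IH : Below P S E f g p₀ Kl V W) {p k : ℕ}
    (hp : p ∈ S) (hres : ¬ Res V W p) (hq : P.q₁ p ≤ 1 / 4)
    (ha : ∑ v ∈ V.filter (fun v => k < v.factorization p), f v ≤ P.A₁ p * ∑ v ∈ V, f v)
    (hb : P.A₂ p * ∑ w ∈ W, g w < ∑ w ∈ W.filter (fun w => k < w.factorization p), g w) :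
    Claim P S E f g p₀ Kl V W := by
  classical
  set X := ∑ v ∈ V, f v with hXd
  set Y := ∑ w ∈ W, g w with hYd
  set U := W.filter (fun w => k < w.factorization p) with hU
  set Z := ∑ w ∈ U, g w with hZd
  set B := 2 * Kl * 64 ^ nsm S p₀ V W with hBd
  have hB : 0 ≤ B := by positivity
  have hZ0 : 0 < Z := (mul_nonneg (P.A₂_nonneg p) hY.le).trans_lt hb
  have hZY : Z ≤ Y := Finset.sum_le_sum_of_subset_of_nonneg (Finset.filter_subset _ _)
    fun w hw _ => (hg w hw).le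
  have hp1 := (hS p hp).one_le
  set W' := W.filter (fun w => ¬ k < w.factorization p) with hW'
  have hWcard : W'.card < W.card := by
    refine Finset.card_lt_card (Finset.ssubset_iff_subset_ne.2 ⟨Finset.filter_subset _ _, fun he => ?_⟩)
    obtain ⟨w, hw⟩ := Finset.nonempty_of_ne_empty fun h : U = ∅ => by
      rw [hZd, h, Finset.sum_empty] at hZ0; exact lt_irrefl _ hZ0
    obtain ⟨hwW, hwk⟩ := Finset.mem_filter.1 hw
    rw [← he] at hwW
    exact (Finset.mem_filter.1 hwW).2 hwk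
  have hW'sum : ∑ w ∈ W', g w = Y - Z := by
    rw [hYd, hZd, hU, hW', ← Finset.sum_filter_add_sum_filter_not W (fun w => k < w.factorization p) g]
    ring
  have hxy : 0 ≤ (X * Y) ^ P.e := Real.rpow_nonneg (by positivity) _
  have h1 : edgeSum E f g V W' ≤ B * P.H S V W * (X * Y) ^ P.e * (1 - P.e * (Z / Y)) := by
    by_cases hne : W'.Nonempty
    · refine (IH V W' (Finset.Subset.refl _) (Finset.filter_subset _ _) (by omega)).trans ?_
      have hVne : V.Nonempty := Finset.nonempty_of_ne_empty fun h => by simp [hXd, h] at hX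
      rw [hW'sum, Real.mul_rpow hX.le (by linarith), Real.mul_rpow hX.le hY.le]
      have hsub := sub_rpow_le P.e_pos.le P.e_lt.le hY hZ0.le hZY
      calc 2 * Kl * 64 ^ nsm S p₀ V W' * P.H S V W' * (X ^ P.e * (Y - Z) ^ P.e)
          ≤ B * P.H S V W * (X ^ P.e * (Y ^ P.e * (1 - P.e * (Z / Y)))) := by
            refine mul_le_mul (mul_le_mul (mul_le_mul_of_nonneg_left (pow_le_pow_right₀ (by norm_num)
              (nsm_mono (Finset.Subset.refl _) (Finset.filter_subset _ _))) (by positivity))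
              (Par.H_mono hS (Finset.Subset.refl _) (Finset.filter_subset _ _) hVne hne)
              (Par.H_nonneg _ _) hB)
              (mul_le_mul_of_nonneg_left hsub (Real.rpow_nonneg hX.le _))
              (mul_nonneg (Real.rpow_nonneg hX.le _) (Real.rpow_nonneg (by linarith) _))
              (mul_nonneg hB (Par.H_nonneg _ _))
        _ = _ := by ring
    · rw [Finset.not_nonempty_iff_eq_empty.1 hne]
      simp only [edgeSum, Finset.sum_empty, Finset.sum_const_zero]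
      refine mul_nonneg (mul_nonneg (mul_nonneg hB (Par.H_nonneg _ _)) hxy) ?_
      have : Z / Y ≤ 1 := (div_le_one hY).2 hZY
      nlinarith [P.e_lt, P.e_pos, div_nonneg hZ0.le hY.le]
  have hmem : ∀ j ∈ U.image (fun w => w.factorization p), k < j := fun j hj => by
    obtain ⟨w, hw, rfl⟩ := Finset.mem_image.1 hj
    exact (Finset.mem_filter.1 hw).2
  have hUfib : ∑ j ∈ U.image (fun w => w.factorization p), fib g U p j / Y = Z / Y := by
    rw [← Finset.sum_div, fib_sum]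
  have h2 : edgeSum E f g V U ≤ B * P.H S V W * (X * Y) ^ P.e *
      ((12 * P.q₂ p + 2 * P.A₁ p ^ P.e) * (Z / Y) ^ P.e) := by
    refine split_norm_le hS hp (Finset.Subset.refl V) (Finset.filter_subset _ _) hres hf hg hB hX hY
      (fun V₁ W₁ h1 h2 _ _ hr => below_res hKl hf hg IH hres V₁ W₁ h1 h2 hr) ?_
    refine wt_sum_up_le hp1 hq k (fun i _ => div_nonneg (fib_nonneg hf p i) hX.le)
      (fun j _ => div_nonneg (fib_nonneg (fun w hw => hg w (Finset.mem_of_mem_filter w hw)) p j) hY.le)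
      (fib_norm hX p).le (P.A₁_nonneg p) (div_nonneg hZ0.le hY.le) ?_ hUfib.le hmem
    rw [image_fib_div f V, div_le_iff₀ hX]
    exact ha
  have hkey : (12 * P.q₂ p + 2 * P.A₁ p ^ P.e) * (Z / Y) ^ P.e ≤ P.e * (Z / Y) := by
    have hq2 := P.q₂_pos (p := p) hp1
    have hc : 0 ≤ (12 * P.q₂ p + 2 * P.A₁ p ^ P.e) / P.e := by
      have := P.A₁_nonneg p; have := P.e_pos; positivity
    have h := rpow_le_mul_of_threshold P.e_lt (div_pos hZ0 hY) hc
      (le_of_lt (by rw [lt_div_iff₀ hY]; exact hb))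
    rw [div_mul_eq_mul_div, div_le_iff₀ P.e_pos] at h
    linarith
  unfold Claim
  rw [← hXd, ← hYd, ← hBd, edgeSum_filter_right V W (fun w => k < w.factorization p)]
  have h3 := mul_le_mul_of_nonneg_left hkey
    (mul_nonneg (mul_nonneg hB (Par.H_nonneg (P := P) (S := S) V W)) hxy)
  rw [← hU, ← hW']
  linarith

lemma step_down (hS : ∀ p ∈ S, p.Prime) (hKl : 0 ≤ Kl) (hf : ∀ v ∈ V, 0 < f v) (hg : ∀ w ∈ W, 0 < g w)
    (hX : 0 < ∑ v ∈ V, f v) (hY : 0 < ∑ w ∈ W, g w) (IH : Below P S E f g p₀ Kl V W) {p k : ℕ}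
    (hp : p ∈ S) (hres : ¬ Res V W p) (hq : P.q₁ p ≤ 1 / 4)
    (ha : ∑ w ∈ W.filter (fun w => w.factorization p < k), g w ≤ P.A₁ p * ∑ w ∈ W, g w)
    (hb : P.A₂ p * ∑ v ∈ V, f v < ∑ v ∈ V.filter (fun v => v.factorization p < k), f v) :
    Claim P S E f g p₀ Kl V W := by
  classical
  set X := ∑ v ∈ V, f v with hXd
  set Y := ∑ w ∈ W, g w with hYd
  set U := V.filter (fun v => v.factorization p < k) with hU
  set Z := ∑ v ∈ U, f v with hZd
  set B := 2 * Kl * 64 ^ nsm S p₀ V W with hBd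
  have hB : 0 ≤ B := by positivity
  have hZ0 : 0 < Z := (mul_nonneg (P.A₂_nonneg p) hX.le).trans_lt hb
  have hZX : Z ≤ X := Finset.sum_le_sum_of_subset_of_nonneg (Finset.filter_subset _ _)
    fun v hv _ => (hf v hv).le
  have hp1 := (hS p hp).one_le
  set V' := V.filter (fun v => ¬ v.factorization p < k) with hV'
  have hVcard : V'.card < V.card := by
    refine Finset.card_lt_card (Finset.ssubset_iff_subset_ne.2 ⟨Finset.filter_subset _ _, fun he => ?_⟩)
    obtain ⟨w, hw⟩ := Finset.nonempty_of_ne_empty fun h : U = ∅ => by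
      rw [hZd, h, Finset.sum_empty] at hZ0; exact lt_irrefl _ hZ0
    obtain ⟨hwW, hwk⟩ := Finset.mem_filter.1 hw
    rw [← he] at hwW
    exact (Finset.mem_filter.1 hwW).2 hwk
  have hV'sum : ∑ v ∈ V', f v = X - Z := by
    rw [hXd, hZd, hU, hV', ← Finset.sum_filter_add_sum_filter_not V (fun v => v.factorization p < k) f]
    ring
  have hxy : 0 ≤ (X * Y) ^ P.e := Real.rpow_nonneg (by positivity) _
  have h1 : edgeSum E f g V' W ≤ B * P.H S V W * (X * Y) ^ P.e * (1 - P.e * (Z / X)) := by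
    by_cases hne : V'.Nonempty
    · refine (IH V' W (Finset.filter_subset _ _) (Finset.Subset.refl _) (by omega)).trans ?_
      have hWne : W.Nonempty := Finset.nonempty_of_ne_empty fun h => by simp [hYd, h] at hY
      rw [hV'sum, Real.mul_rpow (by linarith) hY.le, Real.mul_rpow hX.le hY.le]
      have hsub := sub_rpow_le P.e_pos.le P.e_lt.le hX hZ0.le hZX
      calc 2 * Kl * 64 ^ nsm S p₀ V' W * P.H S V' W * ((X - Z) ^ P.e * Y ^ P.e)
          ≤ B * P.H S V W * ((X ^ P.e * (1 - P.e * (Z / X))) * Y ^ P.e) := by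
            refine mul_le_mul (mul_le_mul (mul_le_mul_of_nonneg_left (pow_le_pow_right₀ (by norm_num)
              (nsm_mono (Finset.filter_subset _ _) (Finset.Subset.refl _))) (by positivity))
              (Par.H_mono hS (Finset.filter_subset _ _) (Finset.Subset.refl _) hne hWne)
              (Par.H_nonneg _ _) hB)
              (mul_le_mul_of_nonneg_right hsub (Real.rpow_nonneg hY.le _))
              (mul_nonneg (Real.rpow_nonneg (by linarith) _) (Real.rpow_nonneg hY.le _))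
              (mul_nonneg hB (Par.H_nonneg _ _))
        _ = _ := by ring
    · rw [Finset.not_nonempty_iff_eq_empty.1 hne]
      simp only [edgeSum, Finset.sum_empty]
      refine mul_nonneg (mul_nonneg (mul_nonneg hB (Par.H_nonneg _ _)) hxy) ?_
      have : Z / X ≤ 1 := (div_le_one hX).2 hZX
      nlinarith [P.e_lt, P.e_pos, div_nonneg hZ0.le hX.le]
  have hmem : ∀ i ∈ U.image (fun v => v.factorization p), i < k := fun i hi => by
    obtain ⟨v, hv, rfl⟩ := Finset.mem_image.1 hi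
    exact (Finset.mem_filter.1 hv).2
  have hUfib : ∑ i ∈ U.image (fun v => v.factorization p), fib f U p i / X = Z / X := by
    rw [← Finset.sum_div, fib_sum]
  have h2 : edgeSum E f g U W ≤ B * P.H S V W * (X * Y) ^ P.e *
      ((12 * P.q₂ p + 2 * P.A₁ p ^ P.e) * (Z / X) ^ P.e) := by
    refine split_norm_le hS hp (Finset.filter_subset _ _) (Finset.Subset.refl W) hres hf hg hB hX hY
      (fun V₁ W₁ h1 h2 _ _ hr => below_res hKl hf hg IH hres V₁ W₁ h1 h2 hr) ?_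
    refine wt_sum_down_le hp1 hq k
      (fun i _ => div_nonneg (fib_nonneg (fun v hv => hf v (Finset.mem_of_mem_filter v hv)) p i) hX.le)
      (fun j _ => div_nonneg (fib_nonneg hg p j) hY.le)
      (fib_norm hY p).le (div_nonneg hZ0.le hX.le) (P.A₁_nonneg p) hUfib.le ?_ hmem
    rw [image_fib_div g W, div_le_iff₀ hY]
    exact ha
  have hkey : (12 * P.q₂ p + 2 * P.A₁ p ^ P.e) * (Z / X) ^ P.e ≤ P.e * (Z / X) := by
    have hq2 := P.q₂_pos (p := p) hp1
    have hc : 0 ≤ (12 * P.q₂ p + 2 * P.A₁ p ^ P.e) / P.e := by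
      have := P.A₁_nonneg p; have := P.e_pos; positivity
    have h := rpow_le_mul_of_threshold P.e_lt (div_pos hZ0 hX) hc
      (le_of_lt (by rw [lt_div_iff₀ hX]; exact hb))
    rw [div_mul_eq_mul_div, div_le_iff₀ P.e_pos] at h
    linarith
  unfold Claim
  rw [← hXd, ← hYd, ← hBd, edgeSum_filter_left V W (fun v => v.factorization p < k)]
  have h3 := mul_le_mul_of_nonneg_left hkey
    (mul_nonneg (mul_nonneg hB (Par.H_nonneg (P := P) (S := S) V W)) hxy)
  rw [← hU, ← hV']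
  linarith

lemma step_center (hS : ∀ p ∈ S, p.Prime) (hKl : 0 ≤ Kl) (hf : ∀ v ∈ V, 0 < f v)
    (hg : ∀ w ∈ W, 0 < g w) (hX : 0 < ∑ v ∈ V, f v) (hY : 0 < ∑ w ∈ W, g w)
    (IH : Below P S E f g p₀ Kl V W) {q₀ : ℝ}
    (hconc : ∀ q : ℝ, 0 < q → q ≤ q₀ → ∀ (I J : Finset ℕ) (x y : ℕ → ℝ), (∀ i ∈ I, 0 ≤ x i) →
      (∀ j ∈ J, 0 ≤ y j) → ∑ i ∈ I, x i = 1 → ∑ j ∈ J, y j = 1 →
      (∑ i ∈ I, ∑ j ∈ J, q ^ Nat.dist i j * (x i * y j) ^ P.e ≤ 1) ∨
      ∃ k, (∑ i ∈ I.erase k, x i) + ∑ j ∈ J.erase k, y j ≤ (32 * q / P.e) ^ (1 / (1 - P.e)))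
    {p : ℕ} (hp : p ∈ S) (hres : ¬ Res V W p) (hq : P.q₁ p ≤ 1 / 4) (hq' : P.q₁ p ≤ q₀) :
    Claim P S E f g p₀ Kl V W ∨ ∃ k, Centered P f g V W p k := by
  classical
  by_cases hC : Claim P S E f g p₀ Kl V W
  · exact Or.inl hC
  set X := ∑ v ∈ V, f v with hXd
  set Y := ∑ w ∈ W, g w with hYd
  have hp1 := (hS p hp).one_le
  have hB : 0 ≤ 2 * Kl * 64 ^ nsm S p₀ V W := by positivity
  rcases hconc (P.q₁ p) (P.q₁_pos hp1) hq' (V.image fun v => v.factorization p)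
    (W.image fun w => w.factorization p) (fun i => fib f V p i / X) (fun j => fib g W p j / Y)
    (fun i _ => div_nonneg (fib_nonneg hf p i) hX.le) (fun j _ => div_nonneg (fib_nonneg hg p j) hY.le)
    (fib_norm hX p) (fib_norm hY p) with h | ⟨k, hk⟩
  · refine absurd ?_ hC
    refine (split_norm_le hS hp (Finset.Subset.refl V) (Finset.Subset.refl W) hres hf hg hB hX hY
      (fun V₁ W₁ h1 h2 _ _ hr => below_res hKl hf hg IH hres V₁ W₁ h1 h2 hr) (M := 1) ?_).trans_eq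
      (mul_one _)
    refine le_trans ?_ h
    exact Finset.sum_le_sum fun i _ => Finset.sum_le_sum fun j _ => mul_le_mul_of_nonneg_right
      (P.wt_le_pow hp1 i j) (Real.rpow_nonneg (mul_nonneg (div_nonneg (fib_nonneg hf p i) hX.le)
        (div_nonneg (fib_nonneg hg p j) hY.le)) _)
  right
  refine ⟨k, ?_⟩
  have hA : (32 * P.q₁ p / P.e) ^ (1 / (1 - P.e)) = P.A₁ p := rfl
  rw [hA] at hk
  have partV : ∀ (c : ℕ → Prop) [DecidablePred c], (∀ i, c i → i ≠ k) →
      ∑ v ∈ V.filter (fun v => c (v.factorization p)), f v ≤ P.A₁ p * X := by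
    intro c _ hc
    rw [← div_le_iff₀ hX, ← image_fib_div f V c]
    refine le_trans (le_trans (Finset.sum_le_sum_of_subset_of_nonneg (fun i hi => ?_)
      fun i _ _ => div_nonneg (fib_nonneg hf p i) hX.le) (le_add_of_nonneg_right ?_)) hk
    · obtain ⟨h1, h2⟩ := Finset.mem_filter.1 hi
      exact Finset.mem_erase.2 ⟨hc i h2, h1⟩
    · exact Finset.sum_nonneg fun j _ => div_nonneg (fib_nonneg hg p j) hY.le
  have partW : ∀ (c : ℕ → Prop) [DecidablePred c], (∀ i, c i → i ≠ k) →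
      ∑ w ∈ W.filter (fun w => c (w.factorization p)), g w ≤ P.A₁ p * Y := by
    intro c _ hc
    rw [← div_le_iff₀ hY, ← image_fib_div g W c]
    refine le_trans (le_trans (Finset.sum_le_sum_of_subset_of_nonneg (fun i hi => ?_)
      fun i _ _ => div_nonneg (fib_nonneg hg p i) hY.le) (le_add_of_nonneg_left ?_)) hk
    · obtain ⟨h1, h2⟩ := Finset.mem_filter.1 hi
      exact Finset.mem_erase.2 ⟨hc i h2, h1⟩
    · exact Finset.sum_nonneg fun j _ => div_nonneg (fib_nonneg hf p j) hX.le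
  have h1 := partV (k < ·) (fun i hi => Nat.ne_of_gt hi)
  have h2 := partV (· < k) (fun i hi => Nat.ne_of_lt hi)
  have h4 := partW (· < k) (fun i hi => Nat.ne_of_lt hi)
  have h5 := partW (k < ·) (fun i hi => Nat.ne_of_gt hi)
  refine ⟨h1, h2, ?_, h4, h5, ?_⟩
  · by_contra hlt
    exact hC (step_down hS hKl hf hg hX hY IH hp hres hq h4 (not_le.1 hlt))
  · by_contra hlt
    exact hC (step_up hS hKl hf hg hX hY IH hp hres hq h1 (not_le.1 hlt))

/-- Pairs that are both off center at `p`. -/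
lemma dirty_le (hS : ∀ p ∈ S, p.Prime) (hKl : 0 ≤ Kl) (hf : ∀ v ∈ V, 0 < f v) (hg : ∀ w ∈ W, 0 < g w)
    (hX : 0 < ∑ v ∈ V, f v) (hY : 0 < ∑ w ∈ W, g w) (IH : Below P S E f g p₀ Kl V W) {p k : ℕ}
    (hp : p ∈ S) (hres : ¬ Res V W p) (hq : P.q₁ p ≤ 1 / 4) (hA : P.A₁ p ≤ 1 / 4)
    (hk : Centered P f g V W p k) :
    edgeSum E f g (V.filter fun v => v.factorization p ≠ k) (W.filter fun w => w.factorization p ≠ k) ≤
      2 * Kl * 64 ^ nsm S p₀ V W * P.H S V W *
        ((∑ v ∈ V, f v) * ∑ w ∈ W, g w) ^ P.e * P.dirt p := by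
  classical
  obtain ⟨hau, had, had', hbd, hbu, hbu'⟩ := hk
  set X := ∑ v ∈ V, f v with hXd
  set Y := ∑ w ∈ W, g w with hYd
  set B := 2 * Kl * 64 ^ nsm S p₀ V W with hBd
  have hB : 0 ≤ B := by positivity
  have hp1 := (hS p hp).one_le
  have a1 := P.A₁_nonneg p
  have a2 := P.A₂_nonneg p
  have hsame : ∀ (V' W' : Finset ℕ) (a b : ℝ), V' ⊆ V → W' ⊆ W → 0 ≤ a → 0 ≤ b →
      ∑ v ∈ V', f v ≤ a * X → ∑ w ∈ W', g w ≤ b * Y → a ≤ 1 / 2 →
      edgeSum E f g V' W' ≤ B * P.H S V W * (X * Y) ^ P.e * (a * b) ^ P.e := by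
    intro V' W' a b hV hW ha hb hVs hWs ha1
    have hxy : 0 ≤ (X * Y) ^ P.e := Real.rpow_nonneg (by positivity) _
    by_cases hne : V'.Nonempty ∧ W'.Nonempty
    · have hcard : V'.card + W'.card < V.card + W.card := by
        have hlt : V'.card < V.card := by
          refine Finset.card_lt_card (Finset.ssubset_iff_subset_ne.2 ⟨hV, fun he => ?_⟩)
          rw [he] at hVs
          nlinarith [mul_le_mul_of_nonneg_right ha1 hX.le]
        have := Finset.card_le_card hW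
        omega
      refine (IH V' W' hV hW hcard).trans ?_
      have hX' : 0 ≤ ∑ v ∈ V', f v := Finset.sum_nonneg fun v hv => (hf v (hV hv)).le
      have hY' : 0 ≤ ∑ w ∈ W', g w := Finset.sum_nonneg fun w hw => (hg w (hW hw)).le
      calc _ ≤ B * P.H S V W * ((a * b) * (X * Y)) ^ P.e := by
            refine mul_le_mul (mul_le_mul (mul_le_mul_of_nonneg_left (pow_le_pow_right₀ (by norm_num)
              (nsm_mono hV hW)) (by positivity)) (Par.H_mono hS hV hW hne.1 hne.2)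
              (Par.H_nonneg _ _) hB) (Real.rpow_le_rpow (mul_nonneg hX' hY') ?_ P.e_pos.le)
              (Real.rpow_nonneg (mul_nonneg hX' hY') _) (mul_nonneg hB (Par.H_nonneg _ _))
            calc (∑ v ∈ V', f v) * ∑ w ∈ W', g w ≤ (a * X) * (b * Y) :=
                  mul_le_mul hVs hWs hY' (mul_nonneg ha hX.le)
              _ = _ := by ring
        _ = _ := by rw [Real.mul_rpow (mul_nonneg ha hb) (by positivity)]; ring
    · have hz : edgeSum E f g V' W' = 0 := by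
        rcases not_and_or.1 hne with h | h <;>
          simp [edgeSum, Finset.not_nonempty_iff_eq_empty.1 h]
      rw [hz]
      exact mul_nonneg (mul_nonneg (mul_nonneg hB (Par.H_nonneg _ _)) hxy)
        (Real.rpow_nonneg (mul_nonneg ha hb) _)
  have hopp : ∀ (V' W' : Finset ℕ) (a b : ℝ), V' ⊆ V → W' ⊆ W → 0 ≤ a → 0 ≤ b →
      ∑ v ∈ V', f v ≤ a * X → ∑ w ∈ W', g w ≤ b * Y →
      (((∀ v ∈ V', k < v.factorization p) ∧ ∀ w ∈ W', w.factorization p < k) ∨
        ((∀ v ∈ V', v.factorization p < k) ∧ ∀ w ∈ W', k < w.factorization p)) →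
      edgeSum E f g V' W' ≤
        B * P.H S V W * (X * Y) ^ P.e * (16 * P.q₁ p ^ 2 * (a * b) ^ P.e) := by
    intro V' W' a b hV hW ha hb hVs hWs hside
    refine split_norm_le hS hp hV hW hres hf hg hB hX hY
      (fun V₁ W₁ h1 h2 _ _ hr => below_res hKl hf hg IH hres V₁ W₁ h1 h2 hr) ?_
    refine wt_sum_opp_le hp1 hq k
      (fun i _ => div_nonneg (fib_nonneg (fun v hv => hf v (hV hv)) p i) hX.le)
      (fun j _ => div_nonneg (fib_nonneg (fun w hw => hg w (hW hw)) p j) hY.le) ha hb ?_ ?_ ?_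
    · rw [← Finset.sum_div, fib_sum, div_le_iff₀ hX]; exact hVs
    · rw [← Finset.sum_div, fib_sum, div_le_iff₀ hY]; exact hWs
    · rcases hside with ⟨h1, h2⟩ | ⟨h1, h2⟩
      · refine Or.inl ⟨fun i hi => ?_, fun j hj => ?_⟩
        · obtain ⟨v, hv, rfl⟩ := Finset.mem_image.1 hi; exact h1 v hv
        · obtain ⟨w, hw, rfl⟩ := Finset.mem_image.1 hj; exact h2 w hw
      · refine Or.inr ⟨fun i hi => ?_, fun j hj => ?_⟩
        · obtain ⟨v, hv, rfl⟩ := Finset.mem_image.1 hi; exact h1 v hv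
        · obtain ⟨w, hw, rfl⟩ := Finset.mem_image.1 hj; exact h2 w hw
  set Vu := V.filter (fun v => k < v.factorization p)
  set Vd := V.filter (fun v => v.factorization p < k)
  set Wu := W.filter (fun w => k < w.factorization p)
  set Wd := W.filter (fun w => w.factorization p < k)
  have huu := hsame Vu Wu (P.A₁ p) (P.A₂ p) (Finset.filter_subset _ _) (Finset.filter_subset _ _)
    a1 a2 hau hbu' (by linarith)
  have hdd := hopp Vd Wu (P.A₂ p) (P.A₂ p) (Finset.filter_subset _ _) (Finset.filter_subset _ _)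
    a2 a2 had' hbu' (Or.inr ⟨fun v hv => (Finset.mem_filter.1 hv).2,
      fun w hw => (Finset.mem_filter.1 hw).2⟩)
  have hud := hopp Vu Wd (P.A₁ p) (P.A₁ p) (Finset.filter_subset _ _) (Finset.filter_subset _ _)
    a1 a1 hau hbd (Or.inl ⟨fun v hv => (Finset.mem_filter.1 hv).2,
      fun w hw => (Finset.mem_filter.1 hw).2⟩)
  have hdu : edgeSum E f g Vd Wd ≤ B * P.H S V W * (X * Y) ^ P.e * (P.A₁ p * P.A₂ p) ^ P.e := by
    have hle : ∑ v ∈ Vd, f v ≤ min (P.A₁ p) (P.A₂ p) * X := by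
      rw [min_mul_of_nonneg _ _ hX.le]; exact le_min had had'
    refine (hsame Vd Wd (min (P.A₁ p) (P.A₂ p)) (P.A₁ p) (Finset.filter_subset _ _)
      (Finset.filter_subset _ _) (le_min a1 a2) a1 hle hbd ((min_le_left _ _).trans (by linarith))).trans ?_
    refine mul_le_mul_of_nonneg_left (Real.rpow_le_rpow (mul_nonneg (le_min a1 a2) a1) ?_ P.e_pos.le)
      (mul_nonneg (mul_nonneg hB (Par.H_nonneg _ _)) (Real.rpow_nonneg (by positivity) _))
    rw [mul_comm (P.A₁ p)]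
    exact mul_le_mul_of_nonneg_right (min_le_right _ _) a1
  have esplit : edgeSum E f g (V.filter fun v => v.factorization p ≠ k)
      (W.filter fun w => w.factorization p ≠ k) =
      edgeSum E f g Vu Wu + edgeSum E f g Vu Wd + (edgeSum E f g Vd Wu + edgeSum E f g Vd Wd) := by
    rw [edgeSum_filter_left (V.filter fun v => v.factorization p ≠ k) _ (fun v => k < v.factorization p)]
    have e1 : (V.filter fun v => v.factorization p ≠ k).filter (fun v => k < v.factorization p) = Vu := by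
      rw [Finset.filter_filter]; exact Finset.filter_congr fun v _ => by omega
    have e2 : (V.filter fun v => v.factorization p ≠ k).filter (fun v => ¬ k < v.factorization p) = Vd := by
      rw [Finset.filter_filter]; exact Finset.filter_congr fun v _ => by omega
    have e3 : (W.filter fun w => w.factorization p ≠ k).filter (fun w => k < w.factorization p) = Wu := by
      rw [Finset.filter_filter]; exact Finset.filter_congr fun v _ => by omega
    have e4 : (W.filter fun w => w.factorization p ≠ k).filter (fun w => ¬ k < w.factorization p) = Wd := by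
      rw [Finset.filter_filter]; exact Finset.filter_congr fun v _ => by omega
    rw [e1, e2, edgeSum_filter_right Vu _ (fun w => k < w.factorization p),
      edgeSum_filter_right Vd _ (fun w => k < w.factorization p), e3, e4]
  rw [esplit, Par.dirt]
  linarith

lemma step_leaf (hS : ∀ p ∈ S, p.Prime) (hKl : 0 ≤ Kl) (hf : ∀ v ∈ V, 0 < f v) (hg : ∀ w ∈ W, 0 < g w)
    (hX : 0 < ∑ v ∈ V, f v) (hY : 0 < ∑ w ∈ W, g w) (IH : Below P S E f g p₀ Kl V W)
    (hleaf : ∀ k : ℕ → ℕ, edgeSum (fun v w => E v w ∧ Clean S V W k v w) f g V W ≤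
      Kl * P.H S V W * ((∑ v ∈ V, f v) * ∑ w ∈ W, g w) ^ P.e)
    (hq : ∀ p : ℕ, p₀ ≤ p → P.q₁ p ≤ 1 / 4) (hA : ∀ p : ℕ, p₀ ≤ p → P.A₁ p ≤ 1 / 4)
    (htail : ∀ T : Finset ℕ, (∀ p ∈ T, p₀ ≤ p) → ∑ p ∈ T, P.dirt p ≤ 1 / 2)
    (hbig : ∀ p ∈ S, ¬ Res V W p → p₀ ≤ p) (k : ℕ → ℕ)
    (hk : ∀ p ∈ S, ¬ Res V W p → Centered P f g V W p (k p)) :
    Claim P S E f g p₀ Kl V W := by
  classical
  set X := ∑ v ∈ V, f v with hXd
  set Y := ∑ w ∈ W, g w with hYd
  set B := 2 * Kl * 64 ^ nsm S p₀ V W with hBd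
  set T := S.filter (fun p => ¬ Res V W p) with hT
  have hfg : ∀ v ∈ V, ∀ w ∈ W, 0 ≤ f v * g w := fun v hv w hw => (mul_pos (hf v hv) (hg w hw)).le
  have hdec : edgeSum E f g V W ≤ edgeSum (fun v w => E v w ∧ Clean S V W k v w) f g V W +
      ∑ p ∈ T, edgeSum E f g (V.filter fun v => v.factorization p ≠ k p)
        (W.filter fun w => w.factorization p ≠ k p) := by
    unfold edgeSum
    simp only [Finset.sum_filter]
    rw [Finset.sum_comm (s := T), ← Finset.sum_add_distrib]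
    refine Finset.sum_le_sum fun v hv => ?_
    have hrw : ∀ p ∈ T, (if v.factorization p ≠ k p then ∑ w ∈ W,
        (if w.factorization p ≠ k p then (if E v w then f v * g w else 0) else 0) else 0) =
        ∑ w ∈ W, (if v.factorization p ≠ k p ∧ w.factorization p ≠ k p ∧ E v w then f v * g w else 0) := by
      intro p _
      by_cases h : v.factorization p ≠ k p
      · rw [if_pos h]; exact Finset.sum_congr rfl fun w _ => by simp [h, ← ite_and]
      · rw [if_neg h]; simp [h]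
    rw [Finset.sum_congr rfl hrw, Finset.sum_comm (s := T), ← Finset.sum_add_distrib]
    refine Finset.sum_le_sum fun w hw => ?_
    have hnn : ∀ p ∈ T, 0 ≤ if v.factorization p ≠ k p ∧ w.factorization p ≠ k p ∧ E v w then
        f v * g w else 0 := fun p _ => by split_ifs <;> [exact hfg v hv w hw; exact le_rfl]
    by_cases hE : E v w
    · by_cases hc : Clean S V W k v w
      · rw [if_pos hE, if_pos ⟨hE, hc⟩]
        exact le_add_of_nonneg_right (Finset.sum_nonneg hnn)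
      · rw [if_pos hE, if_neg (fun h => hc h.2), zero_add]
        simp only [Clean, not_forall, not_or] at hc
        obtain ⟨p, hpS, hpr, hpv, hpw⟩ := hc
        refine le_trans (le_of_eq ?_) (Finset.single_le_sum hnn (Finset.mem_filter.2 ⟨hpS, hpr⟩))
        rw [if_pos ⟨hpv, hpw, hE⟩]
    · rw [if_neg hE, if_neg (fun h => hE h.1), zero_add]
      exact Finset.sum_nonneg hnn
  have hdirty : ∑ p ∈ T, edgeSum E f g (V.filter fun v => v.factorization p ≠ k p)
      (W.filter fun w => w.factorization p ≠ k p) ≤ B * P.H S V W * (X * Y) ^ P.e * (1 / 2) := by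
    refine (Finset.sum_le_sum fun p hp => ?_).trans (le_trans (le_of_eq (Finset.mul_sum _ _ _).symm)
      (mul_le_mul_of_nonneg_left (htail T fun p hp => ?_) (mul_nonneg
        (mul_nonneg (by positivity) (Par.H_nonneg _ _)) (Real.rpow_nonneg (by positivity) _))))
    · obtain ⟨h1, h2⟩ := Finset.mem_filter.1 hp
      exact dirty_le hS hKl hf hg hX hY IH h1 h2 (hq p (hbig p h1 h2)) (hA p (hbig p h1 h2)) (hk p h1 h2)
    · obtain ⟨h1, h2⟩ := Finset.mem_filter.1 hp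
      exact hbig p h1 h2
  have h64 : (1 : ℝ) ≤ 64 ^ nsm S p₀ V W := one_le_pow₀ (by norm_num)
  have hnn : 0 ≤ Kl * P.H S V W * (X * Y) ^ P.e :=
    mul_nonneg (mul_nonneg hKl (Par.H_nonneg _ _)) (Real.rpow_nonneg (by positivity) _)
  have := hleaf k
  have := mul_le_mul_of_nonneg_left h64 hnn
  unfold Claim
  rw [← hXd, ← hYd, ← hBd]
  linarith

end Step

/-- The bilinear engine: a bound at the leaves gives a bound everywhere. -/
theorem engine (P : Par) : ∃ C : ℝ, 0 < C ∧ ∀ (S : Finset ℕ) (E : ℕ → ℕ → Prop) (f g : ℕ → ℝ)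
    (V₀ W₀ : Finset ℕ) (Kl : ℝ), 0 ≤ Kl → (∀ p ∈ S, p.Prime) → (∀ v ∈ V₀, 0 < f v) →
    (∀ w ∈ W₀, 0 < g w) → LeafBound P S E f g V₀ W₀ Kl →
      edgeSum E f g V₀ W₀ ≤ C * Kl * ((∑ v ∈ V₀, f v) * ∑ w ∈ W₀, g w) ^ P.e := by
  classical
  obtain ⟨q₀, hq₀, hconc⟩ := concentrated_or_le P.he P.e_lt
  obtain ⟨p₀, hp₀, htail⟩ := P.exists_threshold hq₀
  refine ⟨2 * 64 ^ p₀, by positivity, ?_⟩
  intro S E f g V₀ W₀ Kl hKl hS hf hg hleaf
  have main : ∀ n : ℕ, ∀ V W, V ⊆ V₀ → W ⊆ W₀ → V.card + W.card = n → Claim P S E f g p₀ Kl V W := by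
    intro n
    induction n using Nat.strong_induction_on with
    | _ n IHn =>
      intro V W hV hW hn
      have hf' : ∀ v ∈ V, 0 < f v := fun v hv => hf v (hV hv)
      have hg' : ∀ w ∈ W, 0 < g w := fun w hw => hg w (hW hw)
      by_cases hne : V.Nonempty ∧ W.Nonempty
      swap
      · unfold Claim
        have hz : edgeSum E f g V W = 0 := by
          rcases not_and_or.1 hne with h | h <;> simp [edgeSum, Finset.not_nonempty_iff_eq_empty.1 h]
        rw [hz]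
        exact mul_nonneg (mul_nonneg (by positivity) (Par.H_nonneg _ _)) (Real.rpow_nonneg
          (mul_nonneg (Finset.sum_nonneg fun v hv => (hf' v hv).le)
            (Finset.sum_nonneg fun w hw => (hg' w hw).le)) _)
      have hX := Finset.sum_pos hf' hne.1
      have hY := Finset.sum_pos hg' hne.2
      have IH : Below P S E f g p₀ Kl V W := fun V₁ W₁ h1 h2 h3 =>
        IHn _ (hn ▸ h3) V₁ W₁ (h1.trans hV) (h2.trans hW) rfl
      by_cases hsm : ∃ p ∈ S, p < p₀ ∧ ¬ Res V W p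
      · obtain ⟨p, h1, h2, h3⟩ := hsm
        exact step_small hS hKl hf' hg' hX hY IH h1 h2 h3
      push Not at hsm
      have hbig : ∀ p ∈ S, ¬ Res V W p → p₀ ≤ p := fun p h1 h2 => le_of_not_gt fun h => h2 (hsm p h1 h)
      by_cases hC : Claim P S E f g p₀ Kl V W
      · exact hC
      have hcen : ∀ p ∈ S, ¬ Res V W p → ∃ k, Centered P f g V W p k := fun p h1 h2 =>
        (step_center hS hKl hf' hg' hX hY IH hconc h1 h2 (hp₀ p (hbig p h1 h2)).2.1
          (hp₀ p (hbig p h1 h2)).2.2.1).resolve_left hC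
      choose! k hk using hcen
      exact step_leaf hS hKl hf' hg' hX hY IH (hleaf V hV W hW) (fun p hp => (hp₀ p hp).2.1)
        (fun p hp => (hp₀ p hp).2.2.2) htail hbig k hk
  refine (main _ V₀ W₀ (Finset.Subset.refl _) (Finset.Subset.refl _) rfl).trans ?_
  refine mul_le_mul_of_nonneg_right ?_ (Real.rpow_nonneg (mul_nonneg
    (Finset.sum_nonneg fun v hv => (hf v hv).le) (Finset.sum_nonneg fun w hw => (hg w hw).le)) _)
  have hn : nsm S p₀ V₀ W₀ ≤ p₀ := by
    refine (Finset.card_le_card (t := Finset.range p₀) fun p hp => ?_).trans (Finset.card_range p₀).le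
    exact Finset.mem_range.2 (Finset.mem_filter.1 hp).2.1
  calc 2 * Kl * 64 ^ nsm S p₀ V₀ W₀ * P.H S V₀ W₀ ≤ 2 * Kl * 64 ^ p₀ * 1 :=
        mul_le_mul (mul_le_mul_of_nonneg_left (pow_le_pow_right₀ (by norm_num) hn) (by positivity))
          (Par.H_le_one hS _ _) (Par.H_nonneg _ _) (by positivity)
    _ = _ := by ring

end Vale.Agent.P028.DS
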