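import Vale.Agent.P028.DS.Defs

/-!
P028, milestone A: scales, levels and elementary facts about edge sums.
-/

namespace Vale.Agent.P028.DS

open Finset Real

lemma two_le_zpar {i : ℕ} (hi : 1 ≤ i) : (2 : ℝ) ≤ zpar i := by
  rw [zpar]; exact le_self_pow₀ one_le_two (by omega)

lemma one_le_zpar (i : ℕ) : (1 : ℝ) ≤ zpar i := one_le_pow₀ one_le_two

lemma zpar_pos' (i : ℕ) : (0 : ℝ) < zpar i := pow_pos two_pos i

lemma lvl_pos' (i : ℕ) : 0 < lvl i := one_div_pos.2 (pow_pos (zpar_pos' i) _)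

lemma zpow_mul_lvl (i u : ℕ) : zpar i ^ u * lvl i = zpar i ^ u / zpar i ^ expN := by
  rw [lvl, mul_one_div]

lemma zpow_lvl_le_one {i u : ℕ} (h : u ≤ expN) : zpar i ^ u * lvl i ≤ 1 := by
  rw [zpow_mul_lvl, div_le_one (pow_pos (zpar_pos' i) _)]
  exact pow_le_pow_right₀ (one_le_zpar i) h

lemma zpow_lvl_lt_one {i u : ℕ} (hi : 1 ≤ i) (h : u < expN) : zpar i ^ u * lvl i < 1 := by
  rw [zpow_mul_lvl, div_lt_one (pow_pos (zpar_pos' i) _)]
  exact pow_lt_pow_right₀ (by linarith [two_le_zpar hi]) h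

lemma lvl_le_one (i : ℕ) : lvl i ≤ 1 := by
  simpa using zpow_lvl_le_one (i := i) (Nat.zero_le expN)

lemma lvl_lt_fifty {i : ℕ} (hi : 1 ≤ i) : lvl i < (1 / 2) ^ 50 := by
  have h : zpar i ^ 50 * lvl i < 1 := zpow_lvl_lt_one hi (by unfold expN; norm_num)
  have h2 : (2 : ℝ) ^ 50 * lvl i < 1 :=
    lt_of_le_of_lt (mul_le_mul_of_nonneg_right (pow_le_pow_left₀ two_pos.le (two_le_zpar hi) _)
      (lvl_pos' i).le) h
  rw [div_pow, one_pow, lt_div_iff₀ (pow_pos two_pos _)]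
  linarith

/-- The natural number `z`. -/
def znat (i : ℕ) : ℕ := 2 ^ i

lemma znat_cast (i : ℕ) : ((znat i : ℕ) : ℝ) = zpar i := by simp [znat, zpar]

lemma znat_pos (i : ℕ) : 0 < znat i := pow_pos (Nat.succ_pos 1) i

section EdgeSum

variable {E E₁ E₂ : ℕ → ℕ → Prop} {f g : ℕ → ℝ} {V W : Finset ℕ}

lemma edgeSum_nonneg (hf : ∀ v ∈ V, 0 ≤ f v) (hg : ∀ w ∈ W, 0 ≤ g w) : 0 ≤ edgeSum E f g V W := by
  classical
  refine Finset.sum_nonneg fun v hv => Finset.sum_nonneg fun w hw => ?_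
  split_ifs
  · exact mul_nonneg (hf v hv) (hg w hw)
  · exact le_rfl

lemma edgeSum_mono (hf : ∀ v ∈ V, 0 ≤ f v) (hg : ∀ w ∈ W, 0 ≤ g w)
    (h : ∀ v ∈ V, ∀ w ∈ W, E v w → E₁ v w) : edgeSum E f g V W ≤ edgeSum E₁ f g V W := by
  classical
  refine Finset.sum_le_sum fun v hv => Finset.sum_le_sum fun w hw => ?_
  split_ifs with h1 h2 h2
  · exact le_rfl
  · exact absurd (h v hv w hw h1) h2
  · exact mul_nonneg (hf v hv) (hg w hw)
  · exact le_rfl

lemma edgeSum_or (hf : ∀ v ∈ V, 0 ≤ f v) (hg : ∀ w ∈ W, 0 ≤ g w)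
    (h : ∀ v ∈ V, ∀ w ∈ W, E v w → E₁ v w ∨ E₂ v w) :
    edgeSum E f g V W ≤ edgeSum E₁ f g V W + edgeSum E₂ f g V W := by
  classical
  unfold edgeSum
  rw [← Finset.sum_add_distrib]
  refine Finset.sum_le_sum fun v hv => ?_
  rw [← Finset.sum_add_distrib]
  refine Finset.sum_le_sum fun w hw => ?_
  have h0 := mul_nonneg (hf v hv) (hg w hw)
  by_cases hE : E v w
  · rcases h v hv w hw hE with h1 | h1 <;> simp only [if_pos hE, if_pos h1] <;> split_ifs <;> linarith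
  · simp only [if_neg hE]
    split_ifs <;> linarith

lemma edgeSum_cover {ι : Type*} (s : Finset ι) (T : ι → ℕ → ℕ → Prop) (hf : ∀ v ∈ V, 0 ≤ f v)
    (hg : ∀ w ∈ W, 0 ≤ g w) (h : ∀ v ∈ V, ∀ w ∈ W, E v w → ∃ x ∈ s, T x v w) :
    edgeSum E f g V W ≤ ∑ x ∈ s, edgeSum (T x) f g V W := by
  classical
  unfold edgeSum
  rw [Finset.sum_comm (s := s)]
  refine Finset.sum_le_sum fun v hv => ?_
  rw [Finset.sum_comm (s := s)]
  refine Finset.sum_le_sum fun w hw => ?_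
  have h0 := mul_nonneg (hf v hv) (hg w hw)
  have hnn : ∀ x ∈ s, (0 : ℝ) ≤ if T x v w then f v * g w else 0 := fun x _ => by
    split_ifs <;> first | exact h0 | exact le_rfl
  by_cases hE : E v w
  · obtain ⟨x, hx, hT⟩ := h v hv w hw hE
    rw [if_pos hE]
    refine le_trans ?_ (Finset.single_le_sum hnn hx)
    rw [if_pos hT]
  · rw [if_neg hE]
    exact Finset.sum_nonneg hnn

lemma edgeSum_flip (E : ℕ → ℕ → Prop) (f g : ℕ → ℝ) (V W : Finset ℕ) :
    edgeSum E f g V W = edgeSum (fun w v => E v w) g f W V := by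
  classical
  unfold edgeSum
  rw [Finset.sum_comm]
  exact Finset.sum_congr rfl fun w _ => Finset.sum_congr rfl fun v _ => by split_ifs <;> ring

lemma edgeSum_scale (E : ℕ → ℕ → Prop) (f g : ℕ → ℝ) (V W : Finset ℕ) (c d : ℝ) :
    edgeSum E (fun v => c * f v) (fun w => d * g w) V W = c * d * edgeSum E f g V W := by
  classical
  unfold edgeSum
  rw [Finset.mul_sum]
  refine Finset.sum_congr rfl fun v _ => ?_
  rw [Finset.mul_sum]
  exact Finset.sum_congr rfl fun w _ => by split_ifs <;> ring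

open Classical in
lemma edgeSum_pos_support (hf : ∀ v ∈ V, 0 ≤ f v) (hg : ∀ w ∈ W, 0 ≤ g w) :
    edgeSum E f g V W = edgeSum E f g (V.filter fun v => 0 < f v) (W.filter fun w => 0 < g w) := by
  unfold edgeSum
  rw [Finset.sum_filter]
  refine Finset.sum_congr rfl fun v hv => ?_
  by_cases h : 0 < f v
  · rw [if_pos h, Finset.sum_filter]
    refine Finset.sum_congr rfl fun w hw => ?_
    by_cases h' : 0 < g w
    · rw [if_pos h']
    · rw [if_neg h', le_antisymm (not_lt.1 h') (hg w hw)]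
      simp
  · rw [if_neg h, le_antisymm (not_lt.1 h) (hf v hv)]
    simp

end EdgeSum

/-- From a normalised bound to the bound on the level. -/
lemma level_le {i : ℕ} {e s t C X L : ℝ} (he : 1 / 2 ≤ e) (he1 : e ≤ 1) (hC : 0 ≤ C) (hX : 0 ≤ X)
    (hs : (expN : ℝ) * (2 * e - 1) + t ≤ s)
    (h : L ≤ C * zpar i ^ (-s) * (lvl i * lvl i) * ((X / lvl i) * (X / lvl i)) ^ e) :
    L ≤ C * lvl i * ((2 : ℝ) ^ (-t)) ^ i * (X + X ^ 2) := by
  have hz : 0 < zpar i := zpar_pos' i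
  have hy : 0 < lvl i := lvl_pos' i
  have hXy : 0 ≤ X / lvl i := div_nonneg hX hy.le
  refine h.trans ?_
  have e1 : ((X / lvl i) * (X / lvl i)) ^ e = (X * X) ^ e / (lvl i * lvl i) ^ e := by
    rw [← Real.div_rpow (mul_nonneg hX hX) (mul_nonneg hy.le hy.le), div_mul_div_comm]
  have e2 : (lvl i * lvl i) / (lvl i * lvl i) ^ e = lvl i * zpar i ^ ((expN : ℝ) * (2 * e - 1)) := by
    have e3 : (lvl i * lvl i) ^ e = lvl i ^ (2 * e) := by
      rw [← sq, ← Real.rpow_natCast (lvl i) 2, ← Real.rpow_mul hy.le]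
      norm_num
    have e4 : zpar i ^ ((expN : ℝ) * (2 * e - 1)) = lvl i ^ (1 - 2 * e) := by
      rw [lvl, Real.div_rpow zero_le_one (pow_nonneg hz.le _), Real.one_rpow,
        ← Real.rpow_natCast (zpar i) expN, ← Real.rpow_mul hz.le, one_div, ← Real.rpow_neg hz.le]
      congr 1; ring
    rw [e3, e4, Real.rpow_sub hy, Real.rpow_one]
    ring
  have h2e : (X * X) ^ e ≤ X + X ^ 2 := by
    rcases le_total (X * X) 1 with h1 | h1
    · rcases hX.eq_or_lt with rfl | hXp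
      · simp [Real.zero_rpow (by linarith : e ≠ 0)]
      calc (X * X) ^ e ≤ (X * X) ^ ((1 : ℝ) / 2) :=
            Real.rpow_le_rpow_of_exponent_ge (mul_pos hXp hXp) h1 he
        _ = X := by rw [← Real.sqrt_eq_rpow, Real.sqrt_mul_self hX]
        _ ≤ _ := le_add_of_nonneg_right (sq_nonneg X)
    · calc (X * X) ^ e ≤ (X * X) ^ (1 : ℝ) := Real.rpow_le_rpow_of_exponent_le h1 he1
        _ = X ^ 2 := by rw [Real.rpow_one, sq]
        _ ≤ _ := le_add_of_nonneg_left hX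
  have hzt : zpar i ^ (-s) * zpar i ^ ((expN : ℝ) * (2 * e - 1)) ≤ ((2 : ℝ) ^ (-t)) ^ i := by
    rw [← Real.rpow_add hz, zpar, ← Real.rpow_natCast ((2 : ℝ) ^ (-t)) i, ← Real.rpow_natCast (2 : ℝ) i,
      ← Real.rpow_mul two_pos.le, ← Real.rpow_mul two_pos.le]
    refine Real.rpow_le_rpow_of_exponent_le one_le_two ?_
    nlinarith [(Nat.cast_nonneg i : (0 : ℝ) ≤ (i : ℝ)), hs]
  calc C * zpar i ^ (-s) * (lvl i * lvl i) * ((X / lvl i) * (X / lvl i)) ^ e
      = C * lvl i * (zpar i ^ (-s) * zpar i ^ ((expN : ℝ) * (2 * e - 1))) * (X * X) ^ e := by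
        rw [e1]
        calc C * zpar i ^ (-s) * (lvl i * lvl i) * ((X * X) ^ e / (lvl i * lvl i) ^ e)
            = C * zpar i ^ (-s) * ((lvl i * lvl i) / (lvl i * lvl i) ^ e) * (X * X) ^ e := by ring
          _ = _ := by rw [e2]; ring
    _ ≤ _ := by gcongr

end Vale.Agent.P028.DS
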