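import Vale.Agent.P028.DS.Interfaces2
import Vale.Agent.P028.DS.Scale

/-!
P028, milestone A: large edges carried by an exceptional fraction, and imbalanced edges.
-/

namespace Vale.Agent.P028.DS

open Finset Real

/-- `y ^ (-1.0109)`: the largest denominator of an exceptional fraction. -/
def fracExp : ℕ := 10109

/-- A balanced live pair with a large first cofactor. -/
def Large (γ : ℝ) (ψ : ℕ → ℝ) (i : ℕ) (v w : ℕ) : Prop :=
  v ≠ w ∧ Live γ ψ v w ∧ Bal ψ i v w ∧ cof w v ≤ cof v w ∧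
    zpar i ^ smallExp < (cof v w : ℝ)

/-- A fraction with a modest denominator is very near `γ` and nearly divides `a`. -/
def Exc (γ : ℝ) (i a : ℕ) : Prop :=
  ∃ (P : ℤ) (D Q : ℕ), 0 < D ∧ IsCoprime P (D : ℤ) ∧ 0 < Q ∧ Q ≤ znat i ^ 6 ∧
    (D : ℝ) ≤ zpar i ^ fracExp ∧ D ∣ Q * a ∧
    |(D : ℝ) * γ - P| ≤ D * (zpar i ^ 12 * lvl i) / a

lemma cof_pos {v : ℕ} (hv : 0 < v) (w : ℕ) : 0 < cof v w :=
  Nat.div_pos (Nat.le_of_dvd hv (Nat.gcd_dvd_left _ _)) (Nat.gcd_pos_of_pos_left _ hv)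

lemma psi_bal {ψ : ℕ → ℝ} {i v w : ℕ} (hv : 0 < v) (hw : 0 < w) (h : Bal ψ i v w) :
    0 < ψ v ∧ ψ v ≤ lvl i ∧ 0 < ψ w ∧ ψ w ≤ lvl i := by
  obtain ⟨h1, h2, h3, h4⟩ := h
  have hb : (1 : ℝ) ≤ cof w v := by exact_mod_cast cof_pos hw v
  have ha : (1 : ℝ) ≤ cof v w := by exact_mod_cast cof_pos hv w
  have hpos : 0 < lvl i / zpar i ^ 2 := div_pos (lvl_pos' i) (pow_pos (zpar_pos' i) _)
  have p1 : 0 < ψ v := pos_of_mul_pos_right (hpos.trans_le h1) (Nat.cast_nonneg _)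
  have p2 : 0 < ψ w := pos_of_mul_pos_right (hpos.trans_le h3) (Nat.cast_nonneg _)
  refine ⟨p1, ?_, p2, ?_⟩
  · exact le_trans (le_mul_of_one_le_left p1.le hb) h2
  · exact le_trans (le_mul_of_one_le_left p2.le ha) h4

/-- An exceptional fraction with a small denominator kills the pair. -/
lemma large_not_small_frac {γ : ℝ} {ψ : ℕ → ℝ} {i v w : ℕ} (hi : 1 ≤ i) (hv : 0 < v) (hw : 0 < w)
    (hL : Large γ ψ i v w) {P : ℤ} {D : ℕ} (hD : 0 < D) (hcop : IsCoprime P (D : ℤ))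
    (hD40 : (D : ℝ) ≤ zpar i ^ 40)
    (herr : |(D : ℝ) * γ - P| ≤ D * (zpar i ^ 12 * lvl i) / cof v w) : False := by
  obtain ⟨-, ⟨L, hlive, hkill, -⟩, hbal, hba, haZ⟩ := hL
  obtain ⟨hp0, hple, -, -⟩ := psi_bal hv hw hbal
  obtain ⟨hb1, hb2, ha1, ha2⟩ := hbal
  set z := zpar i with hzd
  set y := lvl i with hyd
  have hz1 : (1 : ℝ) ≤ z := one_le_zpar i
  have hz : 0 < z := by linarith
  have hy : 0 < y := lvl_pos' i
  set a : ℝ := (cof v w : ℝ) with had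
  set b : ℝ := (cof w v : ℝ) with hbd
  have ha : 1 < a := lt_of_le_of_lt (one_le_pow₀ hz1) haZ
  have hb0 : 1 ≤ b := by rw [hbd]; exact_mod_cast cof_pos hw v
  have hba' : b ≤ a := by rw [hbd, had]; exact_mod_cast hba
  have herr' : |(D : ℝ) * γ - P| ≤ z ^ 52 * y / a := by
    refine herr.trans ?_
    rw [show z ^ 52 * y = z ^ 40 * (z ^ 12 * y) by ring]
    gcongr
  have hnear : IsNear γ (ψ v) (P, D) := by
    refine ⟨hD, hcop, ?_, ?_⟩
    · calc (D : ℝ) ^ 50 * ψ v ^ 24 ≤ (z ^ 40) ^ 50 * y ^ 1 := by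
            refine mul_le_mul (pow_le_pow_left₀ (Nat.cast_nonneg D) hD40 50) ?_ (pow_nonneg hp0.le _)
              (pow_nonneg (pow_nonneg hz.le _) _)
            exact (pow_le_pow_left₀ hp0.le hple 24).trans
              (pow_le_pow_of_le_one hy.le (lvl_le_one i) (by norm_num))
        _ = z ^ 2000 * y := by rw [← pow_mul, pow_one]
        _ ≤ 1 := zpow_lvl_le_one (by unfold expN; norm_num)
    · have h1 : ((D : ℝ) * γ - P) ^ 2 ≤ (z ^ 52 * y / a) ^ 2 := by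
        rw [← sq_abs]; exact pow_le_pow_left₀ (abs_nonneg _) herr' 2
      refine h1.trans ?_
      have h2 : y / z ^ 2 / a ≤ ψ v := by
        rw [div_le_iff₀ (by linarith)]
        refine hb1.trans ?_
        rw [mul_comm (ψ v)]
        exact mul_le_mul_of_nonneg_right hba' hp0.le
      refine le_trans ?_ h2
      have h3 : z ^ 106 * y ≤ 1 := zpow_lvl_le_one (by unfold expN; norm_num)
      rw [div_pow, div_div, div_le_div_iff₀ (by positivity) (by positivity)]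
      calc (z ^ 52 * y) ^ 2 * (z ^ 2 * a) = (z ^ 106 * y) * (y * a) := by ring
        _ ≤ 1 * (y * a) := mul_le_mul_of_nonneg_right h3 (by positivity)
        _ = y * a * 1 := by ring
        _ ≤ y * a * a := mul_le_mul_of_nonneg_left ha.le (by positivity)
        _ = y * a ^ 2 := by ring
  have happ := approx_eq hp0 (hple.trans_lt (lvl_lt_fifty hi)) hnear
  have ha2' : 2 ≤ cof v w := by
    have : (1 : ℝ) < (cof v w : ℕ) := ha
    have : 1 < cof v w := by exact_mod_cast this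
    omega
  refine hkill ha2' ?_
  rw [happ]
  simp only
  rw [← Int.abs_lt_one_iff, ← Int.cast_lt (R := ℝ), Int.cast_abs]
  push_cast
  rw [← had, ← hbd]
  have e : (D : ℝ) * L + (P : ℝ) * (b - a) = D * ((L : ℝ) + γ * (b - a)) - (b - a) * (D * γ - P) := by
    ring
  rw [e]
  refine lt_of_le_of_lt (abs_sub _ _) ?_
  have hk : |b - a| ≤ a := by rw [abs_le]; constructor <;> linarith
  have hrange : rangeD ψ v w ≤ y := max_le hb2 ha2
  have t1 : |(D : ℝ) * ((L : ℝ) + γ * (b - a))| ≤ z ^ 40 * (2 * y) := by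
    rw [abs_mul, Nat.abs_cast]
    exact mul_le_mul hD40 (hlive.le.trans (by linarith)) (abs_nonneg _) (by positivity)
  have t2 : |(b - a) * (D * γ - P)| ≤ z ^ 52 * y := by
    rw [abs_mul]
    calc |b - a| * |(D : ℝ) * γ - P| ≤ a * (z ^ 52 * y / a) :=
          mul_le_mul hk herr' (abs_nonneg _) (by linarith)
      _ = _ := by field_simp
  have h4 : z ^ 40 * y ≤ z ^ 52 * y :=
    mul_le_mul_of_nonneg_right (pow_le_pow_right₀ hz1 (by norm_num)) hy.le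
  have h5 : 4 * (z ^ 52 * y) ≤ z ^ 54 * y := by
    have h22 : (2 : ℝ) ^ 2 ≤ z ^ 2 := pow_le_pow_left₀ two_pos.le (two_le_zpar hi) 2
    calc 4 * (z ^ 52 * y) = 2 ^ 2 * (z ^ 52 * y) := by norm_num
      _ ≤ z ^ 2 * (z ^ 52 * y) := mul_le_mul_of_nonneg_right h22 (by positivity)
      _ = _ := by ring
  have h6 : z ^ 54 * y < 1 := zpow_lvl_lt_one hi (by unfold expN; norm_num)
  have h7 : 0 ≤ z ^ 52 * y := by positivity
  linarith

/-- The exceptional fraction is unique on a level. -/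
lemma frac_unique {γ : ℝ} {i a a' : ℕ} (hi : 1 ≤ i) (ha : zpar i ^ smallExp < (a : ℝ))
    (ha' : zpar i ^ smallExp < (a' : ℝ)) {P P' : ℤ} {D D' : ℕ} (hD : 0 < D)
    (hcop : IsCoprime P (D : ℤ)) (hcop' : IsCoprime P' (D' : ℤ))
    (hDle : (D : ℝ) ≤ zpar i ^ fracExp) (hDle' : (D' : ℝ) ≤ zpar i ^ fracExp)
    (h : |(D : ℝ) * γ - P| ≤ D * (zpar i ^ 12 * lvl i) / a)
    (h' : |(D' : ℝ) * γ - P'| ≤ D' * (zpar i ^ 12 * lvl i) / a') : D = D' := by
  set z := zpar i with hzd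
  set y := lvl i with hyd
  have hz : 0 < z := zpar_pos' i
  have hy : 0 < y := lvl_pos' i
  have hd : P * (D' : ℤ) - P' * D = 0 := by
    rw [← Int.abs_lt_one_iff, ← Int.cast_lt (R := ℝ), Int.cast_abs]
    push_cast
    have e : (P : ℝ) * D' - (P' : ℝ) * D =
        (D : ℝ) * ((D' : ℝ) * γ - P') - (D' : ℝ) * ((D : ℝ) * γ - P) := by ring
    rw [e]
    refine lt_of_le_of_lt (abs_sub _ _) ?_
    rw [abs_mul, abs_mul, Nat.abs_cast, Nat.abs_cast]
    have hb : ∀ (u u' : ℕ) (c x : ℝ), (u : ℝ) ≤ z ^ fracExp → (u' : ℝ) ≤ z ^ fracExp →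
        z ^ smallExp < c → |x| ≤ u' * (z ^ 12 * y) / c →
        (u : ℝ) * |x| ≤ z ^ fracExp * (z ^ fracExp * (z ^ 12 * y) / z ^ smallExp) := by
      intro u u' c x hu hu' hc hx
      refine mul_le_mul hu (hx.trans ?_) (abs_nonneg _) (by positivity)
      gcongr
    have t1 := hb D D' (a' : ℝ) _ hDle hDle' ha' h'
    have t2 := hb D' D (a : ℝ) _ hDle' hDle ha h
    have key : 2 * (z ^ fracExp * (z ^ fracExp * (z ^ 12 * y) / z ^ smallExp)) < 1 := by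
      have hpe : z ^ fracExp * (z ^ fracExp * (z ^ 12 * y) / z ^ smallExp) =
          z ^ (fracExp + fracExp + 12) / (z ^ smallExp * z ^ expN) := by
        rw [hyd, lvl, ← hzd, pow_add, pow_add]; field_simp
      rw [hpe, ← pow_add, ← mul_div_assoc, div_lt_one (by positivity)]
      calc 2 * z ^ (fracExp + fracExp + 12) ≤ z * z ^ (fracExp + fracExp + 12) :=
            mul_le_mul_of_nonneg_right (two_le_zpar hi) (by positivity)
        _ = z ^ (fracExp + fracExp + 12 + 1) := by rw [pow_succ]; ring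
        _ < _ := pow_lt_pow_right₀ (by linarith [two_le_zpar hi])
          (by unfold fracExp smallExp expN; norm_num)
    linarith
  have k1 : P * (D' : ℤ) = P' * D := by linarith
  refine Nat.dvd_antisymm ?_ ?_
  · exact Int.natCast_dvd_natCast.mp (hcop.symm.dvd_of_dvd_mul_left ⟨P', by linarith⟩)
  · exact Int.natCast_dvd_natCast.mp (hcop'.symm.dvd_of_dvd_mul_left ⟨P, by linarith⟩)

/-- The divisor of the large cofactor coming from `D ∣ Q * a`. -/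
lemma div_gcd_dvd {D Q a : ℕ} (hD : 0 < D) (h : D ∣ Q * a) : D / Nat.gcd D Q ∣ a := by
  have hg : 0 < Nat.gcd D Q := Nat.gcd_pos_of_pos_left _ hD
  refine (Nat.coprime_div_gcd_div_gcd hg).dvd_of_dvd_mul_left ?_
  refine Nat.dvd_of_mul_dvd_mul_left hg ?_
  rw [← mul_assoc, Nat.mul_div_cancel' (Nat.gcd_dvd_left D Q), Nat.mul_div_cancel' (Nat.gcd_dvd_right D Q)]
  exact h

/-- The large edges with an exceptional fraction. -/
theorem exc_le (hdiv : DivisStatement) {ε t : ℝ} (hε : 0 < ε) (hε1 : ε ≤ 1 / 1000000) (ht : t ≤ 1)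
    {ρ : ℝ} (hρ : 1 ≤ ρ) : ∃ C : ℝ, 0 ≤ C ∧ ∀ (γ : ℝ) (ψ : ℕ → ℝ) (F : Finset ℕ) (i : ℕ),
      1 ≤ i → 0 ∉ F → (∀ q, 0 ≤ ψ q) → (∀ q ∈ F, divSum q ≤ ρ) →
        edgeSum (fun v w => Large γ ψ i v w ∧ Exc γ i (cof v w)) ψ ψ F F ≤
          C * lvl i * ((2 : ℝ) ^ (-t)) ^ i * ((∑ q ∈ F, ψ q) + (∑ q ∈ F, ψ q) ^ 2) := by
  classical
  obtain ⟨C, hC, hd⟩ := hdiv ε hε (by linarith) ρ hρ
  refine ⟨C, hC.le, fun γ ψ F i hi hF hψ hsum => ?_⟩
  set z := zpar i with hzd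
  set y := lvl i with hyd
  set X := ∑ q ∈ F, ψ q with hXd
  have hz : 0 < z := zpar_pos' i
  have hy : 0 < y := lvl_pos' i
  have hX : 0 ≤ X := Finset.sum_nonneg fun q _ => hψ q
  have hpos : ∀ q ∈ F, 0 < q := fun q hq => Nat.pos_of_ne_zero fun h => hF (h ▸ hq)
  have hnn : ∀ v ∈ F, 0 ≤ ψ v := fun v _ => hψ v
  refine level_le (e := 1 / 2 + ε) (s := 5) (by linarith) (by linarith) hC.le hX ?_ ?_
  · have : (expN : ℝ) = 10000 := by unfold expN; norm_num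
    rw [this]; nlinarith
  by_cases hne : ∃ v ∈ F, ∃ w ∈ F, Large γ ψ i v w ∧ Exc γ i (cof v w)
  swap
  · push Not at hne
    refine le_of_eq_of_le (Finset.sum_eq_zero fun v hv => Finset.sum_eq_zero fun w hw =>
      if_neg fun h => hne v hv w hw h.1 h.2) ?_
    positivity
  obtain ⟨v₀, hv₀, w₀, hw₀, hL₀, P₀, D₀, Q₀, hD₀, hc₀, hQ₀, hQ₀', hDle₀, hdvd₀, herr₀⟩ := hne
  have hD40 : z ^ 40 < (D₀ : ℝ) := by
    by_contra h
    exact large_not_small_frac hi (hpos _ hv₀) (hpos _ hw₀) hL₀ hD₀ hc₀ (not_lt.1 h) herr₀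
  set T : ℕ → ℕ → ℕ → Prop := fun Q v w =>
    v ∈ F ∧ w ∈ F ∧ Bal ψ i v w ∧ D₀ / Nat.gcd D₀ Q ∣ cof v w
  have hcover : edgeSum (fun v w => Large γ ψ i v w ∧ Exc γ i (cof v w)) ψ ψ F F ≤
      ∑ Q ∈ Finset.Icc 1 (znat i ^ 6), edgeSum (T Q) ψ ψ F F := by
    refine edgeSum_cover _ T hnn hnn fun v hv w hw hvw => ?_
    obtain ⟨hL, P, D, Q, hD, hcp, hQ, hQ', hDle, hdvd, herr⟩ := hvw
    have hDD : D = D₀ := frac_unique hi hL.2.2.2.2 hL₀.2.2.2.2 hD hcp hc₀ hDle hDle₀ herr herr₀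
    subst hDD
    exact ⟨Q, Finset.mem_Icc.2 ⟨hQ, hQ'⟩, hv, hw, hL.2.2.1, div_gcd_dvd hD hdvd⟩
  refine hcover.trans ?_
  have hone : ∀ Q ∈ Finset.Icc 1 (znat i ^ 6), edgeSum (T Q) ψ ψ F F ≤
      C * z ^ (-11 : ℝ) * (y * y) * ((X / y) * (X / y)) ^ (1 / 2 + ε) := by
    intro Q hQ
    obtain ⟨hQ1, hQ2⟩ := Finset.mem_Icc.1 hQ
    set d := D₀ / Nat.gcd D₀ Q with hdd
    have hgp : 0 < Nat.gcd D₀ Q := Nat.gcd_pos_of_pos_left _ hD₀
    have hd0 : 0 < d := Nat.div_pos (Nat.le_of_dvd hD₀ (Nat.gcd_dvd_left _ _)) hgp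
    have hadm : Admissible (T Q) (fun v => (1 / y) * ψ v) (fun w => (1 / y) * ψ w) := by
      refine ⟨fun v => mul_nonneg (by positivity) (hψ v), fun v => mul_nonneg (by positivity) (hψ v),
        fun v w h => hpos v h.1, fun v w h => hpos w h.2.1, fun v w h => ?_, fun v w h => ?_⟩
      · rw [mul_left_comm, one_div, ← div_eq_inv_mul, div_le_one hy]; exact h.2.2.1.2.1
      · rw [mul_left_comm, one_div, ← div_eq_inv_mul, div_le_one hy]; exact h.2.2.1.2.2.2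
    have h := hd (T Q) _ _ F F d hd0 hadm hsum hsum fun v w h => h.2.2.2
    rw [edgeSum_scale, ← Finset.mul_sum, ← hXd, show 1 / y * X = X / y by ring] at h
    have hdlow : z ^ (34 : ℕ) ≤ (d : ℝ) := by
      have h1 : (D₀ : ℝ) = (Nat.gcd D₀ Q : ℝ) * d := by
        rw [hdd]; exact_mod_cast (Nat.mul_div_cancel' (Nat.gcd_dvd_left D₀ Q)).symm
      have h2 : (Nat.gcd D₀ Q : ℝ) ≤ z ^ 6 := by
        rw [hzd, ← znat_cast]
        exact_mod_cast (Nat.le_of_dvd hQ1 (Nat.gcd_dvd_right _ _)).trans hQ2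
      have h3 : z ^ 6 * z ^ 34 ≤ z ^ 6 * (d : ℝ) := by
        rw [← pow_add]
        exact hD40.le.trans (h1 ▸ mul_le_mul_of_nonneg_right h2 (Nat.cast_nonneg d))
      exact le_of_mul_le_mul_left h3 (by positivity)
    have hd3 : C / (d : ℝ) ^ (1 / 3 : ℝ) ≤ C * z ^ (-11 : ℝ) := by
      rw [Real.rpow_neg hz.le, ← div_eq_mul_inv]
      refine div_le_div_of_nonneg_left hC.le (by positivity) ?_
      calc z ^ (11 : ℝ) ≤ (z ^ (34 : ℕ)) ^ (1 / 3 : ℝ) := by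
            rw [← Real.rpow_natCast, ← Real.rpow_mul hz.le]
            exact Real.rpow_le_rpow_of_exponent_le (one_le_zpar i) (by norm_num)
        _ ≤ _ := Real.rpow_le_rpow (by positivity) hdlow (by norm_num)
    have hXn : 0 ≤ (X / y * (X / y)) ^ (1 / 2 + ε) := by positivity
    calc edgeSum (T Q) ψ ψ F F
        = y * y * (1 / y * (1 / y) * edgeSum (T Q) ψ ψ F F) := by field_simp
      _ ≤ y * y * (C * z ^ (-11 : ℝ) * (X / y * (X / y)) ^ (1 / 2 + ε)) :=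
          mul_le_mul_of_nonneg_left (h.trans (mul_le_mul_of_nonneg_right hd3 hXn)) (by positivity)
      _ = _ := by ring
  refine (Finset.sum_le_sum hone).trans ?_
  rw [Finset.sum_const, nsmul_eq_mul, Nat.card_Icc, Nat.add_sub_cancel, Nat.cast_pow, znat_cast, ← hzd,
    ← mul_assoc, ← mul_assoc]
  refine mul_le_mul_of_nonneg_right ?_ (by positivity)
  refine le_of_eq ?_
  have e : z ^ (6 : ℕ) * z ^ (-11 : ℝ) = z ^ (-5 : ℝ) := by
    rw [← Real.rpow_natCast, ← Real.rpow_add hz]; norm_num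
  rw [← e]; ring

/-- The imbalanced edges. -/
theorem imbalance_le (hH : HomogStatement) {ε t : ℝ} (hε : 0 < ε) (hε1 : ε ≤ 1 / 1000000) (ht : t ≤ 1 / 2)
    {ρ : ℝ} (hρ : 1 ≤ ρ) : ∃ C : ℝ, 0 ≤ C ∧ ∀ (ψ : ℕ → ℝ) (F : Finset ℕ) (i : ℕ),
      1 ≤ i → 0 ∉ F → (∀ q, 0 ≤ ψ q) → (∀ q ∈ F, divSum q ≤ ρ) →
        edgeSum (fun v w => (cof w v : ℝ) * ψ v ≤ lvl i / zpar i ^ 2 ∧
            (cof v w : ℝ) * ψ w ≤ lvl i) ψ ψ F F ≤
          C * lvl i * ((2 : ℝ) ^ (-t)) ^ i * ((∑ q ∈ F, ψ q) + (∑ q ∈ F, ψ q) ^ 2) := by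
  classical
  obtain ⟨C, hC, hd⟩ := hH ε hε (by linarith)
  refine ⟨C * (ρ ^ 2) ^ (1 / 2 - ε), by positivity, fun ψ F i hi hF hψ hsum => ?_⟩
  set z := zpar i with hzd
  set y := lvl i with hyd
  set X := ∑ q ∈ F, ψ q with hXd
  have hz : 0 < z := zpar_pos' i
  have hy : 0 < y := lvl_pos' i
  have hX : 0 ≤ X := Finset.sum_nonneg fun q _ => hψ q
  have hpos : ∀ q ∈ F, 0 < q := fun q hq => Nat.pos_of_ne_zero fun h => hF (h ▸ hq)
  have hnn : ∀ v ∈ F, 0 ≤ ψ v := fun v _ => hψ v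
  refine level_le (e := 1 / 2 + ε) (s := 1 - 2 * ε) (by linarith) (by linarith) (by positivity) hX ?_ ?_
  · have : (expN : ℝ) = 10000 := by unfold expN; norm_num
    rw [this]; nlinarith
  set T : ℕ → ℕ → Prop := fun v w =>
    v ∈ F ∧ w ∈ F ∧ (cof w v : ℝ) * ψ v ≤ y / z ^ 2 ∧ (cof v w : ℝ) * ψ w ≤ y
  refine (edgeSum_mono (E₁ := T) hnn hnn fun v hv w hw h => ⟨hv, hw, h⟩).trans ?_
  have hadm : Admissible T (fun v => (z ^ 2 / y) * ψ v) (fun w => (1 / y) * ψ w) := by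
    refine ⟨fun v => mul_nonneg (by positivity) (hψ v), fun v => mul_nonneg (by positivity) (hψ v),
      fun v w h => hpos v h.1, fun v w h => hpos w h.2.1, fun v w h => ?_, fun v w h => ?_⟩
    · have := mul_le_mul_of_nonneg_left h.2.2.1 (show 0 ≤ z ^ 2 / y by positivity)
      rw [show z ^ 2 / y * (y / z ^ 2) = 1 by field_simp] at this
      linarith
    · rw [mul_left_comm, one_div, ← div_eq_inv_mul, div_le_one hy]; exact h.2.2.2
  have h := hd T _ _ F F ρ hρ hadm hsum hsum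
  rw [edgeSum_scale, ← Finset.mul_sum, ← Finset.mul_sum, ← hXd] at h
  have hsplit : (z ^ 2 / y * X * (1 / y * X)) ^ (1 / 2 + ε) =
      z ^ (1 + 2 * ε) * (X / y * (X / y)) ^ (1 / 2 + ε) := by
    rw [show z ^ 2 / y * X * (1 / y * X) = z ^ 2 * (X / y * (X / y)) by ring,
      Real.mul_rpow (sq_nonneg z) (by positivity), ← Real.rpow_natCast z 2, ← Real.rpow_mul hz.le]
    congr 2; ring
  rw [hsplit] at h
  have e : (z ^ 2)⁻¹ * z ^ (1 + 2 * ε) = z ^ (-(1 - 2 * ε)) := by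
    rw [← Real.rpow_natCast, ← Real.rpow_neg hz.le, ← Real.rpow_add hz]; push_cast; ring_nf
  calc edgeSum T ψ ψ F F
      = y * y / z ^ 2 * (z ^ 2 / y * (1 / y) * edgeSum T ψ ψ F F) := by field_simp
    _ ≤ y * y / z ^ 2 * (C * (ρ ^ 2) ^ (1 / 2 - ε) *
        (z ^ (1 + 2 * ε) * (X / y * (X / y)) ^ (1 / 2 + ε))) :=
        mul_le_mul_of_nonneg_left h (by positivity)
    _ = _ := by rw [← e]; ring

end Vale.Agent.P028.DS
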