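import Vale.Agent.P028.DS.Overlap
import Vale.Agent.P028.EV.Measure

/-!
P028, milestone A: from the bound on every level to full measure.
-/

namespace Vale.Agent.P028.DS

open Finset Real MeasureTheory

variable {γ : ℝ} {ψ : ℕ → ℝ}

lemma zpar_pos (i : ℕ) : 0 < zpar i := pow_pos two_pos i

lemma lvl_pos (i : ℕ) : 0 < lvl i := one_div_pos.mpr (pow_pos (zpar_pos i) expN)

lemma one_div_lvl_succ (i : ℕ) : 1 / lvl (i + 1) = (2 : ℝ) ^ expN / lvl i := by
  simp only [lvl, zpar, one_div_one_div, div_div_eq_mul_div, div_one, pow_succ, mul_pow]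
  ring

lemma exists_lvl_ratio : ∃ T : ℝ, 0 < T ∧ ∀ i, 1 / lvl (i + 1) = T / lvl i :=
  ⟨(2 : ℝ) ^ expN, pow_pos two_pos expN, one_div_lvl_succ⟩

lemma lvl_le_half_pow (i : ℕ) : lvl i ≤ (1 / 2 : ℝ) ^ i := by
  have h1 : (1 : ℝ) ≤ 2 ^ i := one_le_pow₀ one_le_two
  rw [lvl, zpar, one_div_pow]
  exact one_div_le_one_div_of_le (by positivity) (le_self_pow₀ h1 (Nat.succ_ne_zero 9999))

lemma exists_lvl_lt {D : ℝ} (hD : 0 < D) : ∃ n, lvl n < D := by
  obtain ⟨n, hn⟩ := exists_pow_lt_of_lt_one hD (show (1 / 2 : ℝ) < 1 by norm_num)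
  exact ⟨n, (lvl_le_half_pow n).trans_lt hn⟩

lemma lvl_anti {i j : ℕ} (h : i ≤ j) : lvl j ≤ lvl i := by
  unfold lvl zpar
  exact one_div_le_one_div_of_le (by positivity)
    (pow_le_pow_left₀ (by positivity) (pow_le_pow_right₀ one_le_two h) _)

attribute [local irreducible] lvl expN

open Classical in
/-- Many kept numerators in every window. -/
lemma vol_Ioo_ge {c : ℝ} (hc : 0 < c) (h0 : ∀ q, 0 ≤ ψ q) (h1 : ∀ q, ψ q ≤ 1 / 8)
    (hphi : ∀ q : ℕ, ψ q ≠ 0 → c ≤ (q.totient : ℝ) / q) {u v : ℝ} (huv : u < v) :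
    ∀ᶠ q in Filter.atTop, c * (v - u) * ψ q ≤ (volume (A γ ψ q ∩ Set.Ioo u v)).toReal := by
  obtain ⟨C, hC, hdiv⟩ := EV.exists_card_divisors_le 2
  set l := v - u with hld
  have hl : 0 < l := sub_pos.mpr huv
  filter_upwards [Filter.eventually_ge_atTop (max 1 (⌈16 / l⌉₊ + ⌈64 * C / (c * l) ^ 2⌉₊))] with q hq
  rcases eq_or_ne (ψ q) 0 with e | hne
  · rw [e, mul_zero]; exact ENNReal.toReal_nonneg
  have hq0 : 0 < q := le_trans (le_max_left _ _) hq
  have hqR : (0 : ℝ) < q := by exact_mod_cast hq0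
  have hq' : ((⌈16 / l⌉₊ + ⌈64 * C / (c * l) ^ 2⌉₊ : ℕ) : ℝ) ≤ q := by
    exact_mod_cast le_trans (le_max_right _ _) hq
  push_cast at hq'
  have hqa : 16 ≤ (q : ℝ) * l := by
    rw [← div_le_iff₀ hl]
    linarith [Nat.le_ceil (16 / l), Nat.cast_nonneg (α := ℝ) ⌈64 * C / (c * l) ^ 2⌉₊]
  have hqb : 64 * C ≤ (q : ℝ) * (c * l) ^ 2 := by
    rw [← div_le_iff₀ (by positivity)]
    linarith [Nat.le_ceil (64 * C / (c * l) ^ 2), Nat.cast_nonneg (α := ℝ) ⌈16 / l⌉₊]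
  obtain ⟨hcop, -⟩ := approx_cop (γ := γ) (δ := ψ q)
  set P := (approx γ (ψ q)).1 with hP
  set Q := (approx γ (ψ q)).2 with hQ
  set S := q.primeFactors.filter fun p => ¬ p ∣ Q with hS
  have hpr : ∀ p ∈ S, p.Prime := fun p hp => Nat.prime_of_mem_primeFactors (Finset.mem_filter.mp hp).1
  have hiff : ∀ a : ℤ, Allowed γ ψ q a ↔ ∀ p ∈ S, ¬ (p : ℤ) ∣ (Q : ℤ) * a + P := by
    intro a
    refine ⟨fun h p hp => h p (Finset.mem_filter.mp hp).1, fun h p hp => ?_⟩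
    rw [← hP, ← hQ]
    by_cases hpQ : p ∣ Q
    · intro hd
      have hpI : Prime (p : ℤ) := Nat.prime_iff_prime_int.mp (Nat.prime_of_mem_primeFactors hp)
      have h1 : (p : ℤ) ∣ (Q : ℤ) * a := (Int.natCast_dvd_natCast.mpr hpQ).mul_right a
      exact hpI.not_isUnit
        (hcop.isUnit_of_dvd' ((dvd_add_right h1).mp hd) (Int.natCast_dvd_natCast.mpr hpQ))
    · exact h p (Finset.mem_filter.mpr ⟨hp, hpQ⟩)
  set x : ℤ := ⌈(q : ℝ) * u - γ⌉ + 1 with hx
  set y : ℤ := ⌊(q : ℝ) * v - γ⌋ - 1 with hy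
  have hxy : (q : ℝ) * l - 4 ≤ ((y - x : ℤ) : ℝ) := by
    rw [hx, hy, hld]; push_cast
    linarith [Int.ceil_lt_add_one ((q : ℝ) * u - γ), Int.lt_floor_add_one ((q : ℝ) * v - γ)]
  have hxy0 : 0 ≤ y - x := by
    have : (0 : ℝ) ≤ ((y - x : ℤ) : ℝ) := by linarith
    exact_mod_cast this
  obtain ⟨L, hL⟩ := Int.eq_ofNat_of_zero_le hxy0
  set G := (Finset.Ico x (x + L)).filter fun a => Allowed γ ψ q a with hG
  have hLR : (q : ℝ) * l - 4 ≤ (L : ℝ) := by rw [hL] at hxy; exact_mod_cast hxy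
  have hdens : c ≤ ∏ p ∈ S, (1 - 1 / (p : ℝ)) := by
    refine (hphi q hne).trans ?_
    rw [EV.totient_div_eq hq0.ne']
    exact Finset.prod_le_prod_of_subset_of_le_one (Finset.filter_subset _ _)
      (fun p hp => (EV.dens_factor hp).1.le) fun p hp _ => (EV.dens_factor hp).2
  have hcount := (abs_le.mp (EV.legendre S hpr (Q : ℤ) P (fun p hp hd =>
    (Finset.mem_filter.mp hp).2 (Int.natCast_dvd_natCast.mp hd)) x L)).1
  rw [show ((Finset.Ico x (x + L)).filter fun a => ∀ p ∈ S, ¬ (p : ℤ) ∣ (Q : ℤ) * a + P) = G from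
    (Finset.filter_congr fun a _ => hiff a).symm] at hcount
  have hω : (2 : ℝ) ^ (S.card + 1) ≤ c * l * q / 4 := by
    have h2 : (2 : ℝ) ^ S.card ≤ q.divisors.card := by
      refine (pow_le_pow_right₀ one_le_two (Finset.card_le_card (Finset.filter_subset _ _))).trans ?_
      exact_mod_cast EV.two_pow_card_le_divisors hq0.ne'
    have h3 : (q.divisors.card : ℝ) ≤ c * l * q / 8 := by
      refine le_of_pow_le_pow_left₀ (n := 2) two_ne_zero (by positivity) ((hdiv q hq0.ne').trans ?_)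
      have := mul_le_mul_of_nonneg_right hqb hqR.le
      linarith [show (c * l * (q : ℝ) / 8) ^ 2 = q * (c * l) ^ 2 * q / 64 by ring]
    rw [pow_succ]
    linarith
  have hGcard : c * l * q / 2 ≤ (G.card : ℝ) := by
    have e1 : ((q : ℝ) * l - 4) * c ≤ L * ∏ p ∈ S, (1 - 1 / (p : ℝ)) :=
      mul_le_mul hLR hdens hc.le (Nat.cast_nonneg L)
    have e2 : 4 * c ≤ c * l * q / 4 := by
      have := mul_le_mul_of_nonneg_left hqa hc.le
      linarith
    linarith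
  have hI : ∀ a ∈ G, Set.Ioo (((a : ℝ) + γ - ψ q) / q) (((a : ℝ) + γ + ψ q) / q) ⊆
      A γ ψ q ∩ Set.Ioo u v := by
    intro a ha z hz
    obtain ⟨haI, haA⟩ := Finset.mem_filter.mp ha
    obtain ⟨ha1, ha2⟩ := Finset.mem_Ico.mp haI
    have r1 : (q : ℝ) * u - γ + 1 ≤ a := by
      have e1 : (x : ℝ) ≤ a := by exact_mod_cast ha1
      have e2 : (x : ℝ) = (⌈(q : ℝ) * u - γ⌉ : ℝ) + 1 := by rw [hx]; push_cast; ring
      linarith [Int.le_ceil ((q : ℝ) * u - γ)]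
    have r2 : (a : ℝ) + 1 ≤ (q : ℝ) * v - γ := by
      have : a < y := by omega
      have e1 : (a : ℝ) ≤ y := by exact_mod_cast this.le
      have e2 : (y : ℝ) = (⌊(q : ℝ) * v - γ⌋ : ℝ) - 1 := by rw [hy]; push_cast; ring
      linarith [Int.floor_le ((q : ℝ) * v - γ)]
    obtain ⟨z1, z2⟩ := hz
    rw [div_lt_iff₀ hqR] at z1
    rw [lt_div_iff₀ hqR] at z2
    have := h1 q
    refine ⟨⟨a, haA, abs_lt.mpr ⟨by linarith, by linarith⟩⟩, ?_, ?_⟩
    · by_contra hcon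
      have := mul_le_mul_of_nonneg_left (not_lt.mp hcon) hqR.le
      linarith
    · by_contra hcon
      have := mul_le_mul_of_nonneg_left (not_lt.mp hcon) hqR.le
      linarith
  have hdisj : (G : Set ℤ).PairwiseDisjoint
      fun a : ℤ => Set.Ioo (((a : ℝ) + γ - ψ q) / q) (((a : ℝ) + γ + ψ q) / q) := by
    intro a _ a' _ hne'
    refine Set.disjoint_left.mpr fun z hz hz' => ?_
    obtain ⟨z1, z2⟩ := hz
    obtain ⟨z3, z4⟩ := hz'
    rw [div_lt_iff₀ hqR] at z1 z3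
    rw [lt_div_iff₀ hqR] at z2 z4
    have := h1 q
    have e : |((a - a' : ℤ) : ℝ)| < 1 := by
      push_cast; exact abs_lt.mpr ⟨by linarith, by linarith⟩
    have : |a - a'| < 1 := by exact_mod_cast e
    rw [Int.abs_lt_one_iff, sub_eq_zero] at this
    exact hne' this
  have hvol : volume (⋃ a ∈ G, Set.Ioo (((a : ℝ) + γ - ψ q) / q) (((a : ℝ) + γ + ψ q) / q)) =
      (G.card : ℕ) * ENNReal.ofReal (2 * ψ q / q) := by
    rw [measure_biUnion_finset hdisj fun a _ => measurableSet_Ioo, ← nsmul_eq_mul, ← Finset.sum_const]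
    refine Finset.sum_congr rfl fun a _ => ?_
    rw [Real.volume_Ioo]; congr 1; field_simp; ring
  have hfin : volume (A γ ψ q ∩ Set.Ioo u v) ≠ ⊤ :=
    ne_top_of_le_ne_top (by simp) (measure_mono Set.inter_subset_right)
  refine le_trans ?_ (ENNReal.toReal_mono hfin (le_trans (le_of_eq hvol.symm)
    (measure_mono (Set.iUnion₂_subset hI))))
  have := h0 q
  rw [ENNReal.toReal_mul, ENNReal.toReal_natCast, ENNReal.toReal_ofReal (by positivity)]
  calc c * l * ψ q = c * l * q / 2 * (2 * ψ q / q) := by field_simp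
    _ ≤ _ := mul_le_mul_of_nonneg_right hGcard (by positivity)

open Classical in
/-- One pair, resolved into levels. -/
lemma pair_bound {T : ℝ} (hT0 : 0 < T) (hT : ∀ i, 1 / lvl (i + 1) = T / lvl i) (h0 : ∀ q, 0 ≤ ψ q) (h1 : ∀ q, ψ q ≤ 1 / 8) (i₀ I : ℕ) {v w : ℕ} (hv : 0 < v)
    (hw : 0 < w) (hvw : v ≠ w) (hI : ψ v ≠ 0 → ψ w ≠ 0 → lvl (i₀ + I) < rangeD ψ v w) :
    (volume (A γ ψ v ∩ A γ ψ w ∩ Set.Ioc 0 1)).toReal ≤
      16 * (1 + 1 / lvl i₀) * (ψ v * ψ w) + ∑ i ∈ Finset.range I, 32 * T / lvl (i₀ + i) *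
        if v ≠ w ∧ Live γ ψ v w ∧ lvl (i₀ + i + 1) < rangeD ψ v w ∧ rangeD ψ v w ≤ lvl (i₀ + i)
          then ψ v * ψ w else 0 := by
  have hv4 : ψ v ≤ 1 / 4 := (h1 v).trans (by norm_num)
  have hw4 : ψ w ≤ 1 / 4 := (h1 w).trans (by norm_num)
  refine (overlap γ ψ v w hv hw (h0 v) hv4 (h0 w) hw4).trans ?_
  have hl := lvl_pos i₀
  have hP : 0 ≤ ψ v * ψ w := mul_nonneg (h0 v) (h0 w)
  have hX : 0 ≤ 16 * (1 + 1 / lvl i₀) * (ψ v * ψ w) := by positivity
  have hnn : ∀ i ∈ Finset.range I, 0 ≤ 32 * T / lvl (i₀ + i) *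
      if v ≠ w ∧ Live γ ψ v w ∧ lvl (i₀ + i + 1) < rangeD ψ v w ∧ rangeD ψ v w ≤ lvl (i₀ + i)
        then ψ v * ψ w else 0 := fun i _ => by
    have := lvl_pos (i₀ + i)
    refine mul_nonneg (by positivity) ?_
    split_ifs
    · exact hP
    · exact le_rfl
  have hsum := Finset.sum_nonneg hnn
  by_cases hlive : Live γ ψ v w
  swap
  · rw [if_neg hlive]; linarith
  rw [if_pos hlive]
  by_cases hz : ψ v = 0 ∨ ψ w = 0
  · rcases hz with e | e <;> rw [e] at hX hsum ⊢ <;> simp only [mul_zero, zero_mul] at hX hsum ⊢ <;>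
      linarith
  push Not at hz
  set D := rangeD ψ v w with hD
  have hpos : 0 < D := lt_of_lt_of_le (mul_pos (Nat.cast_pos.mpr (Nat.div_pos
    (Nat.le_of_dvd hw (Nat.gcd_dvd_left w v)) (Nat.gcd_pos_of_pos_left _ hw)))
    (lt_of_le_of_ne (h0 v) (Ne.symm hz.1))) (le_max_left _ _)
  by_cases hbig : lvl i₀ < D
  · have h2 : 1 / D ≤ 1 / lvl i₀ := one_div_le_one_div_of_le hl hbig.le
    have := mul_le_mul_of_nonneg_left (show 1 + 1 / D ≤ 1 + 1 / lvl i₀ by linarith)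
      (show 0 ≤ 16 * (ψ v * ψ w) by positivity)
    linarith
  obtain ⟨i, hi, hi1, hi2⟩ : ∃ i ∈ Finset.range I, lvl (i₀ + i + 1) < D ∧ D ≤ lvl (i₀ + i) := by
    have hex : ∃ j, lvl (i₀ + j) < D := ⟨I, hI hz.1 hz.2⟩
    have hj0 : Nat.find hex ≠ 0 := fun e => hbig (by simpa [e] using Nat.find_spec hex)
    obtain ⟨j, hj⟩ := Nat.exists_eq_succ_of_ne_zero hj0
    refine ⟨j, Finset.mem_range.mpr ?_, ?_, not_lt.mp (Nat.find_min hex (by omega))⟩
    · have := Nat.find_min' hex (hI hz.1 hz.2); omega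
    · have := Nat.find_spec hex; rw [hj] at this; exact this
  refine le_trans ?_ (add_le_add le_rfl (Finset.single_le_sum hnn hi))
  rw [if_pos ⟨hvw, hlive, hi1, hi2⟩]
  have hli := lvl_pos (i₀ + i)
  have e1 : 1 / D ≤ T / lvl (i₀ + i) := by
    rw [← hT]
    exact one_div_le_one_div_of_le (lvl_pos _) hi1.le
  have e2 : (0 : ℝ) ≤ 1 / lvl i₀ := by positivity
  have e3 := mul_le_mul_of_nonneg_left e1 (show 0 ≤ 16 * (ψ v * ψ w) by positivity)
  have e4 : 0 ≤ T / lvl (i₀ + i) * (ψ v * ψ w) := by positivity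
  have e5 : 32 * T / lvl (i₀ + i) * (ψ v * ψ w) =
      32 * (T / lvl (i₀ + i) * (ψ v * ψ w)) := by ring
  have e6 := mul_nonneg e2 hP
  linarith

/-- From the bound on every level to full measure. -/
theorem glue : GlueStatement := by
  classical
  intro γ ψ h0 h1 c hc hphi hdiv C r hr hr1 i₀ hlev
  have hsub : {x : ℝ | {q : ℕ | x ∈ A γ ψ q}.Infinite} ⊆
      {x : ℝ | {q : ℕ | 0 < q ∧ ∃ a : ℤ, |(q : ℝ) * x - a - γ| < ψ q}.Infinite} := by
    intro x hx
    refine (hx.sdiff (Set.finite_singleton 0)).mono ?_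
    rintro q ⟨⟨a, -, ha⟩, hq⟩
    exact ⟨Nat.pos_of_ne_zero (by simpa using hq), a, ha⟩
  refine measure_mono_null (Set.compl_subset_compl.mpr hsub) ?_
  refine EV.null_compl_of_qi (fun q => A γ ψ q) (fun q => measurableSet_A q)
    (fun q x => A_periodic q x) ψ h0 hdiv hc (fun u v _ huv _ => vol_Ioo_ge hc h0 h1 hphi huv) ?_
  obtain ⟨T, hT0, hT⟩ := exists_lvl_ratio
  set C' := max C 0
  set K := 32 * T * C' * (1 - r)⁻¹ with hK
  refine ⟨18 + 16 * (1 + 1 / lvl i₀) + K, 1, fun F hF => ?_⟩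
  have hF0 : ∀ q ∈ F, 0 < q := fun q hq => hF q hq
  have h0F : 0 ∉ F := fun h => absurd (hF0 0 h) (lt_irrefl 0)
  obtain ⟨I, hI⟩ : ∃ I : ℕ, ∀ v ∈ F, ∀ w ∈ F, ψ v ≠ 0 → ψ w ≠ 0 →
      lvl (i₀ + I) < rangeD ψ v w := by
    have hex : ∀ p : ℕ × ℕ, ∃ n, p ∈ F ×ˢ F → ψ p.1 ≠ 0 → lvl n < rangeD ψ p.1 p.2 := by
      intro p
      by_cases hp : p ∈ F ×ˢ F ∧ ψ p.1 ≠ 0
      · obtain ⟨hp1, hp2⟩ := Finset.mem_product.mp hp.1
        have hpos : 0 < rangeD ψ p.1 p.2 := lt_of_lt_of_le (mul_pos (Nat.cast_pos.mpr (Nat.div_pos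
          (Nat.le_of_dvd (hF0 _ hp2) (Nat.gcd_dvd_left _ _)) (Nat.gcd_pos_of_pos_left _ (hF0 _ hp2))))
          (lt_of_le_of_ne (h0 p.1) (Ne.symm hp.2))) (le_max_left _ _)
        obtain ⟨n, hn⟩ := exists_lvl_lt hpos
        exact ⟨n, fun _ _ => hn⟩
      · exact ⟨0, fun a b => absurd ⟨a, b⟩ hp⟩
    choose n hn using hex
    refine ⟨(F ×ˢ F).sup n, fun v hv w hw hpv _ => ?_⟩
    have hm : (v, w) ∈ F ×ˢ F := Finset.mem_product.mpr ⟨hv, hw⟩
    refine lt_of_le_of_lt (lvl_anti ?_) (hn (v, w) hm hpv)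
    have := Finset.le_sup (f := n) hm
    omega
  set S := ∑ q ∈ F, ψ q with hS
  have hS0 : 0 ≤ S := Finset.sum_nonneg fun q _ => h0 q
  set E : ℕ → ℕ → ℕ → Prop := fun i v w =>
    v ≠ w ∧ Live γ ψ v w ∧ lvl (i₀ + i + 1) < rangeD ψ v w ∧ rangeD ψ v w ≤ lvl (i₀ + i)
  have hterm : ∀ v ∈ F, ∀ w ∈ F, (volume (A γ ψ v ∩ A γ ψ w ∩ Set.Ioc 0 1)).toReal ≤
      (if v = w then 18 * ψ v else 0) + 16 * (1 + 1 / lvl i₀) * (ψ v * ψ w) +
        ∑ i ∈ Finset.range I, 32 * T / lvl (i₀ + i) *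
          if E i v w then ψ v * ψ w else 0 := by
    intro v hv w hw
    have hl := lvl_pos i₀
    have hP : 0 ≤ ψ v * ψ w := mul_nonneg (h0 v) (h0 w)
    by_cases hvw : v = w
    · subst hvw
      rw [if_pos rfl]
      have hd : rangeD ψ v v = ψ v := by
        rw [rangeD, cof, Nat.gcd_self, Nat.div_self (hF0 v hv), Nat.cast_one, one_mul, max_self]
      refine (overlap γ ψ v v (hF0 v hv) (hF0 v hv) (h0 v) ((h1 v).trans (by norm_num)) (h0 v)
        ((h1 v).trans (by norm_num))).trans ?_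
      have hsum : 0 ≤ ∑ i ∈ Finset.range I, 32 * T / lvl (i₀ + i) *
          (if E i v v then ψ v * ψ v else 0) := Finset.sum_nonneg fun i _ => by
        have := lvl_pos (i₀ + i)
        refine mul_nonneg (by positivity) ?_
        split_ifs
        exacts [hP, le_rfl]
      have hX : 0 ≤ 16 * (1 + 1 / lvl i₀) * (ψ v * ψ v) := by positivity
      have hle : 16 * ψ v * ψ v * (1 + 1 / rangeD ψ v v) ≤ 18 * ψ v := by
        rw [hd]
        rcases (h0 v).eq_or_lt with e | hpos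
        · rw [← e]; simp
        · have e : 16 * ψ v * ψ v * (1 + 1 / ψ v) = 16 * (ψ v * ψ v) + 16 * ψ v := by
            field_simp
          have := mul_le_mul_of_nonneg_right (h1 v) (h0 v)
          linarith
      by_cases hlive : Live γ ψ v v
      · rw [if_pos hlive]; linarith
      · rw [if_neg hlive]; linarith [h0 v]
    · rw [if_neg hvw, zero_add]
      exact pair_bound hT0 hT h0 h1 i₀ I (hF0 v hv) (hF0 w hw) hvw (hI v hv w hw)
  refine (Finset.sum_le_sum fun v hv => Finset.sum_le_sum fun w hw => hterm v hv w hw).trans ?_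
  simp only [Finset.sum_add_distrib]
  have e1 : ∑ v ∈ F, ∑ w ∈ F, (if v = w then 18 * ψ v else 0) = 18 * S := by
    rw [hS, Finset.mul_sum]
    exact Finset.sum_congr rfl fun v hv => by rw [Finset.sum_ite_eq, if_pos hv]
  have e2 : ∑ v ∈ F, ∑ w ∈ F, 16 * (1 + 1 / lvl i₀) * (ψ v * ψ w) =
      16 * (1 + 1 / lvl i₀) * S ^ 2 := by
    rw [pow_two, hS, Finset.sum_mul_sum, Finset.mul_sum]
    exact Finset.sum_congr rfl fun v _ => (Finset.mul_sum _ _ _).symm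
  have e3 : ∑ v ∈ F, ∑ w ∈ F, ∑ i ∈ Finset.range I, 32 * T / lvl (i₀ + i) *
      (if E i v w then ψ v * ψ w else 0) ≤ K * (S + S ^ 2) := by
    rw [Finset.sum_congr rfl fun v _ => Finset.sum_comm, Finset.sum_comm]
    have hi : ∀ i ∈ Finset.range I, ∑ v ∈ F, ∑ w ∈ F, 32 * T / lvl (i₀ + i) *
        (if E i v w then ψ v * ψ w else 0) ≤ 32 * T * C' * (S + S ^ 2) * r ^ i := by
      intro i _
      have hl := lvl_pos (i₀ + i)
      simp only [← Finset.mul_sum]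
      have hb : ∑ v ∈ F, ∑ w ∈ F, (if E i v w then ψ v * ψ w else 0) ≤
          C' * r ^ i * lvl (i₀ + i) * (S + S ^ 2) := by
        refine le_trans (le_of_eq ?_) ((hlev (i₀ + i) (Nat.le_add_right _ _) F h0F).trans ?_)
        · rw [edgeSum]
          refine Finset.sum_congr rfl fun v _ => Finset.sum_congr rfl fun w _ => ?_
          congr
        have hX : 0 ≤ lvl (i₀ + i) * (S + S ^ 2) := by positivity
        have h4 : C * r ^ (i₀ + i) ≤ C' * r ^ i :=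
          mul_le_mul (le_max_left _ _) (pow_le_pow_of_le_one hr hr1.le (Nat.le_add_left _ _))
            (pow_nonneg hr _) (le_max_right _ _)
        have h5 := mul_le_mul_of_nonneg_right h4 hX
        linarith
      refine (mul_le_mul_of_nonneg_left hb (by positivity)).trans (le_of_eq ?_)
      field_simp
    refine (Finset.sum_le_sum hi).trans ?_
    rw [← Finset.mul_sum]
    have hg : ∑ i ∈ Finset.range I, r ^ i ≤ (1 - r)⁻¹ := by
      rw [← tsum_geometric_of_lt_one hr hr1]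
      exact (summable_geometric_of_lt_one hr hr1).sum_le_tsum _ (fun i _ => pow_nonneg hr i)
    refine (mul_le_mul_of_nonneg_left hg ?_).trans (le_of_eq ?_)
    · have : 0 ≤ C' := le_max_right _ _
      positivity
    · rw [hK]; ring
  have hl := lvl_pos i₀
  rw [e1, e2]
  refine le_trans (add_le_add le_rfl e3) ?_
  have hK0 : 0 ≤ K := by
    have : 0 ≤ C' := le_max_right _ _
    have : 0 ≤ (1 - r)⁻¹ := inv_nonneg.mpr (by linarith)
    rw [hK]; positivity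
  have t1 : 0 ≤ 16 * (1 + 1 / lvl i₀) := by positivity
  have t2 := mul_nonneg t1 hS0
  have t3 : 0 ≤ 18 * S ^ 2 := by positivity
  linarith

end Vale.Agent.P028.DS
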