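import Vale.Agent.P028.DS.Defs

/-!
P028, milestone A: the statements of the parts (propositions only; each is proved in its own file).
-/

namespace Vale.Agent.P028.DS

open Finset Real MeasureTheory

/-- `y ^ (-1.03)`: below this both cofactors are small. -/
def smallExp : ℕ := 10300

/-- `y ^ (-1.01)`: the threshold of the resolved part. -/
def resExp : ℕ := 10100

open Classical in
/-- Overlap of two trimmed sets. -/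
def OverlapStatement : Prop :=
  ∀ (γ : ℝ) (ψ : ℕ → ℝ) (v w : ℕ), 0 < v → 0 < w → 0 ≤ ψ v → ψ v ≤ 1 / 4 → 0 ≤ ψ w → ψ w ≤ 1 / 4 →
    (volume (A γ ψ v ∩ A γ ψ w ∩ Set.Ioc 0 1)).toReal ≤
      if Live γ ψ v w then 16 * ψ v * ψ w * (1 + 1 / rangeD ψ v w) else 0

open Classical in
/-- From the bound on every level to full measure. -/
def GlueStatement : Prop :=
  ∀ (γ : ℝ) (ψ : ℕ → ℝ), (∀ q, 0 ≤ ψ q) → (∀ q, ψ q ≤ 1 / 8) →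
    ∀ c : ℝ, 0 < c → (∀ q : ℕ, ψ q ≠ 0 → c ≤ (q.totient : ℝ) / q) → ¬ Summable ψ →
    ∀ (C r : ℝ), 0 ≤ r → r < 1 → ∀ i₀ : ℕ,
      (∀ i, i₀ ≤ i → ∀ F : Finset ℕ, 0 ∉ F →
        edgeSum (fun v w => v ≠ w ∧ Live γ ψ v w ∧
            lvl (i + 1) < rangeD ψ v w ∧ rangeD ψ v w ≤ lvl i) ψ ψ F F
          ≤ C * r ^ i * lvl i * ((∑ q ∈ F, ψ q) + (∑ q ∈ F, ψ q) ^ 2)) →
      volume {x : ℝ | {q : ℕ | 0 < q ∧ ∃ a : ℤ, |(q : ℝ) * x - a - γ| < ψ q}.Infinite}ᶜ = 0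

/-- The homogeneous bilinear bound. -/
def HomogStatement : Prop :=
  ∀ ε : ℝ, 0 < ε → ε ≤ 1 / 100 → ∃ C : ℝ, 0 < C ∧
    ∀ (E : ℕ → ℕ → Prop) (f g : ℕ → ℝ) (V W : Finset ℕ) (ρ : ℝ), 1 ≤ ρ → Admissible E f g →
      (∀ v ∈ V, divSum v ≤ ρ) → (∀ w ∈ W, divSum w ≤ ρ) →
      edgeSum E f g V W ≤
        C * (ρ ^ 2) ^ (1 / 2 - ε) * ((∑ v ∈ V, f v) * ∑ w ∈ W, g w) ^ (1 / 2 + ε)

/-- Balanced edges with both cofactors small. -/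
def SmallStatement : Prop :=
  ∀ ρ : ℝ, 1 ≤ ρ → ∃ (C : ℝ) (i₀ : ℕ), ∀ (γ : ℝ) (ψ : ℕ → ℝ) (F : Finset ℕ) (i : ℕ), i₀ ≤ i →
    0 ∉ F → (∀ q, 0 ≤ ψ q) → (∀ q ∈ F, divSum q ≤ ρ) →
      edgeSum (fun v w => v ≠ w ∧ Live γ ψ v w ∧ Bal ψ i v w ∧
          (cof v w : ℝ) ≤ zpar i ^ smallExp ∧ (cof w v : ℝ) ≤ zpar i ^ smallExp) ψ ψ F F
        ≤ C * lvl i / zpar i * ((∑ q ∈ F, ψ q) + (∑ q ∈ F, ψ q) ^ 2)

open Classical in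
/-- Counting multiples near a class: without a short resonance of `x` there are few. -/
def CountStatement : Prop :=
  ∀ (x t y δ M : ℝ) (K : ℕ) (S : Finset ℕ), 0 < y → y ≤ 1 / 4 → 0 < δ → 1 ≤ M → 1 ≤ K →
    (∀ m ∈ S, (m : ℝ) ≤ M ∧ ∃ l : ℤ, |(m : ℝ) * x - t - l| ≤ 2 * y) →
    (∀ Q : ℕ, 1 ≤ Q → Q ≤ K → ∀ P : ℤ, δ / M < |(Q : ℝ) * x - P|) →
      (S.card : ℝ) ≤ M / K + 8 * y * M + 8 * K * y * M / δ + 2 * K + 2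

end Vale.Agent.P028.DS
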