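import Vale.Agent.P028.DS.LargeLeaf

/-!
P028, milestone A: the large edges without an exceptional fraction.
-/

namespace Vale.Agent.P028.DS

open Finset Real

open Classical in
/-- The leaf bound on the large edges without an exceptional fraction. -/
lemma large_leaf (P : Par) {γ : ℝ} {ψ : ℕ → ℝ} {i : ℕ} (hi : 1 ≤ i) {S F : Finset ℕ}
    (hS : ∀ p ∈ S, p.Prime) (hF0 : ∀ q ∈ F, 0 < q ∧ q.primeFactors ⊆ S) (hψ : ∀ q ∈ F, 0 < ψ q)
    {ρ C' τ' u : ℝ} (hρ : 1 ≤ ρ) (hC' : 0 ≤ C') (hu : u = (resExp : ℝ) * P.η) (huτ : u ≤ τ')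
    (hu2 : u ≤ 2) (hdiv : ∀ q ∈ F, divSum q ≤ ρ)
    (htail : ∀ q ∈ F, ∀ t : ℝ, 1 ≤ t →
      ∑ d ∈ q.divisors.filter (fun d : ℕ => (2 : ℝ) ^ t < d), (1 : ℝ) / d ≤ C' / t ^ τ') :
    LeafBound P S (fun v w => Large γ ψ i v w ∧ ¬ Exc γ i (cof v w))
      (fun v => (1 / lvl i) * ψ v) (fun v => (1 / lvl i) * ψ v) F F
      (3 * (4 * (84 * ρ ^ 2 * (C' + 1) * zpar i ^ (-u))) ^ (1 - P.e)) := by
  intro V hV W hW k
  set y := lvl i with hyd
  set z := zpar i with hzd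
  have hy : 0 < y := lvl_pos' i
  have hz : 0 < z := zpar_pos' i
  have hz1 : (1 : ℝ) ≤ z := one_le_zpar i
  set f : ℕ → ℝ := fun v => (1 / y) * ψ v with hfd
  set κ : ℝ := 84 * ρ ^ 2 * (C' + 1) * z ^ (-u) with hκd
  have hκ : 0 < κ := by positivity
  have hfV : ∀ v ∈ V, 0 < f v := fun v hv => mul_pos (by positivity) (hψ v (hV hv))
  have hfW : ∀ v ∈ W, 0 < f v := fun v hv => mul_pos (by positivity) (hψ v (hW hv))
  have hV0 : ∀ v ∈ V, 0 < v ∧ v.primeFactors ⊆ S := fun v hv => hF0 v (hV hv)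
  have hW0 : ∀ v ∈ W, 0 < v ∧ v.primeFactors ⊆ S := fun v hv => hF0 v (hW hv)
  set R : ℕ → ℕ → Prop := fun v w =>
    (Large γ ψ i v w ∧ ¬ Exc γ i (cof v w)) ∧ Clean S V W k v w with hRd
  have hb : ∀ v w, R v w → (cof w v : ℝ) * f v ≤ 1 := fun v w h => by
    simp only [hfd]
    rw [mul_left_comm, one_div, ← div_eq_inv_mul, div_le_one hy]; exact h.1.1.2.2.1.2.1
  have ha : ∀ v w, R v w → (cof v w : ℝ) * f w ≤ 1 := fun v w h => by
    simp only [hfd]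
    rw [mul_left_comm, one_div, ← div_eq_inv_mul, div_le_one hy]; exact h.1.1.2.2.1.2.2.2
  have hrange : ∀ v w, R v w → rangeD ψ v w ≤ y := fun v w h =>
    max_le h.1.1.2.2.1.2.1 h.1.1.2.2.1.2.2.2
  have hXY : 0 ≤ ((∑ v ∈ V, f v) * ∑ w ∈ W, f w) ^ P.e :=
    Real.rpow_nonneg (mul_nonneg (Finset.sum_nonneg fun v hv => (hfV v hv).le)
      (Finset.sum_nonneg fun v hv => (hfW v hv).le)) _
  set T : ℝ := (4 * κ) ^ (1 - P.e) * P.H S V W * ((∑ v ∈ V, f v) * ∑ w ∈ W, f w) ^ P.e with hTd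
  have hT : 0 ≤ T := mul_nonneg (mul_nonneg (by positivity) (P.H_nonneg V W)) hXY
  change edgeSum R f f V W ≤ _
  rw [show 3 * (4 * κ) ^ (1 - P.e) * P.H S V W * ((∑ v ∈ V, f v) * ∑ w ∈ W, f w) ^ P.e = 3 * T by
    rw [hTd]; ring]
  have hA : (0 : ℝ) < resA S V W := by exact_mod_cast resA_pos hS
  have hB : (0 : ℝ) < resB S V W := by exact_mod_cast resB_pos hS
  have hA1 : (1 : ℝ) ≤ (resA S V W : ℝ) ^ P.η :=
    Real.one_le_rpow (by exact_mod_cast resA_pos hS) P.hη0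
  have hρ0 : 0 < ρ := by linarith
  have hzu : ∀ c : ℝ, u ≤ c → z ^ (-c) ≤ z ^ (-u) := fun c hc =>
    Real.rpow_le_rpow_of_exponent_le hz1 (by linarith)
  -- the trivial counts
  have triv1 : ∀ (Q : ℕ → ℕ → Prop), (∀ v w, Q v w → R v w) → ∀ W' ⊆ W, ∀ v₀ ∈ V,
      lowSum S V W k (Q v₀) W' ≤ 1 / (f v₀ * below S V W k v₀) / resB S V W * ρ := by
    intro Q hQ W' hW' v₀ hv₀
    refine (lowSum_le hS hV0 hW0 hW' hv₀ (R := Q v₀) (hfV _ hv₀) fun w _ h =>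
      ⟨(hQ _ _ h).2, hb _ _ (hQ _ _ h)⟩).trans ?_
    have := hfV _ hv₀
    exact mul_le_mul_of_nonneg_left (hdiv _ (hV hv₀)) (by positivity)
  have triv2 : ∀ (Q : ℕ → ℕ → Prop), (∀ v w, Q v w → R v w) → ∀ V' ⊆ V, ∀ w₀ ∈ W,
      lowSum S V W k (fun v => Q v w₀) V' ≤ 1 / (f w₀ * below S V W k w₀) / resA S V W * ρ := by
    intro Q hQ V' hV' w₀ hw₀
    refine (lowSum_le' hS hV0 hW0 hV' hw₀ (R := fun v => Q v w₀) (hfW _ hw₀) fun v _ h =>
      ⟨(hQ _ _ h).2, ha _ _ (hQ _ _ h)⟩).trans ?_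
    have := hfW _ hw₀
    exact mul_le_mul_of_nonneg_left (hdiv _ (hW hw₀)) (by positivity)
  have low0 : ∀ (Q : ℕ → Prop) (U : Finset ℕ), 0 ≤ lowSum S V W k Q U := fun Q U =>
    Finset.sum_nonneg fun w _ => by
      split_ifs <;> first | exact div_nonneg zero_le_one (Nat.cast_nonneg _) | exact le_rfl
  by_cases hres : (resA S V W : ℝ) ≤ z ^ resExp
  swap
  · refine (leaf_le (k := k) P hS hfV hfW (R := R) hκ ?_).trans (le_mul_of_one_le_left hT (by norm_num))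
    intro V' hV' W' hW' v₀ hv₀ w₀ hw₀ Aq Bq hAq hBq _
    have h1 := triv1 R (fun _ _ h => h) W' hW' v₀ (hV' hv₀)
    have h2 := triv2 R (fun _ _ h => h) V' hV' w₀ (hW' hw₀)
    rw [← hBq] at h1
    rw [← hAq] at h2
    refine (mul_le_mul h1 h2 (low0 _ _) (le_trans (low0 _ _) h1)).trans ?_
    have hbig : ρ ^ 2 ≤ κ * (resA S V W : ℝ) ^ P.η := by
      have h3 : z ^ u ≤ (resA S V W : ℝ) ^ P.η := by
        rw [hu, Real.rpow_mul hz.le, Real.rpow_natCast]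
        exact Real.rpow_le_rpow (by positivity) (le_of_not_ge hres) P.hη0
      calc ρ ^ 2 ≤ 84 * ρ ^ 2 * (C' + 1) := by nlinarith [mul_nonneg (sq_nonneg ρ) hC', sq_nonneg ρ]
        _ = κ * z ^ u := by
            rw [hκd, mul_assoc _ (z ^ (-u)), ← Real.rpow_add hz]; simp
        _ ≤ _ := mul_le_mul_of_nonneg_left h3 hκ.le
    have hAq0 : 0 ≤ Aq := hAq ▸ by have := hfW _ (hW' hw₀); positivity
    have hBq0 : 0 ≤ Bq := hBq ▸ by have := hfV _ (hV' hv₀); positivity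
    calc Bq / resB S V W * ρ * (Aq / resA S V W * ρ)
        = ρ ^ 2 * (Aq / resA S V W) * (Bq / resB S V W) := by ring
      _ ≤ _ := by gcongr
  set R1 : ℕ → ℕ → Prop := fun v w => R v w ∧ Tail i S V W k w with hR1
  set R2 : ℕ → ℕ → Prop := fun v w => R v w ∧ UpNoRes γ i S V W k f w with hR2
  set R3 : ℕ → ℕ → Prop := fun v w => R v w ∧ DownNoRes γ i S V W k v w with hR3
  have hcov : edgeSum R f f V W ≤ edgeSum R1 f f V W + (edgeSum R2 f f V W + edgeSum R3 f f V W) := by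
    refine (edgeSum_or (E₁ := R1) (E₂ := fun v w => R2 v w ∨ R3 v w) (fun v hv => (hfV v hv).le)
      (fun v hv => (hfW v hv).le) fun v hv w hw h => ?_).trans ?_
    · rcases classify (γ := γ) hi hS hv hw (hV0 v hv).1 (hW0 w hw).1 (hV0 v hv).2 h.2 hres h.1.1.2.2.2.2
        (hfW w hw) (ha v w h) h.1.2 with h1 | h1 | h1
      · exact Or.inl ⟨h, h1⟩
      · exact Or.inr (Or.inl ⟨h, h1⟩)
      · exact Or.inr (Or.inr ⟨h, h1⟩)
    · exact add_le_add le_rfl (edgeSum_or (fun v hv => (hfV v hv).le) (fun v hv => (hfW v hv).le)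
        fun v _ w _ h => h)
  refine hcov.trans ?_
  have hfin : ∀ (Aq Bq c : ℝ), 0 ≤ Aq → 0 ≤ Bq → 0 ≤ c → c ≤ κ → ∀ x : ℝ,
      x ≤ c * (Aq / resA S V W) * (Bq / resB S V W) →
      x ≤ κ * (resA S V W : ℝ) ^ P.η * (Aq / resA S V W) * (Bq / resB S V W) := by
    intro Aq Bq c hA0 hB0 hc0 hc x hx
    refine hx.trans ?_
    gcongr
    exact hc.trans (le_mul_of_one_le_right hκ.le hA1)
  have hk1 : ρ * (C' * z ^ (-τ')) ≤ κ := by
    rw [hκd, ← mul_assoc]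
    refine mul_le_mul ?_ (hzu _ huτ) (by positivity) (by positivity)
    nlinarith [mul_nonneg hρ0.le hC', mul_nonneg (mul_nonneg hρ0.le hC') (sub_nonneg.2 hρ), sq_nonneg ρ]
  have hk2 : 21 * ρ ^ 2 * z ^ (-(3 : ℝ)) ≤ κ := by
    rw [hκd]
    refine mul_le_mul ?_ (hzu _ (by linarith)) (by positivity) (by positivity)
    nlinarith [mul_nonneg (sq_nonneg ρ) hC', sq_nonneg ρ]
  have hk3 : 84 * ρ * z ^ (-(2 : ℝ)) ≤ κ := by
    rw [hκd]
    refine mul_le_mul ?_ (hzu _ hu2) (by positivity) (by positivity)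
    nlinarith [mul_nonneg (sq_nonneg ρ) hC', mul_nonneg hρ0.le (sub_nonneg.2 hρ)]
  have e1 : edgeSum R1 f f V W ≤ T := by
    refine leaf_le (k := k) P hS hfV hfW hκ ?_
    intro V' hV' W' hW' v₀ hv₀ w₀ hw₀ Aq Bq hAq hBq _
    have hfv := hfV _ (hV' hv₀)
    have hfw := hfW _ (hW' hw₀)
    have h2 := triv2 R1 (fun _ _ h => h.1) V' hV' w₀ (hW' hw₀)
    have hc : 0 ≤ C' * z ^ (-τ') := by positivity
    have h1 : lowSum S V W k (R1 v₀) W' ≤
        1 / (f v₀ * below S V W k v₀) / resB S V W * (C' * z ^ (-τ')) := by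
      refine lowSum_fibre hS hV0 hW0 hW' (hV' hv₀) hfv hc
        (fun w _ h => ⟨h.1.2, hb _ _ h.1⟩) fun m => ?_
      have ht := htail v₀ (hV (hV' hv₀)) (znat i : ℝ) (by exact_mod_cast znat_pos i)
      rw [znat_cast, ← hzd] at ht
      rw [Real.rpow_neg hz.le, ← div_eq_mul_inv]
      refine le_trans ?_ ht
      have hinj : Set.InjOn (fun w => below S V W k w)
          ↑(W'.filter fun w => R1 v₀ w ∧ above S V W k w = m) := by
        intro a ha' b hb' hab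
        obtain ⟨haW, -, ham⟩ := Finset.mem_filter.1 ha'
        obtain ⟨hbW, -, hbm⟩ := Finset.mem_filter.1 hb'
        exact parts_injOn_right hS hW0 (hW' haW) (hW' hbW) (Prod.ext (ham.trans hbm.symm) hab)
      refine le_trans (le_of_eq ((Finset.sum_image (f := fun d : ℕ => (1 : ℝ) / d) hinj).trans
        (Finset.sum_congr (by congr!) fun _ _ => rfl)).symm) ?_
      refine Finset.sum_le_sum_of_subset_of_nonneg ?_ fun d _ _ => div_nonneg zero_le_one (Nat.cast_nonneg d)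
      intro d hd
      obtain ⟨w, hw, rfl⟩ := Finset.mem_image.1 hd
      obtain ⟨hwW, ⟨hR', htl⟩, -⟩ := Finset.mem_filter.1 hw
      have h0 := hV0 _ (hV' hv₀)
      refine Finset.mem_filter.2 ⟨Nat.mem_divisors.2 ⟨dvd_trans ?_ (cof_dvd v₀ w), h0.1.ne'⟩, ?_⟩
      · rw [cof_clean_left (hV' hv₀) (hW' hwW) h0.1 (hW0 _ (hW' hwW)).1 h0.2 hR'.2]
        exact dvd_mul_left _ _
      · rw [hzd, ← znat_cast, Real.rpow_natCast]
        have : (2 : ℕ) ^ znat i < below S V W k w := htl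
        exact_mod_cast this
    rw [← hBq] at h1
    rw [← hAq] at h2
    have hAq0 : 0 ≤ Aq := by rw [hAq]; positivity
    have hBq0 : 0 ≤ Bq := by rw [hBq]; positivity
    refine hfin Aq Bq _ hAq0 hBq0 (by positivity) hk1 _ ?_
    refine (mul_le_mul h1 h2 (low0 _ _) (by positivity)).trans (le_of_eq ?_)
    ring
  have e2 : edgeSum R2 f f V W ≤ T := by
    refine leaf_le (k := k) P hS hfV hfW hκ ?_
    intro V' hV' W' hW' v₀ hv₀ w₀ hw₀ Aq Bq hAq hBq _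
    have hfv := hfV _ (hV' hv₀)
    have hfw := hfW _ (hW' hw₀)
    have h1 := triv1 R2 (fun _ _ h => h.1) W' hW' v₀ (hV' hv₀)
    have h2 : lowSum S V W k (fun v => R2 v w₀) V' ≤
        21 * (scaleW S V W k f w₀ / z ^ 3) * divSum w₀ := by
      refine lowSum_fibre' hS hV0 hW0 hV' (hW' hw₀) (fun v _ h => h.1.2) fun α => ?_
      exact up_fibre_le (γ := γ) (ψ := ψ) hi hS hV0 hW0 hV' (hW' hw₀) hfw
        (fun v _ h => ⟨h.1.2, ha _ _ h.1, h.1.1.1.2.1, hrange _ _ h.1, h.2⟩) α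
    have hsc : scaleW S V W k f w₀ = Aq / resA S V W := by
      rw [hAq, scaleW, div_div]; congr 1; ring
    rw [← hBq] at h1
    have hAq0 : 0 ≤ Aq := by rw [hAq]; positivity
    have hBq0 : 0 ≤ Bq := by rw [hBq]; positivity
    rw [hsc] at h2
    replace h2 := h2.trans (mul_le_mul_of_nonneg_left (hdiv _ (hW (hW' hw₀))) (by positivity))
    refine hfin Aq Bq _ hAq0 hBq0 (by positivity) hk2 _ ?_
    refine (mul_le_mul h1 h2 (low0 _ _) (by positivity)).trans (le_of_eq ?_)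
    rw [Real.rpow_neg hz.le, show (3 : ℝ) = ((3 : ℕ) : ℝ) by norm_num, Real.rpow_natCast]
    field_simp
  have e3 : edgeSum R3 f f V W ≤ T := by
    refine leaf_le (k := k) P hS hfV hfW hκ ?_
    intro V' hV' W' hW' v₀ hv₀ w₀ hw₀ Aq Bq hAq hBq _
    have hfv := hfV _ (hV' hv₀)
    have hfw := hfW _ (hW' hw₀)
    have h2 := triv2 R3 (fun _ _ h => h.1) V' hV' w₀ (hW' hw₀)
    have h1 : lowSum S V W k (R3 v₀) W' ≤
        1 / (f v₀ * below S V W k v₀) / resB S V W * (84 / z ^ 2) := by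
      refine lowSum_fibre hS hV0 hW0 hW' (hV' hv₀) hfv (by positivity)
        (fun w _ h => ⟨h.1.2, hb _ _ h.1⟩) fun m => ?_
      exact down_fibre_le (γ := γ) (ψ := ψ) hi hS hV0 hW0 hW' (hV' hv₀)
        (fun w _ h => ⟨h.1.2, h.1.1.1.2.1, hrange _ _ h.1, h.2⟩) m
    rw [← hBq] at h1
    rw [← hAq] at h2
    have hAq0 : 0 ≤ Aq := by rw [hAq]; positivity
    have hBq0 : 0 ≤ Bq := by rw [hBq]; positivity
    refine hfin Aq Bq _ hAq0 hBq0 (by positivity) hk3 _ ?_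
    refine (mul_le_mul h1 h2 (low0 _ _) (by positivity)).trans (le_of_eq ?_)
    rw [Real.rpow_neg hz.le, show (2 : ℝ) = ((2 : ℕ) : ℝ) by norm_num, Real.rpow_natCast]
    push_cast
    field_simp
  linarith

/-- The large edges without an exceptional fraction. -/
theorem nonexc_le {ε τ' : ℝ} (hε : 0 < ε) (hε1 : ε ≤ 1 / 1000000) (hετ : 1000000 * ε ≤ τ')
    {ρ C' : ℝ} (hρ : 1 ≤ ρ) (hC' : 0 ≤ C') : ∃ C : ℝ, 0 ≤ C ∧
    ∀ (γ : ℝ) (ψ : ℕ → ℝ) (F : Finset ℕ) (i : ℕ), 1 ≤ i → 0 ∉ F → (∀ q, 0 ≤ ψ q) →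
      (∀ q ∈ F, divSum q ≤ ρ) →
      (∀ q ∈ F, ∀ t : ℝ, 1 ≤ t →
        ∑ d ∈ q.divisors.filter (fun d : ℕ => (2 : ℝ) ^ t < d), (1 : ℝ) / d ≤ C' / t ^ τ') →
      edgeSum (fun v w => Large γ ψ i v w ∧ ¬ Exc γ i (cof v w)) ψ ψ F F ≤
        C * lvl i * ((2 : ℝ) ^ (-(10 * ε))) ^ i * ((∑ q ∈ F, ψ q) + (∑ q ∈ F, ψ q) ^ 2) := by
  classical
  set P : Par := ⟨1 / 2 + ε, 397 / 100 * ε, by linarith, by linarith, by linarith, by nlinarith⟩ with hP
  obtain ⟨C, hC, heng⟩ := engine P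
  refine ⟨C * (3 * (4 * (84 * ρ ^ 2 * (C' + 1))) ^ (1 - P.e)), by positivity,
    fun γ ψ F i hi hF hψ hdiv htail => ?_⟩
  set y := lvl i with hyd
  set z := zpar i with hzd
  set X := ∑ q ∈ F, ψ q with hXd
  have hy : 0 < y := lvl_pos' i
  have hz : 0 < z := zpar_pos' i
  have hX : 0 ≤ X := Finset.sum_nonneg fun q _ => hψ q
  have hres : (resExp : ℝ) = 10100 := by unfold resExp; norm_num
  set u : ℝ := (resExp : ℝ) * P.η with hud
  have hu : u = 10100 * (397 / 100 * ε) := by rw [hud, hres]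
  refine level_le (e := P.e) (s := u * (1 - P.e)) P.he.le P.e_lt.le (by positivity) hX ?_ ?_
  · have : (expN : ℝ) = 10000 := by unfold expN; norm_num
    rw [this, hu, hP]
    simp only
    nlinarith
  set F' := F.filter (fun q => 0 < ψ q) with hF'd
  set S := F'.biUnion Nat.primeFactors with hSd
  have hS : ∀ p ∈ S, p.Prime := fun p hp => by
    obtain ⟨n, -, hn⟩ := Finset.mem_biUnion.1 hp
    exact Nat.prime_of_mem_primeFactors hn
  have hF0 : ∀ q ∈ F', 0 < q ∧ q.primeFactors ⊆ S := fun q hq =>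
    ⟨Nat.pos_of_ne_zero fun h => hF (h ▸ (Finset.mem_filter.1 hq).1),
      fun p hp => Finset.mem_biUnion.2 ⟨q, hq, hp⟩⟩
  have hψ' : ∀ q ∈ F', 0 < ψ q := fun q hq => (Finset.mem_filter.1 hq).2
  have hleaf := large_leaf P (γ := γ) hi hS hF0 hψ' hρ hC' rfl (τ' := τ') (by rw [← hud, hu]; linarith)
    (by rw [← hud, hu]; linarith) (fun q hq => hdiv q (Finset.mem_filter.1 hq).1)
    (fun q hq => htail q (Finset.mem_filter.1 hq).1)
  have h := heng S _ _ _ F' F' _ (by positivity) hS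
    (fun v hv => mul_pos (by positivity) (hψ' v hv)) (fun v hv => mul_pos (by positivity) (hψ' v hv)) hleaf
  rw [edgeSum_scale, ← Finset.mul_sum, ← hud, ← hzd, ← hyd] at h
  rw [edgeSum_pos_support (fun v _ => hψ v) (fun v _ => hψ v), ← hF'd]
  have hX' : ∑ q ∈ F', ψ q ≤ X :=
    Finset.sum_le_sum_of_subset_of_nonneg (Finset.filter_subset _ _) fun q _ _ => hψ q
  have hX0 : 0 ≤ ∑ q ∈ F', ψ q := Finset.sum_nonneg fun q _ => hψ q
  have hK : (4 * (84 * ρ ^ 2 * (C' + 1) * z ^ (-u))) ^ (1 - P.e) =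
      (4 * (84 * ρ ^ 2 * (C' + 1))) ^ (1 - P.e) * z ^ (-(u * (1 - P.e))) := by
    rw [← mul_assoc, Real.mul_rpow (by positivity) (by positivity), ← Real.rpow_mul hz.le]
    congr 1; ring_nf
  rw [hK] at h
  have hpow : (1 / y * (∑ q ∈ F', ψ q) * (1 / y * ∑ q ∈ F', ψ q)) ^ P.e ≤ (X / y * (X / y)) ^ P.e := by
    refine Real.rpow_le_rpow (by positivity) ?_ P.e_pos.le
    rw [show X / y = 1 / y * X by ring]
    gcongr
  calc edgeSum (fun v w => Large γ ψ i v w ∧ ¬ Exc γ i (cof v w)) ψ ψ F' F'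
      = y * y * (1 / y * (1 / y) * edgeSum (fun v w => Large γ ψ i v w ∧ ¬ Exc γ i (cof v w)) ψ ψ F' F') := by
        field_simp
    _ ≤ y * y * (C * (3 * ((4 * (84 * ρ ^ 2 * (C' + 1))) ^ (1 - P.e) * z ^ (-(u * (1 - P.e))))) *
        (X / y * (X / y)) ^ P.e) :=
        mul_le_mul_of_nonneg_left (h.trans (mul_le_mul_of_nonneg_left hpow (by positivity))) (by positivity)
    _ = _ := by ring

end Vale.Agent.P028.DS
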