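import Vale.Agent.P028.DS.EngineMain
import Vale.Agent.P028.DS.Interfaces

/-!
P028: peeling at a leaf of the engine and the homogeneous bound.
-/

namespace Vale.Agent.P028.DS

open Finset Real

open Classical in
/-- The weight of the partners of `v`. -/
noncomputable def degR (R : ℕ → Prop) (g : ℕ → ℝ) (W : Finset ℕ) : ℝ :=
  ∑ w ∈ W, if R w then g w else 0

lemma degR_nonneg {R : ℕ → Prop} {g : ℕ → ℝ} {W : Finset ℕ} (hg : ∀ w ∈ W, 0 < g w) :
    0 ≤ degR R g W := by
  classical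
  exact Finset.sum_nonneg fun w hw => by split_ifs <;> [exact (hg w hw).le; exact le_rfl]

/-- Peeling vertices with few partners. -/
theorem peel {e T : ℝ} (he : 1 / 2 ≤ e) (he1 : e ≤ 1) (hT : 0 < T) (R : ℕ → ℕ → Prop) (f g : ℕ → ℝ)
    {V W : Finset ℕ} (hf : ∀ v ∈ V, 0 < f v) (hg : ∀ w ∈ W, 0 < g w)
    (h : ∀ V' ⊆ V, ∀ W' ⊆ W, (∃ v ∈ V', ∃ w ∈ W', R v w) → ∃ v₀ ∈ V', ∃ w₀ ∈ W',
      degR (R v₀) g W' * degR (fun v => R v w₀) f V' ≤ e ^ 2 * T) :
    edgeSum R f g V W ≤ T ^ (1 - e) * ((∑ v ∈ V, f v) * ∑ w ∈ W, g w) ^ e := by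
  classical
  suffices main : ∀ n : ℕ, ∀ V', V' ⊆ V → ∀ W', W' ⊆ W → V'.card + W'.card = n →
      edgeSum R f g V' W' ≤ T ^ (1 - e) * ((∑ v ∈ V', f v) * ∑ w ∈ W', g w) ^ e from
    main _ V (Finset.Subset.refl _) W (Finset.Subset.refl _) rfl
  intro n
  induction n using Nat.strong_induction_on with
  | _ n IH =>
    intro V' hV W' hW hn
    have hf' : ∀ v ∈ V', 0 < f v := fun v hv => hf v (hV hv)
    have hg' : ∀ w ∈ W', 0 < g w := fun w hw => hg w (hW hw)
    set X := ∑ v ∈ V', f v with hX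
    set Y := ∑ w ∈ W', g w with hY
    have hX0 : 0 ≤ X := Finset.sum_nonneg fun v hv => (hf' v hv).le
    have hY0 : 0 ≤ Y := Finset.sum_nonneg fun w hw => (hg' w hw).le
    by_cases hE : ∃ v ∈ V', ∃ w ∈ W', R v w
    swap
    · push Not at hE
      have hz : edgeSum R f g V' W' = 0 :=
        Finset.sum_eq_zero fun v hv => Finset.sum_eq_zero fun w hw => if_neg (hE v hv w hw)
      rw [hz]
      positivity
    by_cases hsmall : X * Y ≤ T
    · have htriv : edgeSum R f g V' W' ≤ X * Y := by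
        rw [hX, hY, Finset.sum_mul_sum]
        refine Finset.sum_le_sum fun v hv => Finset.sum_le_sum fun w hw => ?_
        split_ifs
        · exact le_rfl
        · exact (mul_pos (hf' v hv) (hg' w hw)).le
      refine htriv.trans ?_
      calc X * Y = (X * Y) ^ (1 - e) * (X * Y) ^ e := by
            rw [← Real.rpow_add_of_nonneg (mul_nonneg hX0 hY0) (by linarith) (by linarith)]
            simp
        _ ≤ _ := mul_le_mul_of_nonneg_right (Real.rpow_le_rpow (mul_nonneg hX0 hY0) hsmall (by linarith))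
            (by positivity)
    push Not at hsmall
    obtain ⟨v₀, hv₀, w₀, hw₀, hdd⟩ := h V' hV W' hW hE
    have hXp : 0 < X := Finset.sum_pos hf' ⟨v₀, hv₀⟩
    have hYp : 0 < Y := Finset.sum_pos hg' ⟨w₀, hw₀⟩
    set K := T ^ (1 - e) with hK
    have hK0 : 0 < K := by positivity
    have dv := degR_nonneg (R := R v₀) hg'
    have dw := degR_nonneg (R := fun v => R v w₀) hf'
    by_cases hv : degR (R v₀) g W' ≤ e * K * (X ^ e / X) * Y ^ e
    · have hsum : ∑ v ∈ V'.erase v₀, f v = X - f v₀ := by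
        rw [hX, ← Finset.add_sum_erase V' f hv₀]; ring
      have hfX : f v₀ ≤ X := Finset.single_le_sum (fun v hv => (hf' v hv).le) hv₀
      have h1 := IH _ (by rw [← hn, Finset.card_erase_of_mem hv₀]; have := Finset.card_pos.2 ⟨v₀, hv₀⟩; omega)
        (V'.erase v₀) ((Finset.erase_subset _ _).trans hV) W' hW rfl
      rw [hsum, Real.mul_rpow (by linarith) hY0] at h1
      have h2 := mul_le_mul_of_nonneg_left hv (hf' v₀ hv₀).le
      have h3 := mul_le_mul_of_nonneg_left (mul_le_mul_of_nonneg_right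
        (sub_rpow_le (by linarith) he1 hXp (hf' v₀ hv₀).le hfX) (Real.rpow_nonneg hY0 e)) hK0.le
      have e0 : edgeSum R f g V' W' = f v₀ * degR (R v₀) g W' + edgeSum R f g (V'.erase v₀) W' := by
        unfold edgeSum degR
        rw [← Finset.add_sum_erase V' _ hv₀, Finset.mul_sum]
        congr 1
        exact Finset.sum_congr rfl fun w _ => by split_ifs <;> ring
      rw [e0, Real.mul_rpow hX0 hY0]
      have e1 : X ^ e * (1 - e * (f v₀ / X)) * Y ^ e * K + f v₀ * (e * K * (X ^ e / X) * Y ^ e) =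
          K * (X ^ e * Y ^ e) := by ring
      linarith
    · have hw : degR (fun v => R v w₀) f V' ≤ e * K * (Y ^ e / Y) * X ^ e := by
        by_contra hw
        push Not at hv hw
        have h1 : e * K * (X ^ e / X) * Y ^ e * (e * K * (Y ^ e / Y) * X ^ e) <
            degR (R v₀) g W' * degR (fun v => R v w₀) f V' :=
          mul_lt_mul'' hv hw (by positivity) (by positivity)
        have h2 : e ^ 2 * T ≤ e * K * (X ^ e / X) * Y ^ e * (e * K * (Y ^ e / Y) * X ^ e) := by
          have hXY : 0 < X * Y := mul_pos hXp hYp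
          have e2 : e * K * (X ^ e / X) * Y ^ e * (e * K * (Y ^ e / Y) * X ^ e) =
              e ^ 2 * (T ^ (2 - 2 * e) * (X * Y) ^ (2 * e - 1)) := by
            have hd : (X * Y) ^ (2 * e - 1) = (X ^ e * X ^ e) * (Y ^ e * Y ^ e) / (X * Y) := by
              rw [Real.rpow_sub_one hXY.ne', two_mul, Real.rpow_add hXY, Real.mul_rpow hX0 hY0]
              ring
            have hT2 : T ^ (2 - 2 * e) = K * K := by rw [hK, ← Real.rpow_add hT]; ring_nf
            rw [hd, hT2]
            field_simp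
          rw [e2]
          refine mul_le_mul_of_nonneg_left ?_ (sq_nonneg _)
          calc T = T ^ (2 - 2 * e) * T ^ (2 * e - 1) := by
                rw [← Real.rpow_add hT, show 2 - 2 * e + (2 * e - 1) = (1 : ℝ) by ring, Real.rpow_one]
            _ ≤ _ := mul_le_mul_of_nonneg_left (Real.rpow_le_rpow hT.le hsmall.le (by linarith))
                (Real.rpow_nonneg hT.le _)
        linarith
      have hsum : ∑ w ∈ W'.erase w₀, g w = Y - g w₀ := by
        rw [hY, ← Finset.add_sum_erase W' g hw₀]; ring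
      have hgY : g w₀ ≤ Y := Finset.single_le_sum (fun v hv => (hg' v hv).le) hw₀
      have h1 := IH _ (by rw [← hn, Finset.card_erase_of_mem hw₀]; have := Finset.card_pos.2 ⟨w₀, hw₀⟩; omega)
        V' hV (W'.erase w₀) ((Finset.erase_subset _ _).trans hW) rfl
      rw [hsum, Real.mul_rpow hX0 (by linarith)] at h1
      have h2 := mul_le_mul_of_nonneg_left hw (hg' w₀ hw₀).le
      have h3 := mul_le_mul_of_nonneg_left (mul_le_mul_of_nonneg_left
        (sub_rpow_le (by linarith) he1 hYp (hg' w₀ hw₀).le hgY) (Real.rpow_nonneg hX0 e)) hK0.le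
      have e0 : edgeSum R f g V' W' =
          g w₀ * degR (fun v => R v w₀) f V' + edgeSum R f g V' (W'.erase w₀) := by
        unfold edgeSum degR
        rw [Finset.mul_sum, ← Finset.sum_add_distrib]
        refine Finset.sum_congr rfl fun v _ => ?_
        rw [← Finset.add_sum_erase W' _ hw₀]
        congr 1
        split_ifs <;> ring
      rw [e0, Real.mul_rpow hX0 hY0]
      have e1 : X ^ e * (Y ^ e * (1 - e * (g w₀ / Y))) * K + g w₀ * (e * K * (Y ^ e / Y) * X ^ e) =
          K * (X ^ e * Y ^ e) := by ring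
      linarith

/-- A product of prime powers. -/
def prodPow (S : Finset ℕ) (u : ℕ → ℕ) : ℕ := ∏ p ∈ S, p ^ u p

lemma prodPow_pos {S : Finset ℕ} (hS : ∀ p ∈ S, p.Prime) (u : ℕ → ℕ) : 0 < prodPow S u :=
  Finset.prod_pos fun p hp => pow_pos (hS p hp).pos _

lemma prodPow_coprime {S : Finset ℕ} (hS : ∀ p ∈ S, p.Prime) {u u' : ℕ → ℕ}
    (h : ∀ p ∈ S, u p = 0 ∨ u' p = 0) : (prodPow S u).Coprime (prodPow S u') := by
  refine Nat.Coprime.prod_left fun p hp => Nat.Coprime.prod_right fun l hl => ?_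
  by_cases hpl : p = l
  · subst hpl
    rcases h p hp with h0 | h0 <;> simp [h0]
  · exact Nat.coprime_pow_primes _ _ (hS p hp) (hS l hl) hpl

lemma factorization_prodPow {S : Finset ℕ} (hS : ∀ p ∈ S, p.Prime) (u : ℕ → ℕ) {l : ℕ} (hl : l ∈ S) :
    (prodPow S u).factorization l = u l := by
  classical
  rw [prodPow, Nat.factorization_prod_apply fun p hp => (pow_pos (hS p hp).pos _).ne',
    Finset.sum_eq_single l]
  · rw [(hS l hl).factorization_pow, Finsupp.single_eq_same]
  · intro p hp hpl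
    rw [(hS p hp).factorization_pow, Finsupp.single_eq_of_ne (Ne.symm hpl)]
  · exact fun h => absurd hl h

lemma eq_prodPow {S : Finset ℕ} {n : ℕ} (hn : 0 < n) (hsup : n.primeFactors ⊆ S) :
    n = prodPow S (fun p => n.factorization p) := by
  conv_lhs => rw [← Nat.prod_factorization_pow_eq_self hn.ne', Finsupp.prod, Nat.support_factorization]
  refine Finset.prod_subset hsup fun p _ hp => ?_
  rw [← Nat.support_factorization, Finsupp.notMem_support_iff] at hp
  rw [hp, pow_zero]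

lemma cof_eq {S : Finset ℕ} {v w : ℕ} (hv : 0 < v) (hw : 0 < w) (hsup : v.primeFactors ⊆ S) :
    cof v w = prodPow S (fun p => v.factorization p - w.factorization p) := by
  have hdvd : v.gcd w ∣ v := Nat.gcd_dvd_left _ _
  have hpos : 0 < cof v w :=
    Nat.div_pos (Nat.le_of_dvd hv hdvd) (Nat.gcd_pos_of_pos_left _ hv)
  conv_lhs => rw [eq_prodPow hpos ((Nat.primeFactors_mono (Nat.div_dvd_of_dvd hdvd) hv.ne').trans hsup)]
  refine Finset.prod_congr rfl fun p _ => ?_
  congr 1
  simp only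
  rw [cof, Nat.factorization_div hdvd, Nat.factorization_gcd hv.ne' hw.ne', Finsupp.tsub_apply,
    Finsupp.inf_apply]
  omega

lemma cof_dvd (v w : ℕ) : cof v w ∣ v := Nat.div_dvd_of_dvd (Nat.gcd_dvd_left _ _)

open Classical in
/-- The open primes. -/
noncomputable def openP (S V W : Finset ℕ) : Finset ℕ := S.filter fun p => ¬ Res V W p

open Classical in
/-- The resolved primes. -/
noncomputable def resP (S V W : Finset ℕ) : Finset ℕ := S.filter fun p => Res V W p

/-- The resolved part of the first cofactor. -/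
noncomputable def resA (S V W : Finset ℕ) : ℕ := prodPow (resP S V W) fun p => expo V p - expo W p

/-- The resolved part of the second cofactor. -/
noncomputable def resB (S V W : Finset ℕ) : ℕ := prodPow (resP S V W) fun p => expo W p - expo V p

/-- The part of `v` above the center. -/
noncomputable def above (S V W : Finset ℕ) (k : ℕ → ℕ) (v : ℕ) : ℕ :=
  prodPow (openP S V W) fun p => v.factorization p - k p

/-- The part of `v` below the center. -/
noncomputable def below (S V W : Finset ℕ) (k : ℕ → ℕ) (v : ℕ) : ℕ :=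
  prodPow (openP S V W) fun p => k p - v.factorization p

section Struct

variable {S V W : Finset ℕ} {k : ℕ → ℕ}

lemma openP_prime (hS : ∀ p ∈ S, p.Prime) : ∀ p ∈ openP S V W, p.Prime := fun p hp => by
  classical exact hS p (Finset.mem_filter.1 hp).1

lemma resP_prime (hS : ∀ p ∈ S, p.Prime) : ∀ p ∈ resP S V W, p.Prime := fun p hp => by
  classical exact hS p (Finset.mem_filter.1 hp).1

lemma above_pos (hS : ∀ p ∈ S, p.Prime) (v : ℕ) : 0 < above S V W k v := prodPow_pos (openP_prime hS) _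
lemma below_pos (hS : ∀ p ∈ S, p.Prime) (v : ℕ) : 0 < below S V W k v := prodPow_pos (openP_prime hS) _
lemma resA_pos (hS : ∀ p ∈ S, p.Prime) : 0 < resA S V W := prodPow_pos (resP_prime hS) _
lemma resB_pos (hS : ∀ p ∈ S, p.Prime) : 0 < resB S V W := prodPow_pos (resP_prime hS) _

lemma Clean.symm {v w : ℕ} (h : Clean S V W k v w) : Clean S W V k w v := fun p hp hr =>
  (h p hp fun hres => hr ⟨hres.2, hres.1⟩).symm

/-- The cofactors on a clean edge. -/
lemma cof_clean_left {v w : ℕ} (hv : v ∈ V) (hw : w ∈ W) (hv0 : 0 < v) (hw0 : 0 < w)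
    (hsup : v.primeFactors ⊆ S) (hc : Clean S V W k v w) :
    cof v w = resA S V W * above S V W k v * below S V W k w := by
  classical
  rw [cof_eq hv0 hw0 hsup, resA, above, below, mul_assoc]
  unfold prodPow openP resP
  rw [← Finset.prod_mul_distrib, ← Finset.prod_filter_mul_prod_filter_not S (fun p => Res V W p)]
  congr 1
  · refine Finset.prod_congr rfl fun p hp => ?_
    obtain ⟨-, hr⟩ := Finset.mem_filter.1 hp
    simp only
    rw [expo_eq hr.1 hv, expo_eq hr.2 hw]
  · refine Finset.prod_congr rfl fun p hp => ?_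
    obtain ⟨hpS, hr⟩ := Finset.mem_filter.1 hp
    rw [← pow_add]
    congr 1
    simp only
    rcases hc p hpS hr with h | h <;> omega

lemma cof_clean_right {v w : ℕ} (hv : v ∈ V) (hw : w ∈ W) (hv0 : 0 < v) (hw0 : 0 < w)
    (hsup : w.primeFactors ⊆ S) (hc : Clean S V W k v w) :
    cof w v = resB S V W * above S V W k w * below S V W k v := by
  classical
  rw [cof_eq hw0 hv0 hsup, resB, above, below, mul_assoc]
  unfold prodPow openP resP
  rw [← Finset.prod_mul_distrib, ← Finset.prod_filter_mul_prod_filter_not S (fun p => Res V W p)]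
  congr 1
  · refine Finset.prod_congr rfl fun p hp => ?_
    obtain ⟨-, hr⟩ := Finset.mem_filter.1 hp
    simp only
    rw [expo_eq hr.1 hv, expo_eq hr.2 hw]
  · refine Finset.prod_congr rfl fun p hp => ?_
    obtain ⟨hpS, hr⟩ := Finset.mem_filter.1 hp
    rw [← pow_add]
    congr 1
    simp only
    rcases hc p hpS hr with h | h <;> omega

/-- On a clean edge the two parts of the first cofactor are coprime. -/
lemma coprime_clean_left (hS : ∀ p ∈ S, p.Prime) {v w : ℕ} (hc : Clean S V W k v w) :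
    (above S V W k v).Coprime (below S V W k w) := by
  classical
  refine prodPow_coprime (openP_prime hS) fun p hp => ?_
  obtain ⟨hpS, hr⟩ := Finset.mem_filter.1 hp
  rcases hc p hpS hr with h | h <;> omega

/-- A vertex is determined by its parts above and below the center. -/
lemma parts_injOn_right (hS : ∀ p ∈ S, p.Prime) (hsup : ∀ w ∈ W, 0 < w ∧ w.primeFactors ⊆ S) :
    Set.InjOn (fun w => (above S V W k w, below S V W k w)) W := by
  classical
  intro w hw w' hw' hww
  simp only [Prod.mk.injEq] at hww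
  rw [eq_prodPow (hsup w hw).1 (hsup w hw).2, eq_prodPow (hsup w' hw').1 (hsup w' hw').2]
  refine Finset.prod_congr rfl fun p hp => ?_
  congr 1
  simp only
  by_cases hr : Res V W p
  · exact hr.2 w hw w' hw'
  · have hop : p ∈ openP S V W := Finset.mem_filter.2 ⟨hp, hr⟩
    have h1 := congrArg (fun n => n.factorization p) hww.1
    have h2 := congrArg (fun n => n.factorization p) hww.2
    simp only [above, below, factorization_prodPow (openP_prime hS) _ hop] at h1 h2
    omega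

lemma parts_injOn_left (hS : ∀ p ∈ S, p.Prime) (hsup : ∀ v ∈ V, 0 < v ∧ v.primeFactors ⊆ S) :
    Set.InjOn (fun v => (above S V W k v, below S V W k v)) V := by
  classical
  intro w hw w' hw' hww
  simp only [Prod.mk.injEq] at hww
  rw [eq_prodPow (hsup w hw).1 (hsup w hw).2, eq_prodPow (hsup w' hw').1 (hsup w' hw').2]
  refine Finset.prod_congr rfl fun p hp => ?_
  congr 1
  simp only
  by_cases hr : Res V W p
  · exact hr.1 w hw w' hw'
  · have hop : p ∈ openP S V W := Finset.mem_filter.2 ⟨hp, hr⟩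
    have h1 := congrArg (fun n => n.factorization p) hww.1
    have h2 := congrArg (fun n => n.factorization p) hww.2
    simp only [above, below, factorization_prodPow (openP_prime hS) _ hop] at h1 h2
    omega

lemma H_eq (P : Par) (hS : ∀ p ∈ S, p.Prime) :
    P.H S V W = ((resA S V W : ℝ) ^ P.α₁ * (resB S V W : ℝ) ^ P.α₂)⁻¹ := by
  classical
  have hp : ∀ p ∈ resP S V W, (0 : ℝ) < (p : ℝ) := fun p hp => by
    exact_mod_cast (resP_prime hS p hp).pos
  rw [resA, resB, prodPow, prodPow, Nat.cast_prod, Nat.cast_prod,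
    ← Real.finsetProd_rpow _ _ (fun p _ => Nat.cast_nonneg _) _,
    ← Real.finsetProd_rpow _ _ (fun p _ => Nat.cast_nonneg _) _,
    ← Finset.prod_mul_distrib, ← Finset.prod_inv_distrib, Par.H]
  rw [← Finset.prod_filter_mul_prod_filter_not S (fun p => Res V W p),
    Finset.prod_eq_one (s := S.filter fun p => ¬ Res V W p) fun p hp => by
      rw [Par.hfac, if_neg (Finset.mem_filter.1 hp).2], mul_one]
  refine Finset.prod_congr rfl fun p hpm => ?_
  rw [Par.hfac, if_pos (Finset.mem_filter.1 hpm).2, Par.wt, Par.q₁, Par.q₂]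
  push_cast
  have h0 := (hp p hpm).le
  rw [← Real.rpow_natCast, ← Real.rpow_natCast, ← Real.rpow_mul h0, ← Real.rpow_mul h0,
    ← Real.rpow_natCast, ← Real.rpow_natCast, ← Real.rpow_mul h0, ← Real.rpow_mul h0, mul_inv,
    ← Real.rpow_neg h0, ← Real.rpow_neg h0]
  congr 1 <;> ring_nf

variable {E : ℕ → ℕ → Prop} {f g : ℕ → ℝ}

/-- The sum of the reciprocal lower parts of the partners. -/
noncomputable def lowSum (S V W : Finset ℕ) (k : ℕ → ℕ) (R : ℕ → Prop) (W' : Finset ℕ) : ℝ :=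
  degR R (fun w => (1 : ℝ) / below S V W k w) W'

lemma lowSum_mono {R R' : ℕ → Prop} {W' : Finset ℕ} (h : ∀ w ∈ W', R w → R' w) :
    lowSum S V W k R W' ≤ lowSum S V W k R' W' := by
  classical
  refine Finset.sum_le_sum fun w hw => ?_
  split_ifs with h1 h2 h2
  · exact le_rfl
  · exact absurd (h w hw h1) h2
  · exact div_nonneg zero_le_one (Nat.cast_nonneg _)
  · exact le_rfl

/-- Peeling at a leaf. -/
theorem leaf_le (P : Par) (hS : ∀ p ∈ S, p.Prime) (hf : ∀ v ∈ V, 0 < f v) (hg : ∀ w ∈ W, 0 < g w)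
    {R : ℕ → ℕ → Prop} {κ : ℝ} (hκ : 0 < κ)
    (h : ∀ V' ⊆ V, ∀ W' ⊆ W, ∀ v₀ ∈ V', ∀ w₀ ∈ W', ∀ Aq Bq : ℝ,
      Aq = 1 / (g w₀ * below S V W k w₀) → Bq = 1 / (f v₀ * below S V W k v₀) →
      (∀ v ∈ V', ∀ w ∈ W', R v w →
        g w * below S V W k w ≤ 1 / Aq ∧ f v * below S V W k v ≤ 1 / Bq) →
      lowSum S V W k (R v₀) W' * lowSum S V W k (fun v => R v w₀) V' ≤
        κ * (resA S V W : ℝ) ^ P.η * (Aq / resA S V W) * (Bq / resB S V W)) :
    edgeSum R f g V W ≤
      (4 * κ) ^ (1 - P.e) * P.H S V W * ((∑ v ∈ V, f v) * ∑ w ∈ W, g w) ^ P.e := by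
  classical
  have ha : (0 : ℝ) < resA S V W := by exact_mod_cast resA_pos hS
  have hb : (0 : ℝ) < resB S V W := by exact_mod_cast resB_pos hS
  set T : ℝ := 4 * κ * ((resA S V W : ℝ) ^ P.η / (resA S V W * resB S V W)) with hT
  have hT0 : 0 < T := by positivity
  have hTpow : T ^ (1 - P.e) = (4 * κ) ^ (1 - P.e) * P.H S V W := by
    rw [hT, Real.mul_rpow (by positivity) (by positivity), H_eq P hS]
    congr 1
    rw [Real.div_rpow (by positivity) (by positivity), Real.mul_rpow ha.le hb.le, ← Real.rpow_mul ha.le,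
      ← div_div, ← Real.rpow_sub ha, div_eq_mul_inv, mul_inv, ← Real.rpow_neg ha.le]
    congr 1
    · congr 1; rw [Par.α₁]; ring
  rw [← hTpow]
  refine peel P.he.le P.e_lt.le hT0 R f g hf hg fun V' hV W' hW hE => ?_
  obtain ⟨va, hva, wa, hwa, hR⟩ := hE
  obtain ⟨v₀, hv₀, hmax⟩ := Finset.exists_max_image (V'.filter fun v => ∃ w ∈ W', R v w)
    (fun v => f v * below S V W k v) ⟨va, Finset.mem_filter.2 ⟨hva, wa, hwa, hR⟩⟩
  obtain ⟨w₀, hw₀, hmax'⟩ := Finset.exists_max_image (W'.filter fun w => ∃ v ∈ V', R v w)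
    (fun w => g w * below S V W k w) ⟨wa, Finset.mem_filter.2 ⟨hwa, va, hva, hR⟩⟩
  have hv₀' := (Finset.mem_filter.1 hv₀).1
  have hw₀' := (Finset.mem_filter.1 hw₀).1
  refine ⟨v₀, hv₀', w₀, hw₀', ?_⟩
  have hbp : ∀ u, (0 : ℝ) < below S V W k u := fun u => by exact_mod_cast below_pos hS u
  have hA0 : 0 < g w₀ * below S V W k w₀ := mul_pos (hg _ (hW hw₀')) (hbp _)
  have hB0 : 0 < f v₀ * below S V W k v₀ := mul_pos (hf _ (hV hv₀')) (hbp _)
  have key := h V' hV W' hW v₀ hv₀' w₀ hw₀' _ _ rfl rfl (fun v hv w hw hvw => by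
    rw [one_div_one_div, one_div_one_div]
    exact ⟨hmax' w (Finset.mem_filter.2 ⟨hw, v, hv, hvw⟩),
      hmax v (Finset.mem_filter.2 ⟨hv, w, hw, hvw⟩)⟩)
  have h1 : degR (R v₀) g W' ≤ g w₀ * below S V W k w₀ * lowSum S V W k (R v₀) W' := by
    rw [lowSum, degR, degR, Finset.mul_sum]
    refine Finset.sum_le_sum fun w hw => ?_
    split_ifs with hr
    · rw [mul_one_div, le_div_iff₀ (hbp w)]
      exact hmax' w (Finset.mem_filter.2 ⟨hw, v₀, hv₀', hr⟩)
    · simp
  have h2 : degR (fun v => R v w₀) f V' ≤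
      f v₀ * below S V W k v₀ * lowSum S V W k (fun v => R v w₀) V' := by
    rw [lowSum, degR, degR, Finset.mul_sum]
    refine Finset.sum_le_sum fun v hv => ?_
    split_ifs with hr
    · rw [mul_one_div, le_div_iff₀ (hbp v)]
      exact hmax v (Finset.mem_filter.2 ⟨hv, w₀, hw₀', hr⟩)
    · simp
  refine (mul_le_mul h1 h2 (degR_nonneg fun v hv => hf v (hV hv))
    ((degR_nonneg fun w hw => hg w (hW hw)).trans h1)).trans ?_
  have key' := mul_le_mul_of_nonneg_left key (mul_nonneg hA0.le hB0.le)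
  refine le_trans (le_of_eq (by ring)) (key'.trans ?_)
  have he2 : 1 / 4 ≤ P.e ^ 2 := by nlinarith [P.he]
  calc _ = κ * ((resA S V W : ℝ) ^ P.η / (resA S V W * resB S V W)) *
        ((g w₀ * below S V W k w₀ * (1 / (g w₀ * below S V W k w₀))) *
          (f v₀ * below S V W k v₀ * (1 / (f v₀ * below S V W k v₀)))) := by ring
    _ = 1 / 4 * T := by
        rw [mul_one_div_cancel hA0.ne', mul_one_div_cancel hB0.ne', hT]; ring
    _ ≤ _ := mul_le_mul_of_nonneg_right he2 hT0.le

/-- The upper part of a partner is bounded. -/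
lemma above_le {v w : ℕ} (hv : v ∈ V) (hw : w ∈ W) (hv0 : 0 < v) (hw0 : 0 < w)
    (hsup : w.primeFactors ⊆ S) (hc : Clean S V W k v w) (hS : ∀ p ∈ S, p.Prime) (hfv : 0 < f v)
    (hD : (cof w v : ℝ) * f v ≤ 1) :
    (above S V W k w : ℝ) ≤ 1 / (f v * below S V W k v) / resB S V W := by
  have hb : (0 : ℝ) < resB S V W := by exact_mod_cast resB_pos hS
  have hl : (0 : ℝ) < below S V W k v := by exact_mod_cast below_pos hS v
  rw [cof_clean_right hv hw hv0 hw0 hsup hc] at hD
  push_cast at hD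
  rw [div_div, le_div_iff₀ (by positivity)]
  linarith

/-- The trivial count of partners. -/
lemma lowSum_le (hS : ∀ p ∈ S, p.Prime) (hV0 : ∀ v ∈ V, 0 < v ∧ v.primeFactors ⊆ S)
    (hW0 : ∀ w ∈ W, 0 < w ∧ w.primeFactors ⊆ S) {W' : Finset ℕ} (hW : W' ⊆ W) {v : ℕ} (hv : v ∈ V)
    {R : ℕ → Prop} (hfv : 0 < f v)
    (hR : ∀ w ∈ W', R w → Clean S V W k v w ∧ (cof w v : ℝ) * f v ≤ 1) :
    lowSum S V W k R W' ≤ 1 / (f v * below S V W k v) / resB S V W * divSum v := by
  classical
  set M : ℝ := 1 / (f v * below S V W k v) / resB S V W with hM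
  have hM0 : 0 ≤ M := by positivity
  set φ := fun w => (above S V W k w, below S V W k w)
  rw [lowSum, degR, ← Finset.sum_filter]
  have hinj : Set.InjOn φ (W'.filter fun w => R w) :=
    (parts_injOn_right hS hW0).mono fun w hw => hW (Finset.mem_filter.1 hw).1
  rw [← Finset.sum_image (f := fun x : ℕ × ℕ => (1 : ℝ) / x.2) hinj]
  refine (Finset.sum_le_sum_of_subset_of_nonneg (t := Finset.Icc 1 ⌊M⌋₊ ×ˢ v.divisors) ?_
    fun x _ _ => div_nonneg zero_le_one (Nat.cast_nonneg _)).trans ?_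
  · intro x hx
    obtain ⟨w, hw, rfl⟩ := Finset.mem_image.1 hx
    obtain ⟨hwW, hr⟩ := Finset.mem_filter.1 hw
    obtain ⟨hc, hD⟩ := hR w hwW hr
    have h0 := hV0 v hv
    have h1 := hW0 w (hW hwW)
    refine Finset.mem_product.2 ⟨Finset.mem_Icc.2 ⟨above_pos hS w, Nat.le_floor ?_⟩,
      Nat.mem_divisors.2 ⟨?_, h0.1.ne'⟩⟩
    · exact above_le hv (hW hwW) h0.1 h1.1 h1.2 hc hS hfv hD
    · refine dvd_trans ?_ (cof_dvd v w)
      rw [cof_clean_left hv (hW hwW) h0.1 h1.1 h0.2 hc]
      exact dvd_mul_left _ _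
  · simp only [Finset.sum_product, Finset.sum_const, nsmul_eq_mul, Nat.card_Icc, Nat.add_sub_cancel]
    exact mul_le_mul_of_nonneg_right (Nat.floor_le hM0)
      (Finset.sum_nonneg fun d _ => div_nonneg zero_le_one (Nat.cast_nonneg _))

/-- The trivial count from the other side. -/
lemma lowSum_le' (hS : ∀ p ∈ S, p.Prime) (hV0 : ∀ v ∈ V, 0 < v ∧ v.primeFactors ⊆ S)
    (hW0 : ∀ w ∈ W, 0 < w ∧ w.primeFactors ⊆ S) {V' : Finset ℕ} (hV : V' ⊆ V) {w : ℕ} (hw : w ∈ W)
    {R : ℕ → Prop} (hgw : 0 < g w)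
    (hR : ∀ v ∈ V', R v → Clean S V W k v w ∧ (cof v w : ℝ) * g w ≤ 1) :
    lowSum S V W k R V' ≤ 1 / (g w * below S V W k w) / resA S V W * divSum w := by
  classical
  set M : ℝ := 1 / (g w * below S V W k w) / resA S V W with hM
  have hM0 : 0 ≤ M := by positivity
  set φ := fun v => (above S V W k v, below S V W k v)
  rw [lowSum, degR, ← Finset.sum_filter]
  have hinj : Set.InjOn φ (V'.filter fun v => R v) :=
    (parts_injOn_left hS hV0).mono fun v hv => hV (Finset.mem_filter.1 hv).1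
  rw [← Finset.sum_image (f := fun x : ℕ × ℕ => (1 : ℝ) / x.2) hinj]
  refine (Finset.sum_le_sum_of_subset_of_nonneg (t := Finset.Icc 1 ⌊M⌋₊ ×ˢ w.divisors) ?_
    fun x _ _ => div_nonneg zero_le_one (Nat.cast_nonneg _)).trans ?_
  · intro x hx
    obtain ⟨v, hv, rfl⟩ := Finset.mem_image.1 hx
    obtain ⟨hvV, hr⟩ := Finset.mem_filter.1 hv
    obtain ⟨hc, hD⟩ := hR v hvV hr
    have h0 := hW0 w hw
    have h1 := hV0 v (hV hvV)
    refine Finset.mem_product.2 ⟨Finset.mem_Icc.2 ⟨above_pos hS v, Nat.le_floor ?_⟩,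
      Nat.mem_divisors.2 ⟨?_, h0.1.ne'⟩⟩
    · have ha : (0 : ℝ) < resA S V W := by exact_mod_cast resA_pos hS
      have hl : (0 : ℝ) < below S V W k w := by exact_mod_cast below_pos hS w
      rw [cof_clean_left (hV hvV) hw h1.1 h0.1 h1.2 hc] at hD
      push_cast at hD
      rw [hM, div_div, le_div_iff₀ (by positivity)]
      linarith
    · refine dvd_trans ?_ (cof_dvd w v)
      rw [cof_clean_right (hV hvV) hw h1.1 h0.1 h0.2 hc]
      exact dvd_mul_left _ _
  · simp only [Finset.sum_product, Finset.sum_const, nsmul_eq_mul, Nat.card_Icc, Nat.add_sub_cancel]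
    exact mul_le_mul_of_nonneg_right (Nat.floor_le hM0)
      (Finset.sum_nonneg fun d _ => div_nonneg zero_le_one (Nat.cast_nonneg _))

end Struct

/-- The engine with the trivial count at the leaves. -/
theorem engine_trivial (P : Par) : ∃ C : ℝ, 0 < C ∧
    ∀ (E : ℕ → ℕ → Prop) (f g : ℕ → ℝ) (V W : Finset ℕ) (ρ : ℝ), 1 ≤ ρ → Admissible E f g →
      (∀ v ∈ V, divSum v ≤ ρ) → (∀ w ∈ W, divSum w ≤ ρ) →
      edgeSum E f g V W ≤
        C * (ρ ^ 2) ^ (1 - P.e) * ((∑ v ∈ V, f v) * ∑ w ∈ W, g w) ^ P.e := by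
  classical
  obtain ⟨C, hC, heng⟩ := engine P
  refine ⟨C * 4 ^ (1 - P.e), by positivity, ?_⟩
  intro E f g V W ρ hρ hE hdv hdw
  set V0 := V.filter (fun v => 0 < f v ∧ 0 < v)
  set W0 := W.filter (fun w => 0 < g w ∧ 0 < w)
  set S := (V0 ∪ W0).biUnion Nat.primeFactors with hSd
  have hS : ∀ p ∈ S, p.Prime := fun p hp => by
    obtain ⟨n, -, hn⟩ := Finset.mem_biUnion.1 hp
    exact Nat.prime_of_mem_primeFactors hn
  have hsupV : ∀ v ∈ V0, 0 < v ∧ v.primeFactors ⊆ S := fun v hv =>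
    ⟨(Finset.mem_filter.1 hv).2.2, fun p hp =>
      Finset.mem_biUnion.2 ⟨v, Finset.mem_union_left _ hv, hp⟩⟩
  have hsupW : ∀ v ∈ W0, 0 < v ∧ v.primeFactors ⊆ S := fun v hv =>
    ⟨(Finset.mem_filter.1 hv).2.2, fun p hp =>
      Finset.mem_biUnion.2 ⟨v, Finset.mem_union_right _ hv, hp⟩⟩
  have hred : edgeSum E f g V W = edgeSum E f g V0 W0 := by
    unfold edgeSum
    rw [Finset.sum_filter]
    refine Finset.sum_congr rfl fun v _ => ?_
    by_cases hv : 0 < f v ∧ 0 < v
    · rw [if_pos hv, Finset.sum_filter]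
      refine Finset.sum_congr rfl fun w _ => ?_
      by_cases hw : 0 < g w ∧ 0 < w
      · rw [if_pos hw]
      · rw [if_neg hw]
        split_ifs with he
        · have : g w = 0 := by
            rcases not_and_or.1 hw with h | h
            · exact le_antisymm (not_lt.1 h) (hE.g_nonneg w)
            · exact absurd (hE.right_pos v w he) h
          rw [this, mul_zero]
        · rfl
    · rw [if_neg hv]
      refine Finset.sum_eq_zero fun w _ => ?_
      split_ifs with he
      · have : f v = 0 := by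
          rcases not_and_or.1 hv with h | h
          · exact le_antisymm (not_lt.1 h) (hE.f_nonneg v)
          · exact absurd (hE.left_pos v w he) h
        rw [this, zero_mul]
      · rfl
  have hXY : ((∑ v ∈ V0, f v) * ∑ w ∈ W0, g w) ^ P.e ≤ ((∑ v ∈ V, f v) * ∑ w ∈ W, g w) ^ P.e := by
    refine Real.rpow_le_rpow ?_ ?_ P.e_pos.le
    · exact mul_nonneg (Finset.sum_nonneg fun v _ => hE.f_nonneg v) (Finset.sum_nonneg fun w _ => hE.g_nonneg w)
    · exact mul_le_mul (Finset.sum_le_sum_of_subset_of_nonneg (Finset.filter_subset _ _) fun v _ _ => hE.f_nonneg v)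
        (Finset.sum_le_sum_of_subset_of_nonneg (Finset.filter_subset _ _) fun w _ _ => hE.g_nonneg w)
        (Finset.sum_nonneg fun w _ => hE.g_nonneg w) (Finset.sum_nonneg fun v _ => hE.f_nonneg v)
  rw [hred]
  have hρ0 : 0 < ρ := by linarith
  have h := heng S E f g V0 W0 ((4 * ρ ^ 2) ^ (1 - P.e)) (by positivity) hS
    (fun v hv => (Finset.mem_filter.1 hv).2.1) (fun w hw => (Finset.mem_filter.1 hw).2.1) ?_
  · refine h.trans ?_
    rw [Real.mul_rpow (by norm_num) (sq_nonneg ρ), ← mul_assoc]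
    exact mul_le_mul_of_nonneg_left hXY (by positivity)
  intro V1 hV1 W1 hW1 k
  have hf1 : ∀ v ∈ V1, 0 < f v := fun v hv => (Finset.mem_filter.1 (hV1 hv)).2.1
  have hg1 : ∀ w ∈ W1, 0 < g w := fun w hw => (Finset.mem_filter.1 (hW1 hw)).2.1
  refine leaf_le P hS hf1 hg1 (k := k) (κ := ρ ^ 2) (by positivity) ?_
  intro V' hV W' hW v₀ hv₀ w₀ hw₀ Aq Bq hA hB _
  have h1 := lowSum_le (R := fun w => E v₀ w ∧ Clean S V1 W1 k v₀ w) hS
    (fun v hv => hsupV v (hV1 hv)) (fun w hw => hsupW w (hW1 hw)) hW (hV hv₀) (hf1 _ (hV hv₀))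
    (fun w _ hr => ⟨hr.2, hE.f_le v₀ w hr.1⟩)
  have h2 := lowSum_le' (R := fun v => E v w₀ ∧ Clean S V1 W1 k v w₀) hS
    (fun v hv => hsupV v (hV1 hv)) (fun w hw => hsupW w (hW1 hw)) hV (hW hw₀) (hg1 _ (hW hw₀))
    (fun v _ hr => ⟨hr.2, hE.g_le v w₀ hr.1⟩)
  rw [← hB] at h1
  rw [← hA] at h2
  have hra : (0 : ℝ) < resA S V1 W1 := by exact_mod_cast resA_pos hS
  have hrb : (0 : ℝ) < resB S V1 W1 := by exact_mod_cast resB_pos hS
  have hfp := hf1 _ (hV hv₀)
  have hgp := hg1 _ (hW hw₀)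
  have hA0 : 0 ≤ Aq := hA ▸ by positivity
  have hB0 : 0 ≤ Bq := hB ▸ by positivity
  have hdv0 := hdv v₀ (Finset.mem_filter.1 (hV1 (hV hv₀))).1
  have hdw0 := hdw w₀ (Finset.mem_filter.1 (hW1 (hW hw₀))).1
  have hone : (1 : ℝ) ≤ (resA S V1 W1 : ℝ) ^ P.η :=
    Real.one_le_rpow (by exact_mod_cast resA_pos hS) P.hη0
  have hs2 : 0 ≤ lowSum S V1 W1 k (fun v => E v w₀ ∧ Clean S V1 W1 k v w₀) V' :=
    Finset.sum_nonneg fun w _ => by
      split_ifs <;> [exact div_nonneg zero_le_one (Nat.cast_nonneg _); exact le_rfl]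
  calc _ ≤ (Bq / resB S V1 W1 * ρ) * (Aq / resA S V1 W1 * ρ) :=
        mul_le_mul (h1.trans (mul_le_mul_of_nonneg_left hdv0 (by positivity)))
          (h2.trans (mul_le_mul_of_nonneg_left hdw0 (by positivity))) hs2 (by positivity)
    _ = ρ ^ 2 * 1 * (Aq / resA S V1 W1) * (Bq / resB S V1 W1) := by ring
    _ ≤ _ := by gcongr

/-- The homogeneous bilinear bound. -/
theorem homog : HomogStatement := by
  intro ε hε hε1
  obtain ⟨C, hC, h⟩ := engine_trivial ⟨1 / 2 + ε, 0, by linarith, by linarith, le_rfl, by linarith⟩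
  refine ⟨C, hC, fun E f g V W ρ hρ hE hV hW => (h E f g V W ρ hρ hE hV hW).trans_eq ?_⟩
  rw [show (1 : ℝ) - (1 / 2 + ε) = 1 / 2 - ε by ring]

end Vale.Agent.P028.DS
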