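import Vale.Agent.P028.DS.Exc
import Vale.Agent.P028.DS.Leaf
import Vale.Agent.P028.DS.Count

/-!
P028, milestone A: the leaves of the engine on the large edges without an exceptional fraction.
-/

namespace Vale.Agent.P028.DS

open Finset Real

/-- No short resonance of `x`. -/
def NoRes (i : ℕ) (x μ : ℝ) : Prop :=
  ∀ Q : ℕ, 1 ≤ Q → Q ≤ znat i ^ 3 → ∀ P : ℤ, μ < |(Q : ℝ) * x - P|

/-- A count without resonance, in powers of `z`. -/
lemma card_noRes_le {i : ℕ} (hi : 1 ≤ i) {x t M : ℝ} (hM : 1 ≤ M) {S : Finset ℕ}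
    (hS : ∀ m ∈ S, (m : ℝ) ≤ M ∧ ∃ l : ℤ, |(m : ℝ) * x - t - l| ≤ 2 * lvl i)
    (h : NoRes i x (lvl i * zpar i ^ 8 / M)) :
    (S.card : ℝ) ≤ 17 * (M / zpar i ^ 3) + 4 * zpar i ^ 3 := by
  set z := zpar i with hzd
  set y := lvl i with hyd
  have hz1 : (1 : ℝ) ≤ z := one_le_zpar i
  have hz : 0 < z := by linarith
  have hy : 0 < y := lvl_pos' i
  have hy4 : y ≤ 1 / 4 := (lvl_lt_fifty hi).le.trans (by norm_num)
  have hK : (((znat i ^ 3 : ℕ)) : ℝ) = z ^ 3 := by rw [Nat.cast_pow, znat_cast]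
  have hc := count x t y (y * z ^ 8) M (znat i ^ 3) S hy hy4 (by positivity) hM
    (Nat.one_le_pow _ _ (znat_pos i)) hS h
  rw [hK] at hc
  have hy3 : z ^ 3 * y ≤ 1 := zpow_lvl_le_one (by unfold expN; norm_num)
  have h1 : 8 * y * M ≤ 8 * (M / z ^ 3) := by
    rw [mul_assoc]
    refine mul_le_mul_of_nonneg_left ?_ (by norm_num)
    rw [le_div_iff₀ (by positivity)]
    calc y * M * z ^ 3 = M * (z ^ 3 * y) := by ring
      _ ≤ M * 1 := mul_le_mul_of_nonneg_left hy3 (by linarith)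
      _ = M := mul_one M
  have h2 : 8 * z ^ 3 * y * M / (y * z ^ 8) ≤ 8 * (M / z ^ 3) := by
    rw [show 8 * z ^ 3 * y * M / (y * z ^ 8) = 8 * (M / z ^ 5) by field_simp]
    refine mul_le_mul_of_nonneg_left ?_ (by norm_num)
    exact div_le_div_of_nonneg_left (by linarith) (by positivity) (pow_le_pow_right₀ hz1 (by norm_num))
  have h3 : (1 : ℝ) ≤ z ^ 3 := one_le_pow₀ hz1
  linarith

section Sides

variable {S V W : Finset ℕ} {k : ℕ → ℕ} {f g : ℕ → ℝ}

open Classical in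
/-- Partners of a first vertex, grouped by their upper part. -/
lemma lowSum_fibre (hS : ∀ p ∈ S, p.Prime) (hV0 : ∀ v ∈ V, 0 < v ∧ v.primeFactors ⊆ S)
    (hW0 : ∀ w ∈ W, 0 < w ∧ w.primeFactors ⊆ S) {W' : Finset ℕ} (hW : W' ⊆ W) {v : ℕ} (hv : v ∈ V)
    {R : ℕ → Prop} (hfv : 0 < f v) {c : ℝ} (hc : 0 ≤ c)
    (hR : ∀ w ∈ W', R w → Clean S V W k v w ∧ (cof w v : ℝ) * f v ≤ 1)
    (hfib : ∀ m, ∑ w ∈ W'.filter (fun w => R w ∧ above S V W k w = m),
      (1 : ℝ) / below S V W k w ≤ c) :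
    lowSum S V W k R W' ≤ 1 / (f v * below S V W k v) / resB S V W * c := by
  classical
  set M : ℝ := 1 / (f v * below S V W k v) / resB S V W with hM
  have hM0 : 0 ≤ M := by positivity
  rw [lowSum, degR, ← Finset.sum_filter]
  rw [← Finset.sum_fiberwise_of_maps_to (s := W'.filter fun w => R w) (t := Finset.Icc 1 ⌊M⌋₊)
    (g := fun w => above S V W k w) (fun w hw => ?_)]
  · refine (Finset.sum_le_sum fun m _ => (le_of_eq ?_).trans (hfib m)).trans ?_
    · rw [Finset.filter_filter]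
    · rw [Finset.sum_const, nsmul_eq_mul, Nat.card_Icc, Nat.add_sub_cancel]
      exact mul_le_mul_of_nonneg_right (Nat.floor_le hM0) hc
  · obtain ⟨hwW, hr⟩ := Finset.mem_filter.1 hw
    obtain ⟨hcl, hD⟩ := hR w hwW hr
    refine Finset.mem_Icc.2 ⟨above_pos hS w, Nat.le_floor ?_⟩
    exact above_le hv (hW hwW) (hV0 v hv).1 (hW0 w (hW hwW)).1 (hW0 w (hW hwW)).2 hcl hS hfv hD

open Classical in
/-- Partners of a second vertex, grouped by their lower part. -/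
lemma lowSum_fibre' (hS : ∀ p ∈ S, p.Prime) (hV0 : ∀ v ∈ V, 0 < v ∧ v.primeFactors ⊆ S)
    (hW0 : ∀ w ∈ W, 0 < w ∧ w.primeFactors ⊆ S) {V' : Finset ℕ} (hV : V' ⊆ V) {w : ℕ} (hw : w ∈ W)
    {R : ℕ → Prop} {c : ℝ}
    (hR : ∀ v ∈ V', R v → Clean S V W k v w)
    (hfib : ∀ α, ((V'.filter (fun v => R v ∧ below S V W k v = α)).card : ℝ) ≤ c) :
    lowSum S V W k R V' ≤ c * divSum w := by
  classical
  rw [lowSum, degR, ← Finset.sum_filter]
  rw [← Finset.sum_fiberwise_of_maps_to (s := V'.filter fun v => R v) (t := w.divisors)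
    (g := fun v => below S V W k v) (fun v hv => ?_)]
  · rw [divSum, Finset.mul_sum]
    refine Finset.sum_le_sum fun α _ => ?_
    rw [Finset.sum_congr rfl (fun v hv => by rw [(Finset.mem_filter.1 hv).2] :
      ∀ v ∈ (V'.filter fun v => R v).filter (fun v => below S V W k v = α),
        (1 : ℝ) / below S V W k v = 1 / α), Finset.sum_const, nsmul_eq_mul]
    refine mul_le_mul_of_nonneg_right ((le_of_eq ?_).trans (hfib α)) (div_nonneg zero_le_one (Nat.cast_nonneg α))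
    rw [Finset.filter_filter]
  · obtain ⟨hvV, hr⟩ := Finset.mem_filter.1 hv
    have h1 := hV0 v (hV hvV)
    have h0 := hW0 w hw
    refine Nat.mem_divisors.2 ⟨dvd_trans ?_ (cof_dvd w v), h0.1.ne'⟩
    rw [cof_clean_right (hV hvV) hw h1.1 h0.1 h0.2 (hR v hvV hr)]
    exact dvd_mul_left _ _

end Sides

/-- From a nearby fraction to an exceptional fraction. -/
lemma exc_of_frac {γ : ℝ} {i a : ℕ} {P : ℤ} {D₀ Q : ℕ} (hD₀ : 0 < D₀) (hQ : 0 < Q)
    (hQ' : Q ≤ znat i ^ 6) (hle : (((P : ℚ) / (D₀ : ℚ)).den : ℝ) ≤ zpar i ^ fracExp)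
    (hdvd : ((P : ℚ) / (D₀ : ℚ)).den ∣ Q * a)
    (herr : |(D₀ : ℝ) * γ - P| ≤ D₀ * (zpar i ^ 12 * lvl i) / a) : Exc γ i a := by
  set q : ℚ := (P : ℚ) / (D₀ : ℚ) with hq
  refine ⟨q.num, q.den, Q, q.den_pos, Int.isCoprime_iff_nat_coprime.2 ?_, hQ, hQ', hle, hdvd, ?_⟩
  · simpa using q.reduced
  have hden : (0 : ℝ) < q.den := by exact_mod_cast q.den_pos
  have hD : (0 : ℝ) < D₀ := by exact_mod_cast hD₀
  have he : (q.num : ℝ) / q.den = (P : ℝ) / D₀ := by
    have h1 : ((q : ℚ) : ℝ) = (q.num : ℝ) / q.den := by rw [Rat.cast_def]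
    have h2 : ((q : ℚ) : ℝ) = (P : ℝ) / D₀ := by rw [hq]; push_cast; rfl
    rw [← h1, h2]
  have e2 : (q.den : ℝ) * γ - q.num = (q.den : ℝ) / D₀ * ((D₀ : ℝ) * γ - P) := by
    have : (q.num : ℝ) = q.den * ((P : ℝ) / D₀) := by rw [← he]; field_simp
    rw [this]; field_simp
  rw [e2, abs_mul, abs_of_pos (div_pos hden hD)]
  refine (mul_le_mul_of_nonneg_left herr (div_pos hden hD).le).trans (le_of_eq ?_)
  field_simp

lemma den_dvd_nat (P : ℤ) (D : ℕ) : ((P : ℚ) / (D : ℚ)).den ∣ D := by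
  have h : (((P : ℚ) / ((D : ℤ) : ℚ)).den : ℤ) ∣ (D : ℤ) := by
    rw [← Rat.divInt_eq_div]; exact Rat.den_dvd _ _
  exact_mod_cast h

section Leaf

variable {γ : ℝ} {ψ : ℕ → ℝ} {i : ℕ} {S V W : Finset ℕ} {k : ℕ → ℕ} {g : ℕ → ℝ}

/-- The scale of the upper parts of the partners of `w`. -/
noncomputable def scaleW (S V W : Finset ℕ) (k : ℕ → ℕ) (g : ℕ → ℝ) (w : ℕ) : ℝ :=
  1 / ((resA S V W : ℝ) * below S V W k w * g w)

/-- The lower part is huge. -/
def Tail (i : ℕ) (S V W : Finset ℕ) (k : ℕ → ℕ) (w : ℕ) : Prop :=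
  2 ^ znat i < below S V W k w

/-- The upper parts do not resonate. -/
def UpNoRes (γ : ℝ) (i : ℕ) (S V W : Finset ℕ) (k : ℕ → ℕ) (g : ℕ → ℝ) (w : ℕ) : Prop :=
  zpar i ^ 6 ≤ scaleW S V W k g w ∧
    NoRes i (γ * resA S V W * below S V W k w) (lvl i * zpar i ^ 8 / scaleW S V W k g w)

/-- The lower parts do not resonate. -/
def DownNoRes (γ : ℝ) (i : ℕ) (S V W : Finset ℕ) (k : ℕ → ℕ) (v w : ℕ) : Prop :=
  below S V W k w ≤ 2 ^ znat i ∧ znat i ^ 6 ≤ below S V W k w ∧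
    NoRes i (γ * resA S V W * above S V W k v)
      (lvl i * zpar i ^ 8 / 2 ^ (Nat.log 2 (below S V W k w) + 1))

/-- One resonance with a short other part gives an exceptional fraction. -/
lemma exc_one (hi : 1 ≤ i) {a c : ℕ} (hc : 0 < c) (hca : c ∣ a)
    (hsmall : (c : ℝ) * zpar i ^ 3 ≤ zpar i ^ fracExp) {Q : ℕ} (hQ : 0 < Q) (hQ' : Q ≤ znat i ^ 3)
    {P : ℤ} (h : |(Q : ℝ) * (γ * c) - P| ≤ lvl i * zpar i ^ 8 * c / a) : Exc γ i a := by
  have hz1 : (1 : ℝ) ≤ zpar i := one_le_zpar i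
  have hy : 0 < lvl i := lvl_pos' i
  have hQz : (Q : ℝ) ≤ zpar i ^ 3 := by rw [← znat_cast]; exact_mod_cast hQ'
  refine exc_of_frac (P := P) (D₀ := Q * c) (Q := Q) (Nat.mul_pos hQ hc) hQ
    (hQ'.trans (Nat.pow_le_pow_right (znat_pos i) (by norm_num))) ?_ ?_ ?_
  · refine le_trans ?_ hsmall
    refine le_trans (Nat.cast_le.2 (Nat.le_of_dvd (Nat.mul_pos hQ hc) (den_dvd_nat P _))) ?_
    rw [Nat.cast_mul, mul_comm]
    exact mul_le_mul_of_nonneg_left hQz (Nat.cast_nonneg c)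
  · exact (den_dvd_nat P _).trans (Nat.mul_dvd_mul_left Q hca)
  · push_cast
    rw [show (Q : ℝ) * c * γ = Q * (γ * c) by ring]
    refine h.trans ?_
    refine div_le_div_of_nonneg_right ?_ (Nat.cast_nonneg a)
    calc lvl i * zpar i ^ 8 * c = 1 * (c : ℝ) * (zpar i ^ 8 * lvl i) := by ring
      _ ≤ (Q : ℝ) * c * (zpar i ^ 12 * lvl i) := by
          gcongr
          · exact_mod_cast hQ
          · norm_num

/-- The three saving classes cover the edges without an exceptional fraction. -/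
lemma classify (hi : 1 ≤ i) (hS : ∀ p ∈ S, p.Prime) {v w : ℕ} (hv : v ∈ V) (hw : w ∈ W) (hv0 : 0 < v)
    (hw0 : 0 < w) (hsup : v.primeFactors ⊆ S) (hclean : Clean S V W k v w)
    (hres : (resA S V W : ℝ) ≤ zpar i ^ resExp) (hbig : zpar i ^ smallExp < (cof v w : ℝ))
    (hg : 0 < g w) (hgle : (cof v w : ℝ) * g w ≤ 1) (hexc : ¬ Exc γ i (cof v w)) :
    Tail i S V W k w ∨ UpNoRes γ i S V W k g w ∨ DownNoRes γ i S V W k v w := by
  classical
  set Aa := resA S V W with hAd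
  set n := above S V W k v with hnd
  set β := below S V W k w with hβd
  set Mw := scaleW S V W k g w with hMd
  set z := zpar i with hzd
  set y := lvl i with hyd
  have hz1 : (1 : ℝ) ≤ z := one_le_zpar i
  have hz : 0 < z := by linarith
  have hy : 0 < y := lvl_pos' i
  have hA0 : 0 < Aa := resA_pos hS
  have hn0 : 0 < n := above_pos hS v
  have hβ0 : 0 < β := below_pos hS w
  have ha : cof v w = Aa * n * β := cof_clean_left hv hw hv0 hw0 hsup hclean
  have haR : (cof v w : ℝ) = (Aa : ℝ) * n * β := by rw [ha]; push_cast; ring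
  have hAR : (0 : ℝ) < Aa := by exact_mod_cast hA0
  have hnR : (0 : ℝ) < n := by exact_mod_cast hn0
  have hβR : (0 : ℝ) < β := by exact_mod_cast hβ0
  have hM0 : 0 < Mw := by rw [hMd, scaleW, ← hAd, ← hβd]; positivity
  have hnM : (n : ℝ) ≤ Mw := by
    rw [hMd, scaleW, ← hAd, ← hβd, le_div_iff₀ (by positivity)]
    rw [haR] at hgle; linarith
  by_contra hnot
  push Not at hnot
  obtain ⟨h1, h2, h3⟩ := hnot
  have hβle : β ≤ 2 ^ znat i := not_lt.1 h1
  have h2' : Mw < z ^ 6 ∨ ∃ Q : ℕ, 1 ≤ Q ∧ Q ≤ znat i ^ 3 ∧ ∃ P : ℤ,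
      |(Q : ℝ) * (γ * Aa * β) - P| ≤ y * z ^ 8 / Mw := by
    by_contra hc
    push Not at hc
    exact h2 ⟨hc.1, hc.2⟩
  have h3' : β < znat i ^ 6 ∨ ∃ Q : ℕ, 1 ≤ Q ∧ Q ≤ znat i ^ 3 ∧ ∃ P : ℤ,
      |(Q : ℝ) * (γ * Aa * n) - P| ≤ y * z ^ 8 / 2 ^ (Nat.log 2 β + 1) := by
    by_contra hc
    push Not at hc
    exact h3 ⟨hβle, hc.1, hc.2⟩
  have hfe : z ^ resExp * z ^ 6 * z ^ 3 = z ^ fracExp := by
    rw [← pow_add, ← pow_add]; congr 1
  have hup : ∀ {P : ℤ} {Q : ℕ}, |(Q : ℝ) * (γ * Aa * β) - P| ≤ y * z ^ 8 / Mw →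
      |(Q : ℝ) * (γ * ((Aa * β : ℕ) : ℝ)) - P| ≤ y * z ^ 8 * ((Aa * β : ℕ) : ℝ) / cof v w := by
    intro P Q h
    push_cast
    rw [← mul_assoc γ]
    refine h.trans ((div_le_div_of_nonneg_left (by positivity) hnR hnM).trans (le_of_eq ?_))
    rw [haR]; field_simp
  have hdown : ∀ {P : ℤ} {Q : ℕ}, |(Q : ℝ) * (γ * Aa * n) - P| ≤ y * z ^ 8 / 2 ^ (Nat.log 2 β + 1) →
      |(Q : ℝ) * (γ * ((Aa * n : ℕ) : ℝ)) - P| ≤ y * z ^ 8 * ((Aa * n : ℕ) : ℝ) / cof v w := by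
    intro P Q h
    push_cast
    rw [← mul_assoc γ]
    have hlog : (β : ℝ) ≤ 2 ^ (Nat.log 2 β + 1) := by
      exact_mod_cast (Nat.lt_pow_succ_log_self (by norm_num) β).le
    refine h.trans ((div_le_div_of_nonneg_left (by positivity) hβR hlog).trans (le_of_eq ?_))
    rw [haR]; field_simp
  rcases h3' with hβs | ⟨Q', hQ'1, hQ'2, P', hP'⟩
  · have hβs' : (β : ℝ) ≤ z ^ 6 := by
      rw [hzd, ← znat_cast]; exact_mod_cast hβs.le
    rcases h2' with hMs | ⟨Q, hQ1, hQ2, P, hP⟩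
    · refine absurd hbig (not_lt.2 ?_)
      rw [haR]
      calc (Aa : ℝ) * n * β ≤ z ^ resExp * z ^ 6 * z ^ 6 :=
            mul_le_mul (mul_le_mul hres (hnM.trans hMs.le) hnR.le (by positivity)) hβs' hβR.le
              (by positivity)
        _ ≤ _ := by
            rw [← pow_add, ← pow_add]
            exact pow_le_pow_right₀ hz1 (by unfold resExp smallExp; norm_num)
    · refine hexc (exc_one hi (Nat.mul_pos hA0 hβ0) ⟨n, by rw [ha]; ring⟩ ?_ hQ1 hQ2 (hup hP))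
      push_cast
      rw [← hfe]; gcongr
  · rcases h2' with hMs | ⟨Q, hQ1, hQ2, P, hP⟩
    · refine hexc (exc_one hi (Nat.mul_pos hA0 hn0) ⟨β, by rw [ha]⟩ ?_ hQ'1 hQ'2 (hdown hP'))
      push_cast
      rw [← hfe]; gcongr; exact hnM.trans hMs.le
    have b1 := hup hP
    have b2 := hdown hP'
    push_cast at b1 b2
    have hQz : (Q : ℝ) ≤ z ^ 3 := by rw [hzd, ← znat_cast]; exact_mod_cast hQ2
    have hQz' : (Q' : ℝ) ≤ z ^ 3 := by rw [hzd, ← znat_cast]; exact_mod_cast hQ'2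
    have key : P * ((Q' * n : ℕ) : ℤ) - P' * ((Q * β : ℕ) : ℤ) = 0 := by
      rw [← Int.abs_lt_one_iff, ← Int.cast_lt (R := ℝ), Int.cast_abs]
      push_cast
      rw [show (P : ℝ) * (Q' * n) - (P' : ℝ) * (Q * β) =
          (Q : ℝ) * β * (Q' * (γ * (Aa * n)) - P') - (Q' : ℝ) * n * (Q * (γ * (Aa * β)) - P) by ring]
      refine lt_of_le_of_lt (abs_sub _ _) ?_
      simp only [abs_mul, Nat.abs_cast]
      have t1 : (Q : ℝ) * β * |(Q' : ℝ) * (γ * (Aa * n)) - P'| ≤ z ^ 11 * y := by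
        refine (mul_le_mul_of_nonneg_left b2 (by positivity)).trans ?_
        rw [haR, show (Q : ℝ) * β * (y * z ^ 8 * (Aa * n) / (Aa * n * β)) = Q * (z ^ 8 * y) by
          field_simp, show z ^ 11 * y = z ^ 3 * (z ^ 8 * y) by ring]
        gcongr
      have t2 : (Q' : ℝ) * n * |(Q : ℝ) * (γ * (Aa * β)) - P| ≤ z ^ 11 * y := by
        refine (mul_le_mul_of_nonneg_left b1 (by positivity)).trans ?_
        rw [haR, show (Q' : ℝ) * n * (y * z ^ 8 * (Aa * β) / (Aa * n * β)) = Q' * (z ^ 8 * y) by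
          field_simp, show z ^ 11 * y = z ^ 3 * (z ^ 8 * y) by ring]
        gcongr
      have t3 : z ^ 12 * y < 1 := zpow_lvl_lt_one hi (by unfold expN; norm_num)
      have t4 : 2 * (z ^ 11 * y) ≤ z * (z ^ 11 * y) :=
        mul_le_mul_of_nonneg_right (two_le_zpar hi) (by positivity)
      rw [show z * (z ^ 11 * y) = z ^ 12 * y by ring] at t4
      linarith
    have hkey : P * ((Q' : ℤ) * n) = P' * ((Q : ℤ) * β) := by push_cast at key; linarith
    have hq : (P : ℚ) / ((Q * (Aa * β) : ℕ) : ℚ) = (P' : ℚ) / ((Q' * (Aa * n) : ℕ) : ℚ) := by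
      rw [div_eq_div_iff (by positivity) (by positivity)]
      have : (P : ℚ) * ((Q' : ℚ) * n) = (P' : ℚ) * ((Q : ℚ) * β) := by exact_mod_cast hkey
      push_cast
      linear_combination (Aa : ℚ) * this
    have hd1 := den_dvd_nat P (Q * (Aa * β))
    have hd2 := den_dvd_nat P' (Q' * (Aa * n))
    rw [← hq] at hd2
    set d := ((P : ℚ) / ((Q * (Aa * β) : ℕ) : ℚ)).den
    have hcop : n.Coprime β := coprime_clean_left hS hclean
    have hd3 : d ∣ Aa * (Q * Q') := by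
      refine (Nat.dvd_gcd hd1 hd2).trans ?_
      rw [show Q * (Aa * β) = Aa * (Q * β) by ring, show Q' * (Aa * n) = Aa * (Q' * n) by ring,
        Nat.gcd_mul_left]
      refine Nat.mul_dvd_mul_left _ ?_
      have h5 : Nat.gcd (Q * β) (Q' * n) ∣ Nat.gcd (Q * Q' * β) (Q * Q' * n) :=
        Nat.dvd_gcd ((Nat.gcd_dvd_left _ _).trans ⟨Q', by ring⟩)
          ((Nat.gcd_dvd_right _ _).trans ⟨Q, by ring⟩)
      rwa [Nat.gcd_mul_left, Nat.coprime_iff_gcd_eq_one.1 hcop.symm, mul_one] at h5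
    refine hexc (exc_of_frac (P := P) (D₀ := Q * (Aa * β)) (Q := Q * Q') (Nat.mul_pos hQ1 (Nat.mul_pos hA0 hβ0))
      (Nat.mul_pos hQ1 hQ'1) ?_ ?_ ?_ ?_)
    · calc Q * Q' ≤ znat i ^ 3 * znat i ^ 3 := Nat.mul_le_mul hQ2 hQ'2
        _ = _ := by rw [← pow_add]
    · refine (Nat.cast_le.2 (Nat.le_of_dvd
        (Nat.mul_pos hA0 (Nat.mul_pos hQ1 hQ'1)) hd3)).trans ?_
      push_cast
      rw [← hfe, show z ^ resExp * z ^ 6 * z ^ 3 = z ^ resExp * (z ^ 3 * z ^ 6) by ring]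
      gcongr
      exact hQz'.trans (pow_le_pow_right₀ hz1 (by norm_num))
    · exact hd3.trans ⟨n * β, by rw [ha]; ring⟩
    · push_cast
      rw [show (Q : ℝ) * (Aa * β) * γ = Q * (γ * (Aa * β)) by ring]
      refine b1.trans (div_le_div_of_nonneg_right ?_ (Nat.cast_nonneg _))
      calc y * z ^ 8 * ((Aa : ℝ) * β) = 1 * (Aa * β) * (z ^ 8 * y) := by ring
        _ ≤ (Q : ℝ) * (Aa * β) * (z ^ 12 * y) := by
            gcongr
            · exact_mod_cast hQ1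
            · norm_num

open Classical in
/-- The count for non-resonant upper parts. -/
lemma up_fibre_le (hi : 1 ≤ i) (hS : ∀ p ∈ S, p.Prime) (hV0 : ∀ v ∈ V, 0 < v ∧ v.primeFactors ⊆ S)
    (hW0 : ∀ w ∈ W, 0 < w ∧ w.primeFactors ⊆ S) {V' : Finset ℕ} (hV : V' ⊆ V) {w : ℕ} (hw : w ∈ W)
    {R : ℕ → Prop} (hg : 0 < g w)
    (hR : ∀ v ∈ V', R v → Clean S V W k v w ∧ (cof v w : ℝ) * g w ≤ 1 ∧ Live γ ψ v w ∧
      rangeD ψ v w ≤ lvl i ∧ UpNoRes γ i S V W k g w) (α : ℕ) :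
    ((V'.filter (fun v => R v ∧ below S V W k v = α)).card : ℝ) ≤
      21 * (scaleW S V W k g w / zpar i ^ 3) := by
  classical
  set Mw := scaleW S V W k g w with hMd
  set s := V'.filter (fun v => R v ∧ below S V W k v = α) with hsd
  have hA : (0 : ℝ) < resA S V W := by exact_mod_cast resA_pos hS
  have hβ : (0 : ℝ) < below S V W k w := by exact_mod_cast below_pos hS w
  have hM0 : 0 < Mw := by rw [hMd, scaleW]; positivity
  have hz : 0 < zpar i := zpar_pos' i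
  rcases s.eq_empty_or_nonempty with he | ⟨v₁, hv₁⟩
  · rw [he]; simp only [Finset.card_empty, Nat.cast_zero]; positivity
  obtain ⟨hv₁', hr₁, -⟩ := Finset.mem_filter.1 hv₁
  obtain ⟨-, -, -, -, hM6, hno⟩ := hR v₁ hv₁' hr₁
  have hinj : Set.InjOn (fun v => above S V W k v) (s : Set ℕ) := by
    intro a ha b hb hab
    obtain ⟨haV, -, haα⟩ := Finset.mem_filter.1 ha
    obtain ⟨hbV, -, hbα⟩ := Finset.mem_filter.1 hb
    exact parts_injOn_left hS hV0 (hV haV) (hV hbV) (Prod.ext hab (haα.trans hbα.symm))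
  rw [← Finset.card_image_of_injOn hinj]
  refine (card_noRes_le hi (M := Mw)
    (x := γ * resA S V W * below S V W k w) (t := γ * (resB S V W * above S V W k w * α)) ?_ ?_ hno).trans ?_
  · exact le_trans (one_le_pow₀ (one_le_zpar i)) hM6
  · intro n hn
    obtain ⟨v, hvs, rfl⟩ := Finset.mem_image.1 hn
    obtain ⟨hvV, hr, hα⟩ := Finset.mem_filter.1 hvs
    obtain ⟨hcl, hga, ⟨L, hL, -, -⟩, hD, -⟩ := hR v hvV hr
    have h0 := hV0 v (hV hvV)
    have h1 := hW0 w hw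
    have ea := cof_clean_left (hV hvV) hw h0.1 h1.1 h0.2 hcl
    have eb := cof_clean_right (hV hvV) hw h0.1 h1.1 h1.2 hcl
    rw [hα] at eb
    refine ⟨?_, L, ?_⟩
    · rw [hMd, scaleW, le_div_iff₀ (by positivity)]
      rw [ea] at hga; push_cast at hga; linarith
    · rw [← abs_neg]
      refine le_trans (le_of_eq_of_le ?_ hL.le) (by linarith)
      rw [ea, eb]; push_cast; congr 1; ring
  · have h6 : zpar i ^ 3 ≤ Mw / zpar i ^ 3 := by
      rw [le_div_iff₀ (by positivity), ← pow_add]; exact hM6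
    linarith

open Classical in
/-- The count for non-resonant lower parts. -/
lemma down_fibre_le (hi : 1 ≤ i) (hS : ∀ p ∈ S, p.Prime) (hV0 : ∀ v ∈ V, 0 < v ∧ v.primeFactors ⊆ S)
    (hW0 : ∀ w ∈ W, 0 < w ∧ w.primeFactors ⊆ S) {W' : Finset ℕ} (hW : W' ⊆ W) {v : ℕ} (hv : v ∈ V)
    {R : ℕ → Prop}
    (hR : ∀ w ∈ W', R w → Clean S V W k v w ∧ Live γ ψ v w ∧ rangeD ψ v w ≤ lvl i ∧
      DownNoRes γ i S V W k v w) (m : ℕ) :
    ∑ w ∈ W'.filter (fun w => R w ∧ above S V W k w = m), (1 : ℝ) / below S V W k w ≤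
      84 / zpar i ^ 2 := by
  classical
  set z := zpar i with hzd
  have hz : 0 < z := zpar_pos' i
  set s := W'.filter (fun w => R w ∧ above S V W k w = m) with hsd
  set j : ℕ → ℕ := fun w => Nat.log 2 (below S V W k w) with hjd
  rw [← Finset.sum_fiberwise_of_maps_to (s := s) (t := Finset.range (znat i + 1)) (g := j) (fun w hw => ?_)]
  swap
  · obtain ⟨hwW, hr, -⟩ := Finset.mem_filter.1 hw
    obtain ⟨-, -, -, hle, -⟩ := hR w hwW hr
    rw [Finset.mem_range, Nat.lt_succ_iff, hjd]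
    simp only
    calc Nat.log 2 (below S V W k w) ≤ Nat.log 2 (2 ^ znat i) := Nat.log_mono_right hle
      _ = znat i := Nat.log_pow (by norm_num) _
  have hone : ∀ u ∈ Finset.range (znat i + 1),
      ∑ w ∈ s.filter (fun w => j w = u), (1 : ℝ) / below S V W k w ≤ 42 / z ^ 3 := by
    intro u _
    set r := s.filter (fun w => j w = u) with hrd
    rcases r.eq_empty_or_nonempty with he | ⟨w₁, hw₁⟩
    · rw [he, Finset.sum_empty]; positivity
    have hmem : ∀ w ∈ r, w ∈ W' ∧ R w ∧ above S V W k w = m ∧ j w = u := fun w hw => by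
      obtain ⟨h1, h2⟩ := Finset.mem_filter.1 hw
      obtain ⟨h3, h4, h5⟩ := Finset.mem_filter.1 h1
      exact ⟨h3, h4, h5, h2⟩
    obtain ⟨hw₁', hr₁, -, hj₁⟩ := hmem w₁ hw₁
    obtain ⟨-, -, -, -, h6, hno⟩ := hR w₁ hw₁' hr₁
    have hju : Nat.log 2 (below S V W k w₁) = u := hj₁
    rw [hju] at hno
    have hu6 : z ^ 6 ≤ (2 : ℝ) ^ (u + 1) := by
      have h1 : znat i ^ 6 ≤ 2 ^ (u + 1) := by
        rw [← hju]; exact h6.trans (Nat.lt_pow_succ_log_self (by norm_num) _).le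
      rw [hzd, ← znat_cast]; exact_mod_cast h1
    have hlow : ∀ w ∈ r, (2 : ℝ) ^ u ≤ below S V W k w := fun w hw => by
      have hju' : Nat.log 2 (below S V W k w) = u := (hmem w hw).2.2.2
      have := Nat.pow_log_le_self 2 (below_pos hS (V := V) (W := W) (k := k) w).ne'
      rw [hju'] at this
      exact_mod_cast this
    have hinj : Set.InjOn (fun w => below S V W k w) (r : Set ℕ) := by
      intro a ha b hb hab
      obtain ⟨haW, -, ham, -⟩ := hmem a ha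
      obtain ⟨hbW, -, hbm, -⟩ := hmem b hb
      exact parts_injOn_right hS hW0 (hW haW) (hW hbW) (Prod.ext (ham.trans hbm.symm) hab)
    have hcard : (r.card : ℝ) ≤ 17 * ((2 : ℝ) ^ (u + 1) / z ^ 3) + 4 * z ^ 3 := by
      rw [← Finset.card_image_of_injOn hinj]
      refine card_noRes_le hi (x := γ * resA S V W * above S V W k v)
        (t := γ * (resB S V W * m * below S V W k v)) (one_le_pow₀ one_le_two) ?_ hno
      intro n hn
      obtain ⟨w, hwr, rfl⟩ := Finset.mem_image.1 hn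
      obtain ⟨hwW, hr, hm, hju'⟩ := hmem w hwr
      obtain ⟨hcl, ⟨L, hL, -, -⟩, hD, -⟩ := hR w hwW hr
      have h0 := hV0 v hv
      have h1 := hW0 w (hW hwW)
      have ea := cof_clean_left hv (hW hwW) h0.1 h1.1 h0.2 hcl
      have eb := cof_clean_right hv (hW hwW) h0.1 h1.1 h1.2 hcl
      rw [hm] at eb
      refine ⟨?_, L, ?_⟩
      · have h2 := (Nat.lt_pow_succ_log_self (by norm_num : 1 < 2) (below S V W k w)).le
        have hju'' : Nat.log 2 (below S V W k w) = u := hju'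
        rw [hju''] at h2
        exact_mod_cast h2
      · rw [← abs_neg]
        refine le_trans (le_of_eq_of_le ?_ hL.le) (by linarith)
        rw [ea, eb]; push_cast; congr 1; ring
    calc ∑ w ∈ r, (1 : ℝ) / below S V W k w ≤ ∑ _w ∈ r, 1 / (2 : ℝ) ^ u :=
          Finset.sum_le_sum fun w hw => one_div_le_one_div_of_le (by positivity) (hlow w hw)
      _ = r.card * (1 / (2 : ℝ) ^ u) := by rw [Finset.sum_const, nsmul_eq_mul]
      _ ≤ (17 * ((2 : ℝ) ^ (u + 1) / z ^ 3) + 4 * z ^ 3) * (1 / (2 : ℝ) ^ u) :=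
          mul_le_mul_of_nonneg_right hcard (by positivity)
      _ = 34 / z ^ 3 + 4 * z ^ 3 / (2 : ℝ) ^ u := by rw [pow_succ]; field_simp; ring
      _ ≤ 34 / z ^ 3 + 8 / z ^ 3 := by
          refine add_le_add le_rfl ?_
          rw [div_le_div_iff₀ (by positivity) (by positivity)]
          rw [pow_succ (2 : ℝ) u, show z ^ 6 = z ^ 3 * z ^ 3 by ring] at hu6
          linarith
      _ = _ := by ring
  refine (Finset.sum_le_sum hone).trans ?_
  rw [Finset.sum_const, nsmul_eq_mul, Finset.card_range]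
  push_cast
  rw [znat_cast, ← hzd]
  calc (z + 1) * (42 / z ^ 3) ≤ (2 * z) * (42 / z ^ 3) :=
        mul_le_mul_of_nonneg_right (by linarith [one_le_zpar i]) (by positivity)
    _ = _ := by field_simp; ring

end Leaf

end Vale.Agent.P028.DS
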