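import Vale.Agent.P028.DS.SmallBox.Projected

/-!
P028, milestone A: balanced edges with both cofactors small.
-/

namespace Vale.Agent.P028.DS

open Finset Real SmallBox

lemma SmallBox.sq_le_p2 (i : ℕ) : (i : ℝ) * i ≤ p2 (2 * (i : ℤ)) := by
  have h : (i : ℝ) ≤ p2 (i : ℤ) := by
    rw [p2_nat]; exact_mod_cast (Nat.lt_two_pow_self).le
  rw [show 2 * (i : ℤ) = (i : ℤ) + i by ring, p2_add]
  exact mul_le_mul h h (Nat.cast_nonneg _) (p2_nonneg _)

/-- The bound of one box. -/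
lemma SmallBox.box_bound {γ : ℝ} {ψ : ℕ → ℝ} {F : Finset ℕ} {i α β : ℕ} {ρ C₀ : ℝ}
    (h0 : 0 ∉ F) (hψ : ∀ q, 0 ≤ ψ q) (hρ : 1 ≤ ρ) (hdiv : ∀ q ∈ F, divSum q ≤ ρ) (hC₀ : 0 < C₀)
    (hH : ∀ (E : ℕ → ℕ → Prop) (f g : ℕ → ℝ) (V W : Finset ℕ) (r : ℝ), 1 ≤ r → Admissible E f g →
      (∀ v ∈ V, divSum v ≤ r) → (∀ w ∈ W, divSum w ≤ r) →
      edgeSum E f g V W ≤ C₀ * (r ^ 2) ^ (1 / 2 - (1 : ℝ) / 100000) *
        ((∑ v ∈ V, f v) * ∑ w ∈ W, g w) ^ (1 / 2 + (1 : ℝ) / 100000))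
    (hi : 1 ≤ i) :
    edgeSum (InBox γ ψ i α β) ψ ψ F F ≤
      (2 + projC C₀ ρ * (2 * 10301 ^ 2)) * p2 (-(10005 * (i : ℤ))) *
        ((∑ q ∈ F, ψ q) + (∑ q ∈ F, ψ q) ^ 2) := by
  set X : ℝ := ∑ q ∈ F, ψ q
  have hX0 : 0 ≤ X := Finset.sum_nonneg fun q _ => hψ q
  have hiz : (1 : ℤ) ≤ i := by exact_mod_cast hi
  have hP : 0 ≤ projC C₀ ρ := by
    rw [projC]
    have : (0 : ℝ) ≤ layerC (1 / 100000) ^ 2 := sq_nonneg _
    positivity
  have hR : 0 ≤ (2 + projC C₀ ρ * (2 * 10301 ^ 2)) * p2 (-(10005 * (i : ℤ))) * (X + X ^ 2) :=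
    mul_nonneg (mul_nonneg (by positivity) (p2_nonneg _)) (by positivity)
  rcases (edges (InBox γ ψ i α β) F F).eq_empty_or_nonempty with he | ⟨e, he⟩
  · rw [edgeSum_eq, he, Finset.sum_empty]; exact hR
  obtain ⟨⟨hv, hw⟩, hA, hB, hψ1, hψ2, ⟨k, L, hk, hk1, hk2, hL, hlv, hlw⟩, hβ, hαβ⟩ :=
    edge_facts h0 hψ he
  have simple : ∀ {S : ℝ}, S ≤ 2 * p2 (-(10005 * (i : ℤ))) →
      edgeSum (InBox γ ψ i α β) ψ ψ F F ≤ S * X →
      edgeSum (InBox γ ψ i α β) ψ ψ F F ≤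
        (2 + projC C₀ ρ * (2 * 10301 ^ 2)) * p2 (-(10005 * (i : ℤ))) * (X + X ^ 2) := by
    intro S hS h
    refine h.trans (le_trans (mul_le_mul_of_nonneg_right hS hX0) ?_)
    refine mul_le_mul (mul_le_mul_of_nonneg_right (le_add_of_nonneg_right (by positivity))
      (p2_nonneg _)) (le_add_of_nonneg_right (sq_nonneg X)) hX0
      (mul_nonneg (by positivity) (p2_nonneg _))
  rcases Nat.eq_zero_or_pos α with hα | hα
  · have ha : cof e.1 e.2 < 2 := by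
      have := hA.2
      rw [hα, show ((0 : ℕ) : ℤ) + 1 = ((1 : ℕ) : ℤ) by norm_num, p2_nat, pow_one] at this
      exact_mod_cast this
    have ha1 : 0 < cof e.1 e.2 := by
      have := lt_of_lt_of_le (p2_pos _) hA.1
      exact_mod_cast this
    obtain ⟨hρβ, hM⟩ := card_boxK (δ := ψ e.2) (ρ := 4800 * (i : ℤ)) (μ := 0) hi hk1 hk2 hL
      (hlw (by omega)) (by simpa [hα] using hψ2.1) (by simpa [hα] using hψ2.2) le_rfl
      (by omega) hβ (by omega) (by omega)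
    refine simple ?_ (box_degree h0 hψ le_rfl)
    rw [hα, show ((0 : ℕ) : ℤ) = 0 from rfl, p2_zero, one_mul]
    refine (mul_le_mul_of_nonneg_right hM (p2_nonneg _)).trans ?_
    rw [add_mul, ← p2_add, ← p2_add, two_mul]
    exact add_le_add (p2_le (by omega)) (p2_le (by omega))
  · have ha : 2 ≤ cof e.1 e.2 := by
      have := (p2_le (show (1 : ℤ) ≤ (α : ℤ) by omega)).trans hA.1
      rw [p2_one] at this
      exact_mod_cast this
    obtain ⟨hρβ, hM⟩ := card_boxK (δ := ψ e.1) (ρ := 24 * (10000 * (i : ℤ) + β) / 50) (μ := β)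
      hi hk1 hk2 hL (hlv ha) hψ1.1 hψ1.2 (by omega) le_rfl hβ (by omega) (by omega)
    have hM2 : ((boxK γ i β).card : ℝ) ≤ 2 * p2 (709 * (i : ℤ)) := by
      refine hM.trans ?_
      rw [two_mul]
      exact add_le_add (p2_le (by omega)) le_rfl
    by_cases hcase : (α : ℤ) + 720 * i ≤ β
    · refine simple ?_ (box_degree h0 hψ le_rfl)
      calc p2 α * ((boxK γ i β).card : ℝ) * p2 (-(10000 * (i : ℤ)) - β)
          ≤ p2 α * (2 * p2 (709 * (i : ℤ))) * p2 (-(10000 * (i : ℤ)) - β) :=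
            mul_le_mul_of_nonneg_right (mul_le_mul_of_nonneg_left hM2 (p2_nonneg _)) (p2_nonneg _)
        _ = 2 * p2 ((α : ℤ) + 709 * i + (-(10000 * (i : ℤ)) - β)) := by rw [p2_add, p2_add]; ring
        _ ≤ _ := mul_le_mul_of_nonneg_left (p2_le (by omega)) two_pos.le
    · refine (box_proj h0 hψ hρ hdiv hC₀.le hH hi (by omega) (by omega) hβ hαβ).trans ?_
      refine mul_le_mul_of_nonneg_right ?_ (by positivity)
      have h1 : ((α : ℝ) + 1) * ((β : ℝ) + 1) ≤ 10301 ^ 2 * p2 (2 * (i : ℤ)) := by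
        have hb : (β : ℝ) ≤ 10300 * i := by exact_mod_cast hβ
        have ha' : (α : ℝ) ≤ β := by exact_mod_cast hαβ
        have hi' : (1 : ℝ) ≤ i := by exact_mod_cast hi
        refine le_trans (mul_le_mul (b := 10301 * (i : ℝ)) (d := 10301 * (i : ℝ)) (by linarith)
          (by linarith) (by positivity) (by positivity)) ?_
        have h2 := mul_le_mul_of_nonneg_left (sq_le_p2 i) (sq_nonneg (10301 : ℝ))
        linarith
      calc projC C₀ ρ * (((α : ℝ) + 1) * ((β : ℝ) + 1)) * ((boxK γ i β).card : ℝ) *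
            p2 (-(11090 * (i : ℤ)))
          ≤ projC C₀ ρ * (10301 ^ 2 * p2 (2 * (i : ℤ))) * (2 * p2 (709 * (i : ℤ))) *
            p2 (-(11090 * (i : ℤ))) :=
            mul_le_mul_of_nonneg_right (mul_le_mul (mul_le_mul_of_nonneg_left h1 hP) hM2
              (Nat.cast_nonneg _) (mul_nonneg hP (mul_nonneg (by positivity) (p2_nonneg _))))
              (p2_nonneg _)
        _ = projC C₀ ρ * (2 * 10301 ^ 2) *
            p2 (2 * (i : ℤ) + 709 * i + -(11090 * (i : ℤ))) := by rw [p2_add, p2_add]; ring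
        _ ≤ projC C₀ ρ * (2 * 10301 ^ 2) * p2 (-(10005 * (i : ℤ))) :=
            mul_le_mul_of_nonneg_left (p2_le (by omega)) (by positivity)
        _ ≤ _ := mul_le_mul_of_nonneg_right (le_add_of_nonneg_left two_pos.le) (p2_nonneg _)

theorem small (hH : HomogStatement) : SmallStatement := by
  intro ρ hρ
  obtain ⟨C₀, hC₀, hH⟩ := hH ((1 : ℝ) / 100000) (by norm_num) (by norm_num)
  set C₂ : ℝ := 2 + projC C₀ ρ * (2 * 10301 ^ 2) with hC₂
  have hC₂0 : 0 ≤ C₂ := by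
    rw [hC₂, projC]
    have : (0 : ℝ) ≤ layerC (1 / 100000) ^ 2 := sq_nonneg _
    positivity
  refine ⟨2 * (C₂ * 10301 ^ 2), 1, fun γ ψ F i hi h0 hψ hdiv => ?_⟩
  set X : ℝ := ∑ q ∈ F, ψ q with hX
  have hX0 : 0 ≤ X := Finset.sum_nonneg fun q _ => hψ q
  have hZ : (zpar i : ℝ) ^ smallExp = p2 (10300 * (i : ℤ)) := by
    rw [zpar_eq, p2_pow, smallExp_eq, mul_comm]
  have hyz : lvl i / zpar i = p2 (-(10001 * (i : ℤ))) := by
    rw [lvl_eq, expN_eq, zpar_eq, p2_div]; congr 1; ring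
  have hhalf : edgeSum (Half γ ψ i) ψ ψ F F ≤
      C₂ * 10301 ^ 2 * p2 (-(10001 * (i : ℤ))) * (X + X ^ 2) := by
    rw [edgeSum_eq]
    set R := Finset.range (10300 * i + 1) with hR
    have hmaps : ∀ e ∈ edges (Half γ ψ i) F F,
        (Nat.log 2 (cof e.1 e.2), Nat.log 2 (cof e.2 e.1)) ∈ R ×ˢ R := by
      intro e he
      obtain ⟨⟨hv, hw⟩, hlt, -, -, hb⟩ := mem_edges.mp he
      have hb' : cof e.2 e.1 ≤ 2 ^ (10300 * i) := by
        have h : 10300 * (i : ℤ) = ((10300 * i : ℕ) : ℤ) := by push_cast; ring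
        rw [h, p2_nat] at hb
        exact_mod_cast hb
      simp only [hR, Finset.mem_product, Finset.mem_range]
      have h1 : Nat.log 2 (cof e.2 e.1) ≤ 10300 * i :=
        (Nat.log_mono_right hb').trans_eq (Nat.log_pow one_lt_two _)
      have h2 : Nat.log 2 (cof e.1 e.2) ≤ Nat.log 2 (cof e.2 e.1) := Nat.log_mono_right hlt.le
      omega
    rw [← Finset.sum_fiberwise_of_maps_to hmaps]
    have hfib : ∀ k ∈ R ×ˢ R, ∑ e ∈ (edges (Half γ ψ i) F F).filter (fun e =>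
        (Nat.log 2 (cof e.1 e.2), Nat.log 2 (cof e.2 e.1)) = k), ψ e.1 * ψ e.2 ≤
        C₂ * p2 (-(10005 * (i : ℤ))) * (X + X ^ 2) := by
      rintro ⟨α, β⟩ -
      refine le_trans (le_of_eq ?_)
        (box_bound (γ := γ) (α := α) (β := β) h0 hψ hρ hdiv hC₀ hH hi)
      rw [edgeSum_eq]
      refine Finset.sum_congr ?_ fun _ _ => rfl
      ext e
      simp only [Finset.mem_filter, mem_edges, InBox, Prod.mk.injEq]
      tauto
    refine (Finset.sum_le_card_nsmul _ _ _ hfib).trans ?_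
    rw [nsmul_eq_mul, hR, Finset.card_product, Finset.card_range]
    have h1 : (((10300 * i + 1) * (10300 * i + 1) : ℕ) : ℝ) ≤ 10301 ^ 2 * p2 (2 * (i : ℤ)) := by
      have hi' : (1 : ℝ) ≤ i := by exact_mod_cast hi
      push_cast
      refine le_trans (mul_le_mul (b := 10301 * (i : ℝ)) (d := 10301 * (i : ℝ)) (by linarith)
        (by linarith) (by positivity) (by positivity)) ?_
      have h2 := mul_le_mul_of_nonneg_left (sq_le_p2 i) (sq_nonneg (10301 : ℝ))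
      linarith
    have hp : p2 (2 * (i : ℤ)) * p2 (-(10005 * (i : ℤ))) ≤ p2 (-(10001 * (i : ℤ))) := by
      rw [← p2_add]; exact p2_le (by omega)
    refine (mul_le_mul_of_nonneg_right h1
      (mul_nonneg (mul_nonneg hC₂0 (p2_nonneg _)) (by positivity))).trans ?_
    calc (10301 : ℝ) ^ 2 * p2 (2 * (i : ℤ)) * (C₂ * p2 (-(10005 * (i : ℤ))) * (X + X ^ 2))
        = C₂ * 10301 ^ 2 * (p2 (2 * (i : ℤ)) * p2 (-(10005 * (i : ℤ)))) * (X + X ^ 2) := by ring
      _ ≤ _ := mul_le_mul_of_nonneg_right (mul_le_mul_of_nonneg_left hp (by positivity))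
          (by positivity)
  refine (edgeSum_mono_or (E1 := Half γ ψ i) (E2 := fun v w => Half γ ψ i w v) hψ F ?_).trans ?_
  · rintro v hv w hw ⟨hne, hlive, hbal, ha, hb⟩
    have hv0 : 0 < v := Nat.pos_of_ne_zero fun h => h0 (h ▸ hv)
    have hw0 : 0 < w := Nat.pos_of_ne_zero fun h => h0 (h ▸ hw)
    obtain ⟨h1, h2, hap, hbp, hco⟩ := cof_spec hv0 hw0
    rcases lt_trichotomy (cof v w) (cof w v) with h | h | h
    · exact Or.inl ⟨h, hlive, hbal, hb.trans_eq hZ⟩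
    · exact absurd (h1.trans (by rw [h]; exact h2.symm)) hne
    · refine Or.inr ⟨h, ?_, ⟨hbal.2.2.1, hbal.2.2.2, hbal.1, hbal.2.1⟩, ha.trans_eq hZ⟩
      obtain ⟨L, hL, k1, k2⟩ := hlive
      refine ⟨-L, ?_, fun h2 hz => k2 h2 (by linarith), fun h2 hz => k1 h2 (by linarith)⟩
      rw [show rangeD ψ w v = rangeD ψ v w from max_comm _ _, ← abs_neg]
      refine lt_of_eq_of_lt ?_ hL
      congr 1
      push_cast
      ring
  · rw [edgeSum_swap (fun v w => Half γ ψ i w v), mul_div_assoc, hyz]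
    linarith

end Vale.Agent.P028.DS
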