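import Vale.Agent.P028.DS.Interfaces2
import Vale.Agent.P028.EV.Anatomy

/-!
P028, milestone A: the anatomy of the typical denominators.
-/

namespace Vale.Agent.P028.DS

open Finset Real

/-- Subadditivity of powers with exponent at most one. -/
lemma rpow_sum_le {ι : Type*} (T : Finset ι) (a : ι → ℝ) (ha : ∀ i ∈ T, 0 ≤ a i) {τ : ℝ}
    (h0 : 0 < τ) (h1 : τ ≤ 1) : (∑ i ∈ T, a i) ^ τ ≤ ∑ i ∈ T, a i ^ τ := by
  classical
  induction T using Finset.induction with
  | empty => simp [Real.zero_rpow h0.ne']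
  | @insert i T hi ih =>
    rw [Finset.sum_insert hi, Finset.sum_insert hi]
    refine (Real.rpow_add_le_add_rpow (ha i (Finset.mem_insert_self i T))
      (Finset.sum_nonneg fun j hj => ha j (Finset.mem_insert_of_mem hj)) h0.le h1).trans ?_
    exact add_le_add le_rfl (ih fun j hj => ha j (Finset.mem_insert_of_mem hj))

/-- The reciprocal sum of the divisors, weighted by the exponent of a prime. -/
lemma sum_exp_div_le {n p : ℕ} (hp : p ∈ n.primeFactors) :
    ∑ d ∈ n.divisors, (d.factorization p : ℝ) / (d : ℝ) ≤ 2 * divSum n / p := by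
  classical
  set S := divSum n with hS
  set F : ℕ → ℝ := fun p => ∑ d ∈ n.divisors, (d.factorization p : ℝ) / (d : ℝ) with hF
  have hpp := Nat.prime_of_mem_primeFactors hp
  have hp2 : (2 : ℝ) ≤ p := by exact_mod_cast hpp.two_le
  have h1 : F p = ∑ d ∈ n.divisors.filter (fun d => p ∣ d), (d.factorization p : ℝ) / (d : ℝ) := by
    refine (Finset.sum_filter_of_ne fun d _ hne => ?_).symm
    by_contra hnd
    exact hne (by simp [Nat.factorization_eq_zero_of_not_dvd hnd])
  have h2 : F p ≤ (F p + S) / p := by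
    refine (h1.trans_le (EV.sum_divisors_dvd_le hpp.pos fun d => by positivity)).trans (le_of_eq ?_)
    rw [hF, hS, divSum, ← Finset.sum_add_distrib, Finset.sum_div]
    refine Finset.sum_congr rfl fun e he => ?_
    rw [Nat.factorization_mul hpp.ne_zero (Nat.pos_of_mem_divisors he).ne', Finsupp.add_apply,
      hpp.factorization_self]
    push_cast
    rw [← add_div, div_div]
    ring
  show F p ≤ 2 * S / p
  rw [le_div_iff₀ (by linarith)] at h2 ⊢
  have hF0 : 0 ≤ F p := Finset.sum_nonneg fun d _ => by positivity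
  have := mul_le_mul_of_nonneg_left hp2 hF0
  nlinarith

/-- The logarithmic moment of the divisors. -/
lemma sum_log_rpow_div_le {n : ℕ} (hn : n ≠ 0) {τ : ℝ} (h0 : 0 < τ) (h1 : τ ≤ 1) :
    ∑ d ∈ n.divisors, log d ^ τ / (d : ℝ) ≤
      2 * divSum n * ∑ p ∈ n.primeFactors, log p ^ τ / (p : ℝ) := by
  classical
  have hpow : ∀ k : ℕ, (k : ℝ) ^ τ ≤ k := by
    intro k
    rcases Nat.eq_zero_or_pos k with rfl | hk
    · simp [Real.zero_rpow h0.ne']
    · calc (k : ℝ) ^ τ ≤ (k : ℝ) ^ (1 : ℝ) :=
            Real.rpow_le_rpow_of_exponent_le (by exact_mod_cast hk) h1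
        _ = k := Real.rpow_one _
  calc ∑ d ∈ n.divisors, log d ^ τ / (d : ℝ)
      ≤ ∑ d ∈ n.divisors, ∑ p ∈ n.primeFactors, (d.factorization p : ℝ) / d * log p ^ τ := by
        refine Finset.sum_le_sum fun d hd => ?_
        have e : log (d : ℝ) = ∑ p ∈ n.primeFactors, (d.factorization p : ℝ) * log p := by
          rw [Real.log_nat_eq_sum_factorization, Finsupp.sum, Nat.support_factorization]
          refine Finset.sum_subset (Nat.primeFactors_mono (Nat.dvd_of_mem_divisors hd) hn)
            fun p _ hnp => ?_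
          rw [← Nat.support_factorization, Finsupp.notMem_support_iff] at hnp
          simp [hnp]
        have hle : log (d : ℝ) ^ τ ≤ ∑ p ∈ n.primeFactors, (d.factorization p : ℝ) * log p ^ τ := by
          rw [e]
          refine (rpow_sum_le _ _ (fun p _ => mul_nonneg (Nat.cast_nonneg _) (log_natCast_nonneg p))
            h0 h1).trans (Finset.sum_le_sum fun p _ => ?_)
          rw [Real.mul_rpow (Nat.cast_nonneg _) (log_natCast_nonneg p)]
          exact mul_le_mul_of_nonneg_right (hpow _) (Real.rpow_nonneg (log_natCast_nonneg p) _)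
        refine (div_le_div_of_nonneg_right hle (Nat.cast_nonneg d)).trans (le_of_eq ?_)
        rw [Finset.sum_div]
        exact Finset.sum_congr rfl fun p _ => by ring
    _ ≤ ∑ p ∈ n.primeFactors, 2 * divSum n / p * log p ^ τ := by
        rw [Finset.sum_comm]
        refine Finset.sum_le_sum fun p hp => ?_
        rw [← Finset.sum_mul]
        exact mul_le_mul_of_nonneg_right (sum_exp_div_le hp)
          (Real.rpow_nonneg (log_natCast_nonneg p) _)
    _ = _ := by rw [Finset.mul_sum]; exact Finset.sum_congr rfl fun p _ => by ring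

/-- The anatomy of the typical denominators. -/
theorem typical : TypicalStatement := by
  classical
  intro τ C hτ
  set τ' := min τ 1 with hτ'
  have h0 : 0 < τ' := lt_min hτ one_pos
  have h1 : τ' ≤ 1 := min_le_right _ _
  have hl2 : 0 < log 2 := log_pos one_lt_two
  set K := log 2 ^ (τ' - τ) with hK
  set C₁ := max C 0 * K with hC₁
  set C₂ := C₁ / log 2 ^ τ' with hC₂
  have hC₁0 : 0 ≤ C₁ := mul_nonneg (le_max_right _ _) (Real.rpow_nonneg hl2.le _)
  have hpτ : 0 < log 2 ^ τ' := Real.rpow_pos_of_pos hl2 _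
  have hC₂0 : 0 ≤ C₂ := div_nonneg hC₁0 hpτ.le
  refine ⟨exp (2 * C₂), (exp (2 * C₂))⁻¹, 2 * exp (2 * C₂) * C₁ / log 2 ^ τ', τ',
    one_le_exp (by linarith), inv_pos.2 (exp_pos _),
    div_nonneg (mul_nonneg (by positivity) hC₁0) hpτ.le, h0, h1, fun q hq hsum => ?_⟩
  have hlog : ∀ p ∈ q.primeFactors, log 2 ≤ log (p : ℝ) := fun p hp =>
    log_le_log two_pos (by exact_mod_cast (Nat.prime_of_mem_primeFactors hp).two_le)
  have hs1 : ∑ p ∈ q.primeFactors, log p ^ τ' / (p : ℝ) ≤ C₁ := by
    refine le_trans ?_ (mul_le_mul_of_nonneg_right (hsum.trans (le_max_left C 0))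
      (Real.rpow_nonneg hl2.le _))
    rw [Finset.sum_mul]
    refine Finset.sum_le_sum fun p hp => ?_
    rw [div_mul_eq_mul_div]
    refine div_le_div_of_nonneg_right ?_ (Nat.cast_nonneg p)
    have hlp : 0 < log (p : ℝ) := hl2.trans_le (hlog p hp)
    calc log p ^ τ' = log p ^ τ * log p ^ (τ' - τ) := by rw [← Real.rpow_add hlp]; ring_nf
      _ ≤ log p ^ τ * log 2 ^ (τ' - τ) := mul_le_mul_of_nonneg_left
          (Real.rpow_le_rpow_of_nonpos hl2 (hlog p hp) (by linarith [min_le_left τ 1]))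
          (Real.rpow_nonneg hlp.le _)
  have hs2 : ∑ p ∈ q.primeFactors, 1 / (p : ℝ) ≤ C₂ := by
    rw [hC₂, le_div_iff₀ hpτ, Finset.sum_mul]
    refine le_trans (Finset.sum_le_sum fun p hp => ?_) hs1
    rw [one_div_mul_eq_div]
    exact div_le_div_of_nonneg_right (Real.rpow_le_rpow hl2.le (hlog p hp) h0.le) (Nat.cast_nonneg p)
  have hpos : ∀ p ∈ q.primeFactors, 0 < 1 - 1 / (p : ℝ) := fun p hp => by
    have := EV.one_div_le_half (Nat.prime_of_mem_primeFactors hp).two_le
    linarith
  have hprod : ∏ p ∈ q.primeFactors, (1 - 1 / (p : ℝ))⁻¹ ≤ exp (2 * C₂) := by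
    refine (Finset.prod_le_prod (g := fun p : ℕ => exp (2 * (1 / (p : ℝ))))
      (fun p hp => (inv_pos.2 (hpos p hp)).le) fun p hp => EV.inv_one_sub_le_exp (by positivity)
        (EV.one_div_le_half (Nat.prime_of_mem_primeFactors hp).two_le)).trans ?_
    rw [← Real.exp_sum, Real.exp_le_exp, ← Finset.mul_sum]
    linarith
  have hρ : divSum q ≤ exp (2 * C₂) := EV.sum_inv_le_prod.trans hprod
  refine ⟨hρ, ?_, fun t ht => ?_⟩
  · rw [EV.totient_div_eq hq.ne']
    rw [Finset.prod_inv_distrib] at hprod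
    exact inv_le_of_inv_le₀ (Finset.prod_pos hpos) hprod
  · have hmom : ∑ d ∈ q.divisors, log d ^ τ' / (d : ℝ) ≤ 2 * exp (2 * C₂) * C₁ :=
      (sum_log_rpow_div_le hq.ne' h0 h1).trans (mul_le_mul (by linarith) hs1
        (Finset.sum_nonneg fun p _ => div_nonneg (Real.rpow_nonneg (log_natCast_nonneg p) _)
          (Nat.cast_nonneg p)) (by positivity))
    rw [le_div_iff₀ (Real.rpow_pos_of_pos (by linarith) _), le_div_iff₀ hpτ]
    refine le_trans ?_ hmom
    rw [Finset.sum_mul, Finset.sum_mul]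
    refine le_trans (Finset.sum_le_sum fun d hd => ?_) (Finset.sum_le_sum_of_subset_of_nonneg
      (Finset.filter_subset _ _) fun d _ _ => div_nonneg
        (Real.rpow_nonneg (log_natCast_nonneg d) _) (Nat.cast_nonneg d))
    obtain ⟨hdd, hdt⟩ := Finset.mem_filter.1 hd
    have hlt : t * log 2 ≤ log (d : ℝ) := by
      rw [← Real.log_rpow two_pos]
      exact log_le_log (Real.rpow_pos_of_pos two_pos t) hdt.le
    rw [mul_assoc, one_div_mul_eq_div, ← Real.mul_rpow (by linarith) hl2.le]
    exact div_le_div_of_nonneg_right (Real.rpow_le_rpow (by positivity) hlt h0.le) (Nat.cast_nonneg d)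

end Vale.Agent.P028.DS
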