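import Vale.Agent.P028.DS.Large
import Vale.Agent.P028.DS.Small
import Vale.Agent.P028.DS.Glue
import Vale.Agent.P028.DS.Divis
import Vale.Agent.P028.DS.Typical

/-!
P028, milestone A: the inhomogeneous Duffin-Schaeffer statement on typical denominators.
-/

namespace Vale.Agent.P028.DS

open Finset Real MeasureTheory

lemma Live.symm {γ : ℝ} {ψ : ℕ → ℝ} {v w : ℕ} (h : Live γ ψ v w) : Live γ ψ w v := by
  obtain ⟨L, h1, h2, h3⟩ := h
  refine ⟨-L, ?_, fun h => ?_, fun h => ?_⟩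
  · rw [show rangeD ψ w v = rangeD ψ v w from max_comm _ _, ← abs_neg]
    refine lt_of_eq_of_lt ?_ h1
    push_cast; congr 1; ring
  · exact fun he => h3 h (by linear_combination -he)
  · exact fun he => h2 h (by linear_combination -he)

lemma Bal.symm {ψ : ℕ → ℝ} {i v w : ℕ} (h : Bal ψ i v w) : Bal ψ i w v :=
  ⟨h.2.2.1, h.2.2.2, h.1, h.2.1⟩

/-- The bound on every level for a support of typical denominators. -/
theorem levels_le {ρ C' τ' : ℝ} (hρ : 1 ≤ ρ) (hC' : 0 ≤ C') (hτ0 : 0 < τ') (hτ1 : τ' ≤ 1) :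
    ∃ (C r : ℝ) (i₀ : ℕ), 0 ≤ r ∧ r < 1 ∧ ∀ (γ : ℝ) (ψ : ℕ → ℝ), (∀ q, 0 ≤ ψ q) →
      (∀ q : ℕ, 0 < q → ψ q ≠ 0 → divSum q ≤ ρ ∧ ∀ t : ℝ, 1 ≤ t →
        ∑ d ∈ q.divisors.filter (fun d : ℕ => (2 : ℝ) ^ t < d), (1 : ℝ) / d ≤ C' / t ^ τ') →
      ∀ i, i₀ ≤ i → ∀ F : Finset ℕ, 0 ∉ F →
        edgeSum (fun v w => v ≠ w ∧ Live γ ψ v w ∧
            lvl (i + 1) < rangeD ψ v w ∧ rangeD ψ v w ≤ lvl i) ψ ψ F F
          ≤ C * r ^ i * lvl i * ((∑ q ∈ F, ψ q) + (∑ q ∈ F, ψ q) ^ 2) := by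
  classical
  set ε : ℝ := τ' / 1000000 with hεd
  have hε : 0 < ε := by positivity
  have hε1 : ε ≤ 1 / 1000000 := by rw [hεd]; gcongr
  have ht : 10 * ε ≤ 1 / 2 := by linarith
  obtain ⟨Cs, is, hsmall⟩ := small homog ρ hρ
  obtain ⟨Ci, hCi, himb⟩ := imbalance_le homog hε hε1 ht hρ
  obtain ⟨Ce, hCe, hexc⟩ := exc_le divis (t := 10 * ε) hε hε1 (by linarith) hρ
  obtain ⟨Cn, hCn, hnon⟩ := nonexc_le hε hε1 (τ' := τ') (by rw [hεd]; linarith) hρ hC'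
  refine ⟨2 * Ci + |Cs| + 2 * Ce + 2 * Cn, (2 : ℝ) ^ (-(10 * ε)), max 1 is, by positivity,
    Real.rpow_lt_one_of_one_lt_of_neg one_lt_two (by linarith), ?_⟩
  intro γ ψ hψ htyp i hi F hF
  have hi1 : 1 ≤ i := le_of_max_le_left hi
  have his : is ≤ i := le_of_max_le_right hi
  set y := lvl i with hyd
  set z := zpar i with hzd
  set r : ℝ := (2 : ℝ) ^ (-(10 * ε)) with hrd
  have hy : 0 < y := lvl_pos' i
  have hz : 0 < z := zpar_pos' i
  have hr0 : 0 ≤ r := by positivity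
  set F' := F.filter (fun q => 0 < ψ q) with hF'd
  have hsub : F' ⊆ F := Finset.filter_subset _ _
  have hF' : 0 ∉ F' := fun h => hF (hsub h)
  have htyp' : ∀ q ∈ F', divSum q ≤ ρ ∧ ∀ t : ℝ, 1 ≤ t →
      ∑ d ∈ q.divisors.filter (fun d : ℕ => (2 : ℝ) ^ t < d), (1 : ℝ) / d ≤ C' / t ^ τ' := fun q hq =>
    htyp q (Nat.pos_of_ne_zero fun h => hF' (h ▸ hq)) (Finset.mem_filter.1 hq).2.ne'
  have hdiv : ∀ q ∈ F', divSum q ≤ ρ := fun q hq => (htyp' q hq).1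
  set X := ∑ q ∈ F, ψ q with hXd
  set X' := ∑ q ∈ F', ψ q with hX'd
  have hX' : X' ≤ X := Finset.sum_le_sum_of_subset_of_nonneg hsub fun q _ _ => hψ q
  have hX0 : 0 ≤ X' := Finset.sum_nonneg fun q _ => hψ q
  rw [edgeSum_pos_support (fun v _ => hψ v) (fun v _ => hψ v), ← hF'd]
  have hXX : X' + X' ^ 2 ≤ X + X ^ 2 := add_le_add hX' (pow_le_pow_left₀ hX0 hX' 2)
  set ImbL : ℕ → ℕ → Prop := fun v w => (cof w v : ℝ) * ψ v ≤ y / z ^ 2 ∧ (cof v w : ℝ) * ψ w ≤ y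
  set Sm : ℕ → ℕ → Prop := fun v w => v ≠ w ∧ Live γ ψ v w ∧ Bal ψ i v w ∧
    (cof v w : ℝ) ≤ z ^ smallExp ∧ (cof w v : ℝ) ≤ z ^ smallExp
  set Lg : ℕ → ℕ → Prop := fun v w => Large γ ψ i v w
  have hnn : ∀ v ∈ F', 0 ≤ ψ v := fun v _ => hψ v
  set D : ℝ := r ^ i * y * (X' + X' ^ 2) with hDd
  have hD0 : 0 ≤ D := by positivity
  have b1 : edgeSum ImbL ψ ψ F' F' ≤ Ci * D :=
    (himb ψ F' i hi1 hF' hψ hdiv).trans (le_of_eq (by rw [hDd]; ring))
  have b2 : edgeSum (fun v w => ImbL w v) ψ ψ F' F' ≤ Ci * D := by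
    rw [edgeSum_flip]; exact b1
  have b3 : edgeSum Sm ψ ψ F' F' ≤ |Cs| * D := by
    refine (hsmall γ ψ F' i his hF' hψ hdiv).trans ?_
    have h1 : 1 / z ≤ r ^ i := by
      rw [hrd, hzd, zpar, ← Real.rpow_natCast ((2 : ℝ) ^ (-(10 * ε))) i, ← Real.rpow_mul two_pos.le,
        one_div, ← Real.rpow_natCast, ← Real.rpow_neg two_pos.le]
      exact Real.rpow_le_rpow_of_exponent_le one_le_two (by nlinarith [(Nat.cast_nonneg i : (0 : ℝ) ≤ i)])
    calc Cs * y / z * (X' + X' ^ 2) = Cs * (1 / z * (y * (X' + X' ^ 2))) := by ring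
      _ ≤ |Cs| * (r ^ i * (y * (X' + X' ^ 2))) := by
          refine mul_le_mul (le_abs_self Cs) (mul_le_mul_of_nonneg_right h1 (by positivity)) (by positivity)
            (abs_nonneg _)
      _ = |Cs| * D := by rw [hDd]; ring
  have b4 : edgeSum Lg ψ ψ F' F' ≤ (Ce + Cn) * D := by
    refine (edgeSum_or (E₁ := fun v w => Large γ ψ i v w ∧ Exc γ i (cof v w))
      (E₂ := fun v w => Large γ ψ i v w ∧ ¬ Exc γ i (cof v w)) hnn hnn fun v _ w _ h => ?_).trans ?_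
    · by_cases he : Exc γ i (cof v w)
      · exact Or.inl ⟨h, he⟩
      · exact Or.inr ⟨h, he⟩
    have e1 := hexc γ ψ F' i hi1 hF' hψ hdiv
    have e2 := hnon γ ψ F' i hi1 hF' hψ hdiv fun q hq => (htyp' q hq).2
    refine (add_le_add e1 e2).trans (le_of_eq ?_)
    rw [hDd]; ring
  have b5 : edgeSum (fun v w => Lg w v) ψ ψ F' F' ≤ (Ce + Cn) * D := by
    rw [edgeSum_flip]; exact b4
  refine (edgeSum_or (E₁ := ImbL) (E₂ := fun v w => ImbL w v ∨ Sm v w ∨ Lg v w ∨ Lg w v) hnn hnn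
    fun v hv w hw h => ?_).trans ?_
  · obtain ⟨hne, hlive, -, hD'⟩ := h
    have hb2 : (cof w v : ℝ) * ψ v ≤ y := le_trans (le_max_left _ _) hD'
    have ha2 : (cof v w : ℝ) * ψ w ≤ y := le_trans (le_max_right _ _) hD'
    by_cases h1 : (cof w v : ℝ) * ψ v ≤ y / z ^ 2
    · exact Or.inl ⟨h1, ha2⟩
    by_cases h2 : (cof v w : ℝ) * ψ w ≤ y / z ^ 2
    · exact Or.inr (Or.inl ⟨h2, hb2⟩)
    have hbal : Bal ψ i v w := ⟨(not_le.1 h1).le, hb2, (not_le.1 h2).le, ha2⟩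
    refine Or.inr (Or.inr ?_)
    rcases le_total (cof w v) (cof v w) with h3 | h3
    · by_cases h4 : (cof v w : ℝ) ≤ z ^ smallExp
      · exact Or.inl ⟨hne, hlive, hbal, h4, le_trans (by exact_mod_cast h3) h4⟩
      · exact Or.inr (Or.inl ⟨hne, hlive, hbal, h3, not_le.1 h4⟩)
    · by_cases h4 : (cof w v : ℝ) ≤ z ^ smallExp
      · exact Or.inl ⟨hne, hlive, hbal, le_trans (by exact_mod_cast h3) h4, h4⟩
      · exact Or.inr (Or.inr ⟨hne.symm, hlive.symm, hbal.symm, h3, not_le.1 h4⟩)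
  have c1 : edgeSum (fun v w => ImbL w v ∨ Sm v w ∨ Lg v w ∨ Lg w v) ψ ψ F' F' ≤
      Ci * D + (|Cs| * D + ((Ce + Cn) * D + (Ce + Cn) * D)) := by
    refine (edgeSum_or hnn hnn fun v _ w _ h => h).trans (add_le_add b2 ?_)
    refine (edgeSum_or hnn hnn fun v _ w _ h => h).trans (add_le_add b3 ?_)
    exact (edgeSum_or hnn hnn fun v _ w _ h => h).trans (add_le_add b4 b5)
  refine (add_le_add b1 c1).trans ?_
  have hfin : D ≤ r ^ i * y * (X + X ^ 2) := mul_le_mul_of_nonneg_left hXX (by positivity)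
  calc Ci * D + (Ci * D + (|Cs| * D + ((Ce + Cn) * D + (Ce + Cn) * D)))
      = (2 * Ci + |Cs| + 2 * Ce + 2 * Cn) * D := by ring
    _ ≤ (2 * Ci + |Cs| + 2 * Ce + 2 * Cn) * (r ^ i * y * (X + X ^ 2)) :=
        mul_le_mul_of_nonneg_left hfin (by positivity)
    _ = _ := by ring

open Classical in
/-- Full measure from divergence on typical denominators. -/
theorem typical_support (γ τ C : ℝ) (ψ : ℕ → ℝ) (hτ : 0 < τ) (hψ : ∀ q, 0 ≤ ψ q)
    (hdiv : ¬ Summable fun q : ℕ =>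
      if ∑ p ∈ q.primeFactors, Real.log p ^ τ / p ≤ C then (q.totient : ℝ) / q * ψ q else 0) :
    volume ({x : ℝ | {q : ℕ | 0 < q ∧ ∃ a : ℤ, |(q : ℝ) * x - a - γ| < ψ q}.Infinite}ᶜ) = 0 := by
  obtain ⟨ρ, c, C', τ', hρ, hc, hC', hτ', hτ'1, htyp⟩ := typical τ C hτ
  set S : Set ℕ := {q : ℕ | 0 < q ∧ ∑ p ∈ q.primeFactors, Real.log p ^ τ / p ≤ C} with hSd
  set φ : ℕ → ℝ := fun q => if q ∈ S then min (ψ q) (1 / 8) else 0 with hφd
  have hφ0 : ∀ q, 0 ≤ φ q := fun q => by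
    simp only [hφd]; split_ifs <;> [exact le_min (hψ q) (by norm_num); exact le_rfl]
  have hφ8 : ∀ q, φ q ≤ 1 / 8 := fun q => by
    simp only [hφd]; split_ifs <;> [exact min_le_right _ _; norm_num]
  have hφψ : ∀ q, φ q ≤ ψ q := fun q => by
    simp only [hφd]; split_ifs <;> [exact min_le_left _ _; exact hψ q]
  have hφS : ∀ q : ℕ, φ q ≠ 0 → q ∈ S := fun q h => by
    by_contra hq; exact h (if_neg hq)
  have hns : ¬ Summable φ := by
    intro hs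
    refine hdiv (Summable.of_norm_bounded_eventually_nat hs ?_)
    have h8 : ∀ᶠ q : ℕ in Filter.atTop, φ q < 1 / 8 :=
      hs.tendsto_atTop_zero.eventually (Iio_mem_nhds (by norm_num))
    filter_upwards [h8, Filter.eventually_gt_atTop 0] with q hq hq0
    rw [Real.norm_eq_abs]
    split_ifs with hC
    · have hqS : q ∈ S := ⟨hq0, hC⟩
      have he : φ q = min (ψ q) (1 / 8) := by simp only [hφd]; exact if_pos hqS
      rw [he] at hq ⊢
      have hlt : ψ q < 1 / 8 := by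
        rcases min_lt_iff.1 hq with h | h
        · exact h
        · exact absurd h (lt_irrefl _)
      rw [min_eq_left hlt.le, abs_of_nonneg (mul_nonneg (by positivity) (hψ q))]
      refine mul_le_of_le_one_left (hψ q) ?_
      rw [div_le_one (by exact_mod_cast hq0)]
      exact_mod_cast Nat.totient_le q
    · simpa using hφ0 q
  obtain ⟨K, r, i₀, hr0, hr1, hlev⟩ := levels_le hρ hC' hτ' hτ'1
  refine measure_mono_null (Set.compl_subset_compl.mpr fun x hx => hx.mono ?_)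
    (glue γ φ hφ0 hφ8 c hc (fun q hq => (htyp q (hφS q hq).1 (hφS q hq).2).2.1) hns K r hr0 hr1 i₀
      (hlev γ φ hφ0 fun q _ hq =>
        ⟨(htyp q (hφS q hq).1 (hφS q hq).2).1, (htyp q (hφS q hq).1 (hφS q hq).2).2.2⟩))
  rintro q ⟨hq, a, ha⟩
  exact ⟨hq, a, ha.trans_le (hφψ q)⟩

end Vale.Agent.P028.DS
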