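import Vale.Agent.P028.DS.Interfaces
import Vale.Agent.P028.EV.Pair

/-!
P028, milestone A: the overlap of two trimmed sets.
-/

namespace Vale.Agent.P028.DS

open Finset Real MeasureTheory

variable {γ : ℝ} {ψ : ℕ → ℝ}

lemma allowed_add {q : ℕ} {a : ℤ} (j : ℤ) : Allowed γ ψ q (a + j * q) ↔ Allowed γ ψ q a := by
  refine forall₂_congr fun p hp => not_congr ?_
  set PQ := approx γ (ψ q)
  have h : (p : ℤ) ∣ (PQ.2 : ℤ) * (j * q) :=
    ((Int.natCast_dvd_natCast.mpr (Nat.dvd_of_mem_primeFactors hp)).mul_left j).mul_left _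
  rw [show (PQ.2 : ℤ) * (a + j * q) + PQ.1 = ((PQ.2 : ℤ) * a + PQ.1) + (PQ.2 : ℤ) * (j * q) by ring,
    dvd_add_left h]

lemma isOpen_A (q : ℕ) : IsOpen (A γ ψ q) := by
  have : A γ ψ q = ⋃ (a : ℤ) (_ : Allowed γ ψ q a), {x : ℝ | |(q : ℝ) * x - a - γ| < ψ q} := by
    ext x; simp [A]
  rw [this]
  exact isOpen_biUnion fun a _ => isOpen_lt (by fun_prop) continuous_const

lemma measurableSet_A (q : ℕ) : MeasurableSet (A γ ψ q) := (isOpen_A q).measurableSet

lemma A_add_int (q : ℕ) (x : ℝ) (j : ℤ) : x + j ∈ A γ ψ q ↔ x ∈ A γ ψ q := by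
  constructor
  · rintro ⟨a, ha, h⟩
    refine ⟨a + (-j) * q, (allowed_add (-j)).mpr ha, ?_⟩
    rwa [show (q : ℝ) * x - ((a + (-j) * q : ℤ) : ℝ) - γ = q * (x + j) - a - γ by push_cast; ring]
  · rintro ⟨a, ha, h⟩
    refine ⟨a + j * q, (allowed_add j).mpr ha, ?_⟩
    rwa [show (q : ℝ) * (x + j) - ((a + j * q : ℤ) : ℝ) - γ = q * x - a - γ by push_cast; ring]

lemma A_periodic (q : ℕ) (x : ℝ) : x + 1 ∈ A γ ψ q ↔ x ∈ A γ ψ q := by
  simpa using A_add_int (γ := γ) (ψ := ψ) q x 1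

lemma A_eq_empty {q : ℕ} (h : ψ q ≤ 0) : A γ ψ q = ∅ :=
  Set.eq_empty_iff_forall_notMem.mpr fun x ⟨a, _, ha⟩ =>
    (abs_nonneg ((q : ℝ) * x - a - γ)).not_gt (ha.trans_le h)

open Classical in
/-- Kept numerators of `d * a` and `d * b` whose intervals meet, one for each period. -/
noncomputable def pairs (γ : ℝ) (ψ : ℕ → ℝ) (d a b : ℕ) : Finset (ℤ × ℤ) :=
  let B : ℤ := ⌈(d : ℝ) * a * b + |γ| * (b + a) + EV.Del ψ d a b⌉
  (Finset.Ico (0 : ℤ) (d * a : ℕ) ×ˢ Finset.Icc (-B) B).filter fun x =>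
    Allowed γ ψ (d * a) x.1 ∧ Allowed γ ψ (d * b) x.2 ∧
      |((x.1 * b - x.2 * a : ℤ) : ℝ) + γ * ((b : ℝ) - a)| < EV.Del ψ d a b

/-- The overlap is at most the number of meeting intervals times the smaller length. -/
theorem volume_inter_le {d a b : ℕ} (hd : 0 < d) (ha : 0 < a) (hb : 0 < b)
    (h0 : 0 ≤ ψ (d * a)) (h1 : ψ (d * a) ≤ 1 / 4) (h0' : 0 ≤ ψ (d * b)) :
    (volume (A γ ψ (d * a) ∩ A γ ψ (d * b) ∩ Set.Ioc 0 1)).toReal ≤
      2 * EV.rad ψ d a b * (pairs γ ψ d a b).card := by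
  classical
  set q := d * a with hq
  set r := d * b with hr
  have hqR : (0 : ℝ) < (q : ℝ) := by rw [hq]; positivity
  have hrR : (0 : ℝ) < (r : ℝ) := by rw [hr]; positivity
  have hm0 : 0 ≤ EV.rad ψ d a b := le_min (div_nonneg h0 hqR.le) (div_nonneg h0' hrR.le)
  rw [EV.volume_window (S := A γ ψ q ∩ A γ ψ r) ((measurableSet_A q).inter (measurableSet_A r))
    (fun x j => and_congr (A_add_int q x j) (A_add_int r x j)) ((γ - 1 / 2) / q)]
  have hsub : A γ ψ q ∩ A γ ψ r ∩ Set.Ioc ((γ - 1 / 2) / q) ((γ - 1 / 2) / q + 1) ⊆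
      ⋃ x ∈ pairs γ ψ d a b, Set.Ioo (((x.1 : ℝ) + γ - ψ q) / q) (((x.1 : ℝ) + γ + ψ q) / q) ∩
        Set.Ioo (((x.2 : ℝ) + γ - ψ r) / r) (((x.2 : ℝ) + γ + ψ r) / r) := by
    rintro x ⟨⟨⟨u, hu, hux⟩, v, hv, hvx⟩, hx1, hx2⟩
    rw [div_lt_iff₀ hqR] at hx1
    have hx2' : (x - 1) * q ≤ γ - 1 / 2 := (le_div_iff₀ hqR).mp (by linarith)
    obtain ⟨hu1, hu2⟩ := abs_lt.mp hux
    obtain ⟨hv1, hv2⟩ := abs_lt.mp hvx
    have huI : u ∈ Finset.Ico (0 : ℤ) (q : ℕ) := by
      rw [Finset.mem_Ico]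
      constructor
      · have : ((-1 : ℤ) : ℝ) < u := by push_cast; nlinarith
        have := Int.cast_lt.mp this; omega
      · have : (u : ℝ) < ((q : ℤ) : ℝ) := by push_cast; nlinarith
        exact Int.cast_lt.mp this
    have haR : (0 : ℝ) < a := by exact_mod_cast ha
    have hbR : (0 : ℝ) < b := by exact_mod_cast hb
    have hres : |((u * b - v * a : ℤ) : ℝ) + γ * ((b : ℝ) - a)| < EV.Del ψ d a b := by
      have e : ((u * b - v * a : ℤ) : ℝ) + γ * ((b : ℝ) - a) =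
          a * ((r : ℝ) * x - v - γ) - b * ((q : ℝ) * x - u - γ) := by
        rw [hq, hr]; push_cast; ring
      rw [e, EV.Del, ← hq, ← hr]
      refine (abs_sub _ _).trans_lt ?_
      rw [abs_mul, abs_mul, Nat.abs_cast, Nat.abs_cast, add_comm]
      exact add_lt_add (mul_lt_mul_of_pos_left hux hbR) (mul_lt_mul_of_pos_left hvx haR)
    have hvI : |(v : ℝ)| ≤ (d : ℝ) * a * b + |γ| * (b + a) + EV.Del ψ d a b := by
      have hu0 : |(u : ℝ)| ≤ q := by
        rw [Finset.mem_Ico] at huI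
        rw [abs_of_nonneg (by exact_mod_cast huI.1)]
        exact_mod_cast huI.2.le
      have h2 : |γ * ((b : ℝ) - a)| ≤ |γ| * (b + a) := by
        rw [abs_mul]
        refine mul_le_mul_of_nonneg_left (abs_le.mpr ⟨by linarith, by linarith⟩) (abs_nonneg γ)
      have h3 : |(v : ℝ) * a| ≤ (q : ℝ) * b + |γ| * (b + a) + EV.Del ψ d a b := by
        have e : (v : ℝ) * a = (u : ℝ) * b + γ * ((b : ℝ) - a)
            - (((u * b - v * a : ℤ) : ℝ) + γ * ((b : ℝ) - a)) := by push_cast; ring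
        rw [e]
        refine (abs_sub _ _).trans (add_le_add ((abs_add_le _ _).trans (add_le_add ?_ h2)) hres.le)
        rw [abs_mul, Nat.abs_cast]
        exact mul_le_mul_of_nonneg_right hu0 hbR.le
      have h4 : |(v : ℝ)| * 1 ≤ |(v : ℝ)| * a :=
        mul_le_mul_of_nonneg_left (by exact_mod_cast ha) (abs_nonneg _)
      rw [abs_mul, Nat.abs_cast] at h3
      have hqab : (q : ℝ) * b = (d : ℝ) * a * b := by rw [hq]; push_cast; ring
      linarith
    refine Set.mem_iUnion₂.mpr ⟨(u, v), ?_, ?_, ?_⟩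
    · simp only [pairs, Finset.mem_filter, Finset.mem_product, Finset.mem_Icc]
      refine ⟨⟨huI, ?_⟩, hu, hv, hres⟩
      have := (Int.le_ceil ((d : ℝ) * a * b + |γ| * (b + a) + EV.Del ψ d a b))
      have h5 : |v| ≤ ⌈(d : ℝ) * a * b + |γ| * (b + a) + EV.Del ψ d a b⌉ := by
        have : ((|v| : ℤ) : ℝ) ≤ _ := (by push_cast; exact hvI.trans this)
        exact Int.cast_le.mp this
      exact abs_le.mp h5
    · simp only [Set.mem_Ioo, div_lt_iff₀ hqR, lt_div_iff₀ hqR]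
      constructor <;> linarith
    · simp only [Set.mem_Ioo, div_lt_iff₀ hrR, lt_div_iff₀ hrR]
      constructor <;> linarith
  have hvol : volume (A γ ψ q ∩ A γ ψ r ∩ Set.Ioc ((γ - 1 / 2) / q) ((γ - 1 / 2) / q + 1)) ≤
      ((pairs γ ψ d a b).card : ℕ) * ENNReal.ofReal (2 * EV.rad ψ d a b) := by
    refine (measure_mono hsub).trans ((measure_biUnion_finset_le _ _).trans ?_)
    rw [← nsmul_eq_mul, ← Finset.sum_const]
    refine Finset.sum_le_sum fun x _ => ?_
    rw [EV.rad, ← hq, ← hr, mul_min_of_nonneg _ _ (by norm_num : (0 : ℝ) ≤ 2), ENNReal.ofReal_min]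
    refine le_min ?_ ?_
    · refine (measure_mono Set.inter_subset_left).trans (le_of_eq ?_)
      rw [Real.volume_Ioo]; congr 1; field_simp; ring
    · refine (measure_mono Set.inter_subset_right).trans (le_of_eq ?_)
      rw [Real.volume_Ioo]; congr 1; field_simp; ring
  refine (ENNReal.toReal_mono (by finiteness) hvol).trans (le_of_eq ?_)
  rw [ENNReal.toReal_mul, ENNReal.toReal_natCast, ENNReal.toReal_ofReal (by linarith)]
  ring

/-- At most `d` pairs share an offset, and the offsets lie in an interval. -/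
theorem card_pairs_le {d a b : ℕ} (ha : 0 < a) (hb : 0 < b) (hab : a.Coprime b)
    (hΔ : 0 ≤ EV.Del ψ d a b) :
    ((pairs γ ψ d a b).card : ℝ) ≤ d * (2 * EV.Del ψ d a b + 1) := by
  classical
  have hmem : ∀ x ∈ pairs γ ψ d a b, 0 ≤ x.1 ∧ x.1 < (d * a : ℕ) ∧
      |((x.1 * b - x.2 * a : ℤ) : ℝ) + γ * ((b : ℝ) - a)| < EV.Del ψ d a b := by
    intro x hx
    simp only [pairs, Finset.mem_filter, Finset.mem_product, Finset.mem_Ico] at hx
    exact ⟨hx.1.1.1, hx.1.1.2, hx.2.2.2⟩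
  set f : ℤ × ℤ → ℤ := fun x => x.1 * b - x.2 * a with hf
  have hfib : ∀ L ∈ (pairs γ ψ d a b).image f,
      ((pairs γ ψ d a b).filter fun x => f x = L).card ≤ d := by
    intro L _
    refine (Finset.card_le_card_of_injOn (fun x => (x.1 / (a : ℤ)).toNat) (t := Finset.range d)
      ?_ ?_).trans (Finset.card_range d).le
    · intro x hx
      obtain ⟨h0, h1, -⟩ := hmem x (Finset.mem_filter.mp hx).1
      simp only [Finset.coe_range, Set.mem_Iio]
      have e1 : x.1 / (a : ℤ) < (d : ℤ) := by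
        rw [Int.ediv_lt_iff_lt_mul (by exact_mod_cast ha)]; exact_mod_cast h1
      have e2 : 0 ≤ x.1 / (a : ℤ) := Int.ediv_nonneg h0 (by positivity)
      omega
    · intro x hx y hy hxy
      obtain ⟨hx, hxL⟩ := Finset.mem_filter.mp hx
      obtain ⟨hy, hyL⟩ := Finset.mem_filter.mp hy
      simp only [hf] at hxL hyL hxy
      have e : x.1 / (a : ℤ) = y.1 / (a : ℤ) := by
        have p1 := Int.ediv_nonneg (hmem x hx).1 (show (0 : ℤ) ≤ a by positivity)
        have p2 := Int.ediv_nonneg (hmem y hy).1 (show (0 : ℤ) ≤ a by positivity)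
        omega
      have hdvd : (a : ℤ) ∣ x.1 - y.1 := by
        have hc : IsCoprime (a : ℤ) (b : ℤ) := Int.isCoprime_iff_nat_coprime.mpr (by simpa using hab)
        exact hc.dvd_of_dvd_mul_right ⟨x.2 - y.2, by linarith⟩
      have h1 : x.1 = y.1 := by
        have m1 : x.1 % (a : ℤ) = y.1 % (a : ℤ) :=
          (Int.emod_eq_emod_iff_emod_sub_eq_zero).mpr (Int.emod_eq_zero_of_dvd hdvd)
        have m2 := Int.emod_add_mul_ediv x.1 (a : ℤ)
        have m3 := Int.emod_add_mul_ediv y.1 (a : ℤ)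
        rw [m1, e] at m2
        linarith
      have h2 : (x.2 : ℤ) * a = y.2 * a := by rw [h1] at hxL; linarith
      exact Prod.ext h1 (mul_right_cancel₀ (by exact_mod_cast ha.ne') h2)
  have himg : (((pairs γ ψ d a b).image f).card : ℝ) ≤ 2 * EV.Del ψ d a b + 1 := by
    refine (EV.card_le_of_bounds _ (l := -EV.Del ψ d a b - γ * ((b : ℝ) - a))
      (u := EV.Del ψ d a b - γ * ((b : ℝ) - a)) (by linarith) fun L hL => ?_).trans (le_of_eq (by ring))
    obtain ⟨x, hx, rfl⟩ := Finset.mem_image.mp hL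
    obtain ⟨l1, l2⟩ := abs_lt.mp (hmem x hx).2.2
    rw [hf]
    push_cast at *
    constructor <;> linarith
  have h := Finset.card_le_mul_card_image (pairs γ ψ d a b) d hfib
  refine le_trans ?_ (mul_le_mul_of_nonneg_left himg (Nat.cast_nonneg d))
  exact_mod_cast h

/-- A kept meeting pair gives a live offset. -/
theorem liveAt_of_mem {d a b : ℕ} (ha : 0 < a) (hb : 0 < b) (hab : a.Coprime b) (hd : 0 < d)
    (h0 : 0 ≤ ψ (d * a)) (h0' : 0 ≤ ψ (d * b)) {x : ℤ × ℤ} (hx : x ∈ pairs γ ψ d a b) :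
    LiveAt γ ψ (d * a) (d * b) (x.1 * b - x.2 * a) := by
  have hg : Nat.gcd (d * a) (d * b) = d := by
    rw [Nat.gcd_mul_left, hab.gcd_eq_one, mul_one]
  have ea : cof (d * a) (d * b) = a := by rw [cof, hg, Nat.mul_div_cancel_left a hd]
  have eb : cof (d * b) (d * a) = b := by
    rw [cof, Nat.gcd_comm, hg, Nat.mul_div_cancel_left b hd]
  simp only [pairs, Finset.mem_filter] at hx
  obtain ⟨-, hu, hv, hres⟩ := hx
  have hc : IsCoprime (a : ℤ) (b : ℤ) := Int.isCoprime_iff_nat_coprime.mpr (by simpa using hab)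
  refine ⟨?_, fun ha2 heq => ?_, fun hb2 heq => ?_⟩
  · rw [ea, eb]
    refine hres.trans_le ?_
    rw [EV.Del, rangeD, ea, eb, two_mul]
    exact add_le_add (le_max_left _ _) (le_max_right _ _)
  · rw [ea] at ha2 heq
    rw [eb] at heq
    obtain ⟨p, hp, hpa⟩ := Nat.exists_prime_and_dvd (show a ≠ 1 by omega)
    set PQ := approx γ (ψ (d * a))
    have hdiv : (a : ℤ) ∣ (PQ.2 : ℤ) * x.1 + PQ.1 :=
      hc.dvd_of_dvd_mul_right ⟨(PQ.2 : ℤ) * x.2 + PQ.1, by linear_combination heq⟩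
    exact hu p (Nat.mem_primeFactors.mpr ⟨hp, hpa.trans (dvd_mul_left a d), by positivity⟩)
      ((Int.natCast_dvd_natCast.mpr hpa).trans hdiv)
  · rw [eb] at hb2 heq
    rw [ea] at heq
    obtain ⟨p, hp, hpb⟩ := Nat.exists_prime_and_dvd (show b ≠ 1 by omega)
    set PQ := approx γ (ψ (d * b))
    have hdiv : (b : ℤ) ∣ (PQ.2 : ℤ) * x.2 + PQ.1 :=
      hc.symm.dvd_of_dvd_mul_right ⟨(PQ.2 : ℤ) * x.1 + PQ.1, by linear_combination -heq⟩
    exact hv p (Nat.mem_primeFactors.mpr ⟨hp, hpb.trans (dvd_mul_left b d), by positivity⟩)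
      ((Int.natCast_dvd_natCast.mpr hpb).trans hdiv)

open Classical in
/-- Overlap of two trimmed sets. -/
theorem overlap : OverlapStatement := by
  intro γ ψ v w hv hw h0 h1 h0' _
  have hrhs : (0 : ℝ) ≤ if Live γ ψ v w then 16 * ψ v * ψ w * (1 + 1 / rangeD ψ v w) else 0 := by
    split_ifs
    · have : 0 ≤ rangeD ψ v w := le_max_of_le_left (mul_nonneg (Nat.cast_nonneg _) h0)
      positivity
    · exact le_rfl
  rcases h0.eq_or_lt with e | hpv
  · rw [A_eq_empty (γ := γ) e.ge, Set.empty_inter, Set.empty_inter, measure_empty,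
      ENNReal.toReal_zero]
    exact hrhs
  rcases h0'.eq_or_lt with e | hpw
  · rw [A_eq_empty (γ := γ) (q := w) e.ge, Set.inter_empty, Set.empty_inter, measure_empty,
      ENNReal.toReal_zero]
    exact hrhs
  obtain ⟨d, a, b, hd, hab, hva, hwb⟩ := Nat.exists_coprime' (m := v) (n := w)
    (Nat.gcd_pos_of_pos_left _ hv)
  have ha : 0 < a := pos_of_mul_pos_left (hva ▸ hv) (Nat.zero_le _)
  have hb : 0 < b := pos_of_mul_pos_left (hwb ▸ hw) (Nat.zero_le _)
  rw [mul_comm] at hva hwb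
  subst hva hwb
  have hΔ : 0 ≤ EV.Del ψ d a b := by rw [EV.Del]; positivity
  have hvol := volume_inter_le (γ := γ) hd ha hb h0 h1 h0'
  by_cases hlive : Live γ ψ (d * a) (d * b)
  · rw [if_pos hlive]
    have hg : Nat.gcd (d * a) (d * b) = d := by
      rw [Nat.gcd_mul_left, hab.gcd_eq_one, mul_one]
    have eD : rangeD ψ (d * a) (d * b) = max ((b : ℝ) * ψ (d * a)) ((a : ℝ) * ψ (d * b)) := by
      rw [rangeD, cof, cof, Nat.gcd_comm (d * b), hg, Nat.mul_div_cancel_left b hd,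
        Nat.mul_div_cancel_left a hd]
    set D := rangeD ψ (d * a) (d * b) with hD
    have hbD : (b : ℝ) * ψ (d * a) ≤ D := eD ▸ le_max_left _ _
    have haD : (a : ℝ) * ψ (d * b) ≤ D := eD ▸ le_max_right _ _
    have hD0 : 0 < D := lt_of_lt_of_le (by positivity) hbD
    have hrad : EV.rad ψ d a b * d ≤ ψ (d * a) * ψ (d * b) / D := by
      rw [le_div_iff₀ hD0, eD]
      have hr0 : 0 ≤ EV.rad ψ d a b * d :=
        mul_nonneg (le_min (by positivity) (by positivity)) (Nat.cast_nonneg d)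
      rw [mul_max_of_nonneg _ _ hr0]
      refine max_le ?_ ?_
      · calc EV.rad ψ d a b * d * ((b : ℝ) * ψ (d * a))
            ≤ ψ (d * b) / ((d * b : ℕ) : ℝ) * d * ((b : ℝ) * ψ (d * a)) := by
              gcongr; exact min_le_right _ _
          _ = _ := by push_cast; field_simp
      · calc EV.rad ψ d a b * d * ((a : ℝ) * ψ (d * b))
            ≤ ψ (d * a) / ((d * a : ℕ) : ℝ) * d * ((a : ℝ) * ψ (d * b)) := by
              gcongr; exact min_le_left _ _
          _ = _ := by push_cast; field_simp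
    have hDel : EV.Del ψ d a b ≤ 2 * D := by rw [EV.Del]; linarith
    refine hvol.trans ?_
    have hc := card_pairs_le (γ := γ) ha hb hab hΔ
    calc 2 * EV.rad ψ d a b * ((pairs γ ψ d a b).card : ℝ)
        ≤ 2 * EV.rad ψ d a b * (d * (2 * EV.Del ψ d a b + 1)) :=
          mul_le_mul_of_nonneg_left hc (mul_nonneg zero_le_two
            (le_min (by positivity) (by positivity)))
      _ = 2 * (EV.rad ψ d a b * d) * (2 * EV.Del ψ d a b + 1) := by ring
      _ ≤ 2 * (ψ (d * a) * ψ (d * b) / D) * (4 * D + 1) := by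
          refine mul_le_mul (by linarith) (by linarith) (by linarith) (by positivity)
      _ = ψ (d * a) * ψ (d * b) * (8 + 2 / D) := by field_simp; ring
      _ ≤ 16 * ψ (d * a) * ψ (d * b) * (1 + 1 / D) := by
          have hP : 0 ≤ ψ (d * a) * ψ (d * b) := mul_nonneg h0 h0'
          have h2 : 2 / D ≤ 16 * (1 / D) := by rw [mul_one_div]; gcongr; norm_num
          have := mul_le_mul_of_nonneg_left (show 8 + 2 / D ≤ 16 * (1 + 1 / D) by linarith) hP
          linarith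
  · rw [if_neg hlive]
    have he : pairs γ ψ d a b = ∅ := Finset.eq_empty_of_forall_notMem fun x hx =>
      hlive ⟨_, liveAt_of_mem ha hb hab hd h0 h0' hx⟩
    rwa [he, Finset.card_empty, Nat.cast_zero, mul_zero] at hvol

end Vale.Agent.P028.DS
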